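import Crest.Agent.R134.Defs

/-! Row 134: the vector field is divergence-free. -/

set_option autoImplicit false
set_option linter.unusedSimpArgs false

open Filter Topology
open scoped ComplexConjugate

namespace Crest.Agent.R134

open Crest.Agent.R095

variable {A : Type*} [CStarAlgebra A] {τ : Tr A} {P : StarSubalgebra ℂ A} {u S : A}

lemma tr_der_cyc (η ζ f g : Pol P) :
    τ (ev P u S (der η ζ (f * g))) = τ (ev P u S (der η ζ (g * f))) := by
  simp only [der_mul, map_add, map_mul, Tr.map_add]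
  rw [add_comm, τ.comm (ev P u S f), τ.comm (ev P u S g)]

lemma tr_der_SF (hSD : SD τ P u S) {X Y : Pol P} (hX : X ∈ SF P) (hY : Y ∈ SF P) (ζ : Pol P)
    {g : Pol P} (hg : g ∈ SF P) : ∀ L ∈ adj1 P u, ∀ R ∈ adj1 P u,
      τ (L * ev P u S (der (X * ps * Y) ζ g) * R) = 0 := by
  have hX' : ev P u S X ∈ adj1 P u := ev_mem_adj1 hX
  have hY' : ev P u S Y ∈ adj1 P u := ev_mem_adj1 hY
  have key : ∀ L ∈ adj1 P u, ∀ R ∈ adj1 P u, τ (L * (S * R)) = 0 := by
    intro L hL R hR
    rw [τ.comm, mul_assoc]
    exact hSD.tr_mul (mul_mem hR hL)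
  induction hg using SF_induction with
  | halg r => intro L _ R _; simp
  | hc x => intro L _ R _; simp
  | hu =>
    intro L hL R hR
    have := key _ (mul_mem hL hX') _ (mul_mem hY' (mul_mem self_mem_adj1 hR))
    simpa [mul_assoc] using this
  | hus =>
    intro L hL R hR
    have := key _ (mul_mem hL (mul_mem (star_mem self_mem_adj1) hX')) _ (mul_mem hY' hR)
    simpa [mul_assoc] using this
  | hmul f g hf hg h1 h2 =>
    intro L hL R hR
    have e1 := h1 L hL _ (mul_mem (ev_mem_adj1 (S := S) hg) hR)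
    have e2 := h2 _ (mul_mem hL (ev_mem_adj1 (S := S) hf)) R hR
    simp only [der_mul, map_add, map_mul, mul_add, add_mul, Tr.map_add, mul_assoc] at e1 e2 ⊢
    rw [e1, e2, add_zero]
  | hadd f g _ _ h1 h2 =>
    intro L hL R hR
    simp only [map_add, mul_add, add_mul, Tr.map_add, h1 L hL R hR, h2 L hL R hR, add_zero]

lemma wd_mem_SF {C : Type*} {l : List (Let C)} (hl : Let.s ∉ l) : wd l ∈ SF C := by
  induction l with
  | nil => exact one_mem _
  | cons x l ih =>
    rw [List.mem_cons, not_or] at hl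
    rw [wd_cons]
    exact mul_mem (of_mem_SF (Ne.symm hl.1)) (ih hl.2)

lemma DS_der_claim {X Y ζ : Pol P} (hX : X ∈ SF P) (hY : Y ∈ SF P) (hζ : ζ ∈ SF P) {n : ℕ}
    (ih : ∀ l : List (Let P), l.length < n → τ (ev P u S (der (X * ps * Y) ζ (wd l))) = 0)
    (g : List (Let P)) : ∀ l : List (Let P), l.length + g.length < n →
      τ (ev P u S (wd l) * DS τ P u S (der (X * ps * Y) ζ (wd g)) 1) +
        τ (ev P u S (der (X * ps * Y) ζ (wd l)) * DS τ P u S (wd g) 1) =
      τ (ev P u S X * ev P u S (wd l) * DU τ P u S (wd g) (ev P u S Y)) := by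
  induction g with
  | nil => intro l _; simp
  | cons x g ihg =>
    intro l hl
    rw [List.length_cons] at hl
    have h1 := ihg (l ++ [x]) (by simp; omega)
    have h2 := ih l (by omega)
    have h3 := ih g (by omega)
    have key : τ (ev P u S (wd l) * DS τ P u S (der (X * ps * Y) ζ (Pol.of x)) (ev P u S (wd g))) +
        τ (ev P u S (wd l) * DS τ P u S (Pol.of x) (ev P u S (der (X * ps * Y) ζ (wd g)))) +
        τ (ev P u S (der (X * ps * Y) ζ (wd l)) * DS τ P u S (Pol.of x) (ev P u S (wd g))) =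
        τ (ev P u S X * ev P u S (wd l) *
          DU τ P u S (Pol.of x) (ev P u S (wd g) * ev P u S Y)) := by
      cases x with
      | c x => simp
      | s => simp [DS_SF hζ, h2, h3]
      | u =>
        simp only [der_pu, DS_mul_apply, DS_SF hX, DS_SF hY, DS_pu, DS_ps, DU_pu,
          LinearMap.zero_apply, mul_zero, add_zero, zero_add, Tr.map_zero, eT_apply,
          Module.End.mul_apply, Lm_apply, mul_smul_comm, mul_one, Tr.map_smul, ev_pu]
        rw [τ.comm (ev P u S X), τ.comm (ev P u S Y), mul_assoc]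
      | us =>
        simp only [der_pus, map_neg, LinearMap.neg_apply, DS_mul_apply, DS_SF hX, DS_SF hY,
          DS_pus, DS_ps, DU_pus,
          LinearMap.zero_apply, mul_zero, add_zero, zero_add, Tr.map_zero, eT_apply,
          Module.End.mul_apply, Lm_apply, mul_smul_comm, mul_one, Tr.map_smul, ev_pus, mul_neg,
          Tr.map_neg]
        rw [τ.comm (ev P u S Y), mul_assoc (ev P u S X), τ.comm (ev P u S X), mul_assoc]
    simp only [wd_append, wd_cons, wd_nil, mul_one, der_mul, map_add, map_mul, DS_mul_apply,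
      DU_mul_apply, LinearMap.add_apply, mul_add, add_mul, Tr.map_add, mul_assoc] at h1 key ⊢
    linear_combination h1 + key

lemma red_seg (a : ℕ → P) (n : ℕ) :
    ∀ i, Red τ (P : Set A) u true (ev P u S (seg a i (n + 1))) := by
  induction n with
  | zero =>
    intro i
    have := Red.last (τ := τ) (S := (P : Set A)) (b := u) true (a i) (a i).2
    simpa [seg_succ] using this
  | succ n ih =>
    intro i
    have := Red.cons (τ := τ) (S := (P : Set A)) (b := u) true true (a i) _ (a i).2
      (fun h => absurd rfl h) (ih (i + 1))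
    rw [seg_succ']
    simpa using this

lemma tr_seg (hF : Free τ (P : Set A) u) (a : ℕ → P) (i n : ℕ) :
    τ (ev P u S (seg a i (n + 1))) = 0 := hF.2 _ _ (red_seg a n i)

lemma tr_star_seg (hF : Free τ (P : Set A) u) (a : ℕ → P) (i n : ℕ) :
    τ (ev P u S (star (seg a i (n + 1)))) = 0 := by
  rw [ev_star_SF (seg_mem_SF _ _ _), τ.map_star, tr_seg hF, map_zero]

lemma tr_DU_star_seg (hF : Free τ (P : Set A) u) (a : ℕ → P) (n : ℕ) :
    ∀ (i : ℕ) (R : A), τ (DU τ P u S (star (seg a i n)) R) = 0 := by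
  induction n with
  | zero => intro i R; simp
  | succ n ih =>
    intro i R
    have h := tr_star_seg (S := S) hF a i n
    rw [seg_succ'] at h ⊢
    simp only [star_mul, star_pu, star_pc, map_mul, ev_pus] at h
    simp only [star_mul, star_pu, star_pc, DU_mul_apply, DU_pc, DU_pus, LinearMap.zero_apply,
      zero_add, LinearMap.neg_apply, Module.End.mul_apply, eT_apply, Lm_apply, mul_smul_comm,
      mul_one, mul_neg, Tr.map_add, Tr.map_neg, Tr.map_smul, ih, h, mul_zero, neg_zero]

lemma DU_star_seg_one (hF : Free τ (P : Set A) u) (a : ℕ → P) (i n : ℕ) :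
    DU τ P u S (star (seg a i (n + 1))) 1 = -ev P u S (star (seg a i (n + 1))) := by
  induction n with
  | zero => simp [seg_succ, DU_mul_apply]
  | succ n ih =>
    rw [seg_succ a i (n + 1), star_mul, DU_mul_apply, ih, mul_one]
    simp [DU_mul_apply, tr_star_seg hF]

lemma tr_DU_seg (hF : Free τ (P : Set A) u) (a : ℕ → P) (i n : ℕ) :
    ∀ R : A, τ (DU τ P u S (seg a i (n + 1)) R) = τ (ev P u S (seg a i (n + 1)) * R) := by
  induction n with
  | zero => intro R; simp [seg_succ, DU_mul_apply, mul_assoc]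
  | succ n ih =>
    intro R
    rw [seg_succ a i (n + 1), DU_mul_apply, Tr.map_add, ih]
    simp [DU_mul_apply, tr_seg hF, mul_assoc]

lemma DU_seg_one (hF : Free τ (P : Set A) u) (a : ℕ → P) (n : ℕ) :
    ∀ i, DU τ P u S (seg a i n) 1 = 0 := by
  induction n with
  | zero => intro i; simp
  | succ n ih =>
    intro i
    have h := tr_seg (S := S) hF a i n
    rw [seg_succ'] at h ⊢
    simp only [map_mul, ev_pu, ev_pc, mul_assoc] at h
    simp [DU_mul_apply, ih, h, mul_assoc]

/-- One term `X s Y` of the vector field. -/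
theorem divfree_term (hSD : SD τ P u S) {X Y : Pol P} (hX : X ∈ SF P) (hY : Y ∈ SF P) (ε : ℂ)
    (h : ∀ g : Pol P, τ (ev P u S X * DU τ P u S g (ev P u S Y)) =
      ε * τ (ev P u S (g * (Y * X)))) (f : Pol P) :
    τ (ev P u S (der (X * ps * Y) (-(ε • (Y * X))) f)) = 0 := by
  have hζ : -(ε • (Y * X)) ∈ SF P := neg_mem (Subalgebra.smul_mem _ (mul_mem hY hX) _)
  have main : ∀ n : ℕ, ∀ l : List (Let P), l.length = n →
      τ (ev P u S (der (X * ps * Y) (-(ε • (Y * X))) (wd l))) = 0 := by
    intro n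
    induction n using Nat.strong_induction_on with
    | _ n ih =>
      intro l hl
      by_cases hs : Let.s ∈ l
      · obtain ⟨l₁, l₂, rfl⟩ := List.append_of_mem hs
        have h1 := DS_der_claim hX hY hζ (n := n) (fun l' hl' => ih _ hl' l' rfl) (l₂ ++ l₁) []
          (by simp at hl ⊢; omega)
        rw [wd_append, tr_der_cyc, wd_cons, mul_assoc (Pol.of Let.s), ← wd_append, der_mul, map_add, Tr.map_add,
          map_mul (ev P u S), map_mul (ev P u S), ev_ps, hSD, der_ps]
        simp only [wd_nil, map_one, one_mul, der_one, map_zero, zero_mul, Tr.map_zero, add_zero,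
          mul_one] at h1
        rw [h1, h, τ.comm]
        simp
      · simpa using tr_der_SF hSD hX hY _ (wd_mem_SF hs) 1 (one_mem _) 1 (one_mem _)
  induction f using wd_induction with
  | hwd l => exact main _ l rfl
  | hzero => simp
  | hadd f g hf hg => rw [map_add, map_add, Tr.map_add, hf, hg, add_zero]
  | hsmul c f hf => rw [map_smul, map_smul, Tr.map_smul, hf, mul_zero]

/-- Negative words on both sides. -/
theorem du_neg (hF : Free τ (P : Set A) u) (hH : HSD τ P u S) (a : ℕ → P) (k n : ℕ) (p q : P)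
    (g : Pol P) :
    τ (ev P u S (star (seg a 0 k) * pc p) *
        DU τ P u S g (ev P u S (pc q * star (seg a k (n + 1))))) =
      τ (ev P u S (g * ((pc q * star (seg a k (n + 1))) * (star (seg a 0 k) * pc p)))) := by
  have h := hH ((star (seg a 0 k) * pc p) * (g * (pc q * star (seg a k (n + 1)))))
  rw [DU_mul_apply, DU_mul_apply, DU_mul_apply g, DU_mul_apply (pc q), DU_star_seg_one hF] at h
  simp only [DU_pc, LinearMap.zero_apply, mul_zero, add_zero, zero_add, Tr.map_add, mul_add,
    tr_DU_star_seg hF, mul_one, mul_neg, Tr.map_neg] at h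
  rw [← mul_assoc g, map_mul _ (g * _), τ.comm (ev P u S (g * _)), map_mul _ g, map_mul _ (pc q)]
  rw [map_mul _ (pc q)] at h
  linear_combination h

/-- Positive words on both sides. -/
theorem du_pos (hF : Free τ (P : Set A) u) (hH : HSD τ P u S) (a : ℕ → P) (k n : ℕ) (p q : P)
    (g : Pol P) :
    τ (ev P u S (seg a k (n + 1) * pc q) * DU τ P u S g (ev P u S (pc p * seg a 0 k))) =
      -τ (ev P u S (g * ((pc p * seg a 0 k) * (seg a k (n + 1) * pc q)))) := by
  have h := hH ((seg a k (n + 1) * pc q) * (g * (pc p * seg a 0 k)))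
  rw [DU_mul_apply, DU_mul_apply, DU_mul_apply g, DU_mul_apply (pc p), DU_seg_one hF] at h
  simp only [DU_pc, LinearMap.zero_apply, mul_zero, add_zero, Tr.map_add,
    tr_DU_seg hF, mul_one] at h
  rw [← mul_assoc g, map_mul _ (g * _), τ.comm (ev P u S (g * _))]
  rw [← mul_assoc, ← map_mul] at h
  linear_combination h

theorem divfree (hF : Free τ (P : Set A) u) (hSD : SD τ P u S) (hH : HSD τ P u S) (a : ℕ → P)
    {m : ℕ} (hm : 0 < m) {p q : P} (hp : star p = p) (hq : star q = q) (f : Pol P) :
    τ (ev P u S (der (vη a m p q) (vζ a m p q) f)) = 0 := by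
  have hm' : (m : ℂ) ≠ 0 := by exact_mod_cast hm.ne'
  have hζ : vζ a m p q = (m : ℂ)⁻¹ • ∑ _k ∈ Finset.range m, vζ a m p q := by
    rw [Finset.sum_const, Finset.card_range, ← Nat.cast_smul_eq_nsmul ℂ, smul_smul,
      inv_mul_cancel₀ hm', one_smul]
  rw [hζ, vη, der_smul, der_sum, map_smul, map_sum, Tr.map_smul, Tr.map_sum,
    Finset.sum_eq_zero, mul_zero]
  intro k hk
  obtain ⟨n, hn⟩ : ∃ n, m = k + (n + 1) := ⟨m - k - 1, by have := Finset.mem_range.1 hk; omega⟩
  have hmk : m - k = n + 1 := by omega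
  have hseg : seg a 0 m = seg a 0 k * seg a k (n + 1) := by rw [hn, seg_add, zero_add]
  have h1 := divfree_term hSD (X := star (seg a 0 k) * pc p) (Y := pc q * star (seg a k (n + 1)))
    (mul_mem (star_mem_SF (seg_mem_SF _ _ _)) (pc_mem_SF _))
    (mul_mem (pc_mem_SF _) (star_mem_SF (seg_mem_SF _ _ _))) 1
    (fun g => by rw [du_neg hF hH, one_mul]) f
  have h2 := divfree_term hSD (X := seg a k (n + 1) * pc q) (Y := pc p * seg a 0 k)
    (mul_mem (seg_mem_SF _ _ _) (pc_mem_SF _)) (mul_mem (pc_mem_SF _) (seg_mem_SF _ _ _)) (-1)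
    (fun g => by rw [du_pos hF hH, neg_one_mul]) f
  have e1 : star (seg a 0 k) * vZ p q * star (seg a k (m - k)) -
      seg a k (m - k) * star (vZ p q) * seg a 0 k =
      star (seg a 0 k) * pc p * ps * (pc q * star (seg a k (n + 1))) +
        (-1 : ℂ) • (seg a k (n + 1) * pc q * ps * (pc p * seg a 0 k)) := by
    simp only [hmk, vZ, star_mul, star_pc, star_ps, hp, hq, mul_assoc, neg_smul, one_smul,
      sub_eq_add_neg]
  have e2 : vζ a m p q =
      -((1 : ℂ) • (pc q * star (seg a k (n + 1)) * (star (seg a 0 k) * pc p))) +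
        (-1 : ℂ) • -((-1 : ℂ) • (pc p * seg a 0 k * (seg a k (n + 1) * pc q))) := by
    simp only [vζ, vB, hseg, star_mul, star_pc, hp, hq, mul_assoc, neg_smul, one_smul, neg_neg,
      neg_add_rev]
  rw [e1, e2, der_add, der_smul, map_add, map_smul, Tr.map_add, Tr.map_smul, h1, h2, mul_zero,
    add_zero]

end Crest.Agent.R134
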