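import Crest.Agent.R134.Ortho

/-! Row 134: the 2-norm estimates for the vector field. -/

set_option autoImplicit false

open Filter Topology
open scoped ComplexConjugate

namespace Crest.Agent.R134

open Crest.Agent.R095

variable {A : Type*} [CStarAlgebra A] {τ : Tr A} {P : StarSubalgebra ℂ A} {u S : A}

lemma est_key (hS : IsSelfAdjoint S) (hSD : SD τ P u S) {ι : Type*} (T : Finset ι) (X Y : ι → A)
    (hX : ∀ i, X i ∈ adj1 P u) (hY : ∀ i, Y i ∈ adj1 P u) {c : ℝ} (hc : 0 ≤ c)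
    (horth : ∀ i ∈ T, ∀ i' ∈ T, i ≠ i' →
      τ (star (X i') * X i) = 0 ∨ τ (Y i * star (Y i')) = 0)
    (hn : ∀ i ∈ T, τ.n2 (X i) * τ.n2 (Y i) ≤ c) :
    τ.n2 (∑ i ∈ T, X i * S * Y i) ≤ √T.card * c := by
  have h1 : ((τ.n2 (∑ i ∈ T, X i * S * Y i) : ℂ)) ^ 2 =
      ∑ i ∈ T, ((τ.n2 (X i) * τ.n2 (Y i) : ℝ) : ℂ) ^ 2 := by
    rw [τ.n2_sq_complex, star_sum, Finset.sum_mul, τ.map_sum]
    refine Finset.sum_congr rfl fun i' hi' => ?_
    have h2 : ∀ i, τ (star (X i' * S * Y i') * (X i * S * Y i)) =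
        τ (star (X i') * X i) * τ (Y i * star (Y i')) := by
      intro i
      rw [← hSD.two (mul_mem (star_mem (hX i')) (hX i)) (mul_mem (hY i) (star_mem (hY i'))),
        star_mul, star_mul, hS.star_eq, mul_assoc (star (Y i')), τ.comm]
      simp only [mul_assoc]
    rw [Finset.mul_sum, τ.map_sum, Finset.sum_eq_single i' _ (fun h => absurd hi' h), h2,
      Complex.ofReal_mul, mul_pow, τ.n2_sq_complex, ← τ.n2_star (Y i'), τ.n2_sq_complex, star_star]
    intro i hi hne
    rw [h2]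
    exact mul_eq_zero.2 (horth i hi i' hi' hne)
  have h2 : τ.n2 (∑ i ∈ T, X i * S * Y i) ^ 2 = ∑ i ∈ T, (τ.n2 (X i) * τ.n2 (Y i)) ^ 2 := by
    exact_mod_cast h1
  refine (pow_le_pow_iff_left₀ (τ.n2_nonneg _) (by positivity) two_ne_zero).1 ?_
  rw [h2, mul_pow, Real.sq_sqrt (Nat.cast_nonneg _), ← nsmul_eq_mul]
  exact Finset.sum_le_card_nsmul _ _ _ fun i hi =>
    pow_le_pow_left₀ (mul_nonneg (τ.n2_nonneg _) (τ.n2_nonneg _)) (hn i hi) 2

lemma est_der_seg {C : Type*} (η ζ : Pol C) (a : ℕ → C) (i n : ℕ) :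
    der η ζ (seg a i n) = ∑ j ∈ Finset.range n, seg a i j * η * seg a (i + j) (n - j) := by
  induction n with
  | zero => simp
  | succ n ih =>
    rw [seg_succ, der_mul, der_mul, ih, Finset.sum_range_succ, Finset.sum_mul]
    congr 1
    · refine Finset.sum_congr rfl fun j hj => ?_
      have hj' := Finset.mem_range.1 hj
      rw [show n + 1 - j = (n - j) + 1 by omega, seg_succ, show i + j + (n - j) = i + n by omega]
      simp only [mul_assoc]
    · simp [seg_succ, mul_assoc]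

lemma est_ev_eta (hS : IsSelfAdjoint S) (a : ℕ → P) (m : ℕ) {p q : P}
    (hp : IsStarProjection (p : A)) (hq : IsStarProjection (q : A)) :
    ev P u S (vη a m p q) = (m : ℂ)⁻¹ • ∑ k ∈ Finset.range m,
      (star (ev P u S (seg a 0 k)) * p * S * (q * star (ev P u S (seg a k (m - k)))) -
        ev P u S (seg a k (m - k)) * q * S * (p * ev P u S (seg a 0 k))) := by
  rw [vη, map_smul, map_sum]
  congr 1
  refine Finset.sum_congr rfl fun k _ => ?_
  simp only [map_sub, map_mul, ev_star hS, vZ, ev_pc, ev_ps, star_mul, hS.star_eq,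
    hp.isSelfAdjoint.star_eq, hq.isSelfAdjoint.star_eq, mul_assoc]

lemma est_tr_corner {p q : A} (hp : IsStarProjection p) (hq : IsStarProjection q) (v v' : A) :
    τ (star (p * v' * q) * (p * v * q)) = τ (star v' * p * v * q) := by
  have h1 : ∀ x, p * (p * x) = p * x := fun x => by rw [← mul_assoc, hp.isIdempotentElem.eq]
  rw [star_mul, star_mul, hp.isSelfAdjoint.star_eq, hq.isSelfAdjoint.star_eq, mul_assoc q, τ.comm]
  simp only [mul_assoc, h1, hq.isIdempotentElem.eq]

lemma est_n2_proj {p : A} (hp : IsStarProjection p) {α : ℝ} (hα : τ p = α) :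
    τ.n2 p = √α ∧ 0 ≤ α := by
  have h := τ.re_nonneg p
  rw [τ.n2_eq_sqrt]
  rw [hp.isSelfAdjoint.star_eq, hp.isIdempotentElem.eq, hα, Complex.ofReal_re] at h ⊢
  exact ⟨rfl, h⟩

lemma est_n2_corner_le {p q v : A} (hp : IsStarProjection p) (hq : IsStarProjection q)
    (hv : v ∈ unitary A) {α : ℝ} (hα : τ p = α) : τ.n2 (p * v * q) ≤ √α := by
  refine (τ.n2_mul_le' _ _).trans ?_
  rw [τ.n2_mul_unitary hv, (est_n2_proj hp hα).1]
  exact mul_le_of_le_one_right (Real.sqrt_nonneg _) (IsStarProjection.norm_le _ hq)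

lemma est_n2_corner_eq {p q v : A} (hp : IsStarProjection p) (hq : IsStarProjection q)
    {α : ℝ} (hα : 0 ≤ α) (h : τ (star v * p * v * q) = α * α) : τ.n2 (p * v * q) = α := by
  rw [τ.n2_eq_sqrt, est_tr_corner hp hq, h, ← Complex.ofReal_mul, Complex.ofReal_re,
    Real.sqrt_mul_self hα]

theorem est_eta (hF : Free τ (P : Set A) u) (hS : IsSelfAdjoint S) (hSD : SD τ P u S)
    {a : ℕ → P} (ha : ONU τ P a) {m : ℕ} (hm : 0 < m) {p q : P}
    (hp : IsStarProjection (p : A)) (hq : IsStarProjection (q : A)) :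
    τ.n2 (ev P u S (vη a m p q)) ≤ 2 / √m := by
  have hm' : (0 : ℝ) < m := by exact_mod_cast hm
  have hb := fun i n => seg_unitary (S := S) hF.1 ha i n
  have hb' : ∀ i n, ev P u S (seg a i n) ∈ adj1 P u := fun i n => ev_mem_adj1 (seg_mem_SF a i n)
  have hp' : (p : A) ∈ adj1 P u := le_adj1 p.2
  have hq' : (q : A) ∈ adj1 P u := le_adj1 q.2
  have hp1 : τ.n2 (p : A) ≤ 1 := (τ.n2_le_norm _).trans (IsStarProjection.norm_le _ hp)
  have hq1 : τ.n2 (q : A) ≤ 1 := (τ.n2_le_norm _).trans (IsStarProjection.norm_le _ hq)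
  have ho : ∀ j k, j ≠ k →
      τ (p * ev P u S (seg a 0 j) * (star (ev P u S (seg a 0 k)) * p)) = 0 := by
    intro j k hjk
    rw [← mul_assoc, τ.comm, ← mul_assoc, ← mul_assoc, hp.isIdempotentElem.eq]
    exact orth_one hF ha hjk p.2
  have h1 := est_key hS hSD (Finset.range m) (fun k => star (ev P u S (seg a 0 k)) * p)
    (fun k => q * star (ev P u S (seg a k (m - k)))) (fun k => mul_mem (star_mem (hb' _ _)) hp')
    (fun k => mul_mem hq' (star_mem (hb' _ _))) zero_le_one
    (fun i _ i' _ h => Or.inl (by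
      rw [star_mul, star_star, hp.isSelfAdjoint.star_eq]; exact ho _ _ h.symm))
    (fun i _ => by
      rw [τ.n2_unitary_mul (Unitary.star_mem (hb _ _)), τ.n2_mul_unitary (Unitary.star_mem (hb _ _))]
      exact mul_le_one₀ hp1 (τ.n2_nonneg _) hq1)
  have h2 := est_key hS hSD (Finset.range m) (fun k => ev P u S (seg a k (m - k)) * q)
    (fun k => p * ev P u S (seg a 0 k)) (fun k => mul_mem (hb' _ _) hq')
    (fun k => mul_mem hp' (hb' _ _)) zero_le_one
    (fun i _ i' _ h => Or.inr (by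
      rw [star_mul, hp.isSelfAdjoint.star_eq]; exact ho _ _ h))
    (fun i _ => by
      rw [τ.n2_unitary_mul (hb _ _), τ.n2_mul_unitary (hb _ _)]
      exact mul_le_one₀ hq1 (τ.n2_nonneg _) hp1)
  rw [Finset.card_range, mul_one] at h1 h2
  rw [est_ev_eta hS a m hp hq, τ.n2_smul, Finset.sum_sub_distrib, norm_inv, Complex.norm_natCast]
  refine (mul_le_mul_of_nonneg_left ((τ.n2_sub_le _ _).trans (add_le_add h1 h2))
    (by positivity)).trans (le_of_eq ?_)
  have h3 := Real.mul_self_sqrt hm'.le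
  have h4 : 0 < √(m : ℝ) := Real.sqrt_pos.2 hm'
  field_simp
  nlinarith

theorem est_B (hF : Free τ (P : Set A) u) (hS : IsSelfAdjoint S) (hSD : SD τ P u S)
    {a : ℕ → P} (ha : ONU τ P a) {m : ℕ} (hm : 0 < m) {p q : P}
    (hp : IsStarProjection (p : A)) (hq : IsStarProjection (q : A)) {α : ℝ}
    (hpα : τ p = α) (hqα : τ q = α) :
    τ.n2 (ev P u S (der (vη a m p q) (vζ a m p q) (vB a m p q)) - ev P u S (vZ p q)) ≤
      3 * (α * √α) := by
  have hm' : (0 : ℝ) < m := by exact_mod_cast hm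
  have hmc : (m : ℂ) ≠ 0 := by exact_mod_cast hm.ne'
  have hb := fun i n => seg_unitary (S := S) hF.1 ha i n
  have hb' : ∀ i n, ev P u S (seg a i n) ∈ adj1 P u := fun i n => ev_mem_adj1 (seg_mem_SF a i n)
  have hp' : (p : A) ∈ adj1 P u := le_adj1 p.2
  have hq' : (q : A) ∈ adj1 P u := le_adj1 q.2
  have hα := (est_n2_proj hp hpα).2
  set b : ℕ → A := fun j => ev P u S (seg a 0 j) with hbdef
  set t : ℕ → A := fun j => ev P u S (seg a j (m - j)) with htdef
  have hbt : ∀ k < m, b k * t k = b m := by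
    intro k hk
    have := seg_add a 0 k (m - k)
    rw [zero_add, Nat.add_sub_cancel' hk.le] at this
    simp only [hbdef, htdef]
    rw [this, map_mul]
  let f : ℕ × ℕ → A := fun x => p * (b x.1 * star (b x.2)) * p * S * (q * (star (t x.2) * t x.1) * q)
  let g : ℕ × ℕ → A := fun x => p * (b x.1 * t x.2) * q * S * (p * (b x.2 * t x.1) * q)
  have hsplit : ∀ h : ℕ × ℕ → A, ∑ j ∈ Finset.range m, ∑ k ∈ Finset.range m, h (j, k) =
      ∑ k ∈ Finset.range m, h (k, k) + ∑ x ∈ (Finset.range m).offDiag, h x := by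
    intro h
    rw [← Finset.sum_product', ← Finset.diag_union_offDiag,
      Finset.sum_union (Finset.disjoint_diag_offDiag _), Finset.sum_diag]
  have e1 : ev P u S (der (vη a m p q) (vζ a m p q) (vB a m p q)) =
      (m : ℂ)⁻¹ • (∑ j ∈ Finset.range m, ∑ k ∈ Finset.range m, f (j, k) -
        ∑ j ∈ Finset.range m, ∑ k ∈ Finset.range m, g (j, k)) := by
    rw [vB, der_mul, der_mul, est_der_seg]
    simp only [der_pc, zero_mul, mul_zero, zero_add, add_zero, map_mul, map_sum, ev_pc,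
      est_ev_eta hS a m hp hq]
    rw [Finset.mul_sum, Finset.sum_mul, ← Finset.sum_sub_distrib]
    conv_rhs => rw [Finset.smul_sum]
    refine Finset.sum_congr rfl fun j _ => ?_
    rw [← Finset.sum_sub_distrib (fun k => f (j, k))]
    simp only [mul_smul_comm, smul_mul_assoc, Finset.mul_sum, Finset.sum_mul]
    congr 1
    refine Finset.sum_congr rfl fun k _ => ?_
    simp only [f, g, hbdef, htdef, mul_sub, sub_mul, mul_assoc]
  have e2 : ∑ k ∈ Finset.range m, f (k, k) = (m : ℂ) • ((p : A) * S * q) := by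
    rw [Finset.sum_congr rfl (g := fun _ => (p : A) * S * q), Finset.sum_const, Finset.card_range,
      Nat.cast_smul_eq_nsmul]
    intro k _
    simp only [f]
    rw [Unitary.mul_star_self_of_mem (hb _ _), Unitary.star_mul_self_of_mem (hb _ _), mul_one, mul_one,
      hp.isIdempotentElem.eq, hq.isIdempotentElem.eq]
  have e3 : ∑ k ∈ Finset.range m, g (k, k) = (m : ℂ) • ((p : A) * b m * q * S * (p * b m * q)) := by
    rw [Finset.sum_congr rfl (g := fun _ => (p : A) * b m * q * S * (p * b m * q)), Finset.sum_const,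
      Finset.card_range, Nat.cast_smul_eq_nsmul]
    intro k hk
    simp only [g]
    rw [hbt k (Finset.mem_range.1 hk)]
  have e4 : ev P u S (der (vη a m p q) (vζ a m p q) (vB a m p q)) - ev P u S (vZ p q) =
      (m : ℂ)⁻¹ • ∑ x ∈ (Finset.range m).offDiag, f x -
        (m : ℂ)⁻¹ • ∑ x ∈ (Finset.range m).offDiag, g x - (p : A) * b m * q * S * (p * b m * q) := by
    rw [e1, hsplit, hsplit, e2, e3]
    simp only [vZ, map_mul, ev_pc, ev_ps, smul_sub, smul_add, smul_smul, inv_mul_cancel₀ hmc, one_smul]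
    abel
  have hcard : √(((Finset.range m).offDiag.card : ℕ) : ℝ) ≤ m := by
    rw [Real.sqrt_le_left hm'.le, Finset.offDiag_card, Finset.card_range]
    exact_mod_cast (Nat.sub_le _ _).trans_eq (sq m).symm
  have hc : 0 ≤ α * √α := mul_nonneg hα (Real.sqrt_nonneg _)
  have hfin : ∀ y : A, τ.n2 y ≤ √(((Finset.range m).offDiag.card : ℕ) : ℝ) * (α * √α) →
      τ.n2 ((m : ℂ)⁻¹ • y) ≤ α * √α := by
    intro y hy
    rw [τ.n2_smul, norm_inv, Complex.norm_natCast, inv_mul_le_iff₀ hm']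
    exact hy.trans (mul_le_mul_of_nonneg_right hcard hc)
  have h1 := hfin _ <| est_key hS hSD (Finset.range m).offDiag
    (fun x => p * (b x.1 * star (b x.2)) * p) (fun x => q * (star (t x.2) * t x.1) * q)
    (fun x => mul_mem (mul_mem hp' (mul_mem (hb' _ _) (star_mem (hb' _ _)))) hp')
    (fun x => mul_mem (mul_mem hq' (mul_mem (star_mem (hb' _ _)) (hb' _ _))) hq') hc
    (fun x hx x' hx' h => Or.inl (by
      rw [est_tr_corner hp hp, orth_two hF ha (Finset.mem_offDiag.1 hx).2.2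
        (Finset.mem_offDiag.1 hx').2.2 p.2 p.2, if_neg h]))
    (fun x hx => by
      rw [est_n2_corner_eq hp hp hα (by
        rw [orth_two hF ha (Finset.mem_offDiag.1 hx).2.2 (Finset.mem_offDiag.1 hx).2.2 p.2 p.2,
          if_pos rfl, hpα])]
      exact mul_le_mul_of_nonneg_left
        (est_n2_corner_le hq hq (mul_mem (Unitary.star_mem (hb _ _)) (hb _ _)) hqα) hα)
  have h2 := hfin _ <| est_key hS hSD (Finset.range m).offDiag
    (fun x => p * (b x.1 * t x.2) * q) (fun x => p * (b x.2 * t x.1) * q)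
    (fun x => mul_mem (mul_mem hp' (mul_mem (hb' _ _) (hb' _ _))) hq')
    (fun x => mul_mem (mul_mem hp' (mul_mem (hb' _ _) (hb' _ _))) hq') hc
    (fun x hx x' hx' h => Or.inl (by
      rw [est_tr_corner hp hq, orth_three hF ha (Finset.mem_range.1 (Finset.mem_offDiag.1 hx).2.1)
        (Finset.mem_range.1 (Finset.mem_offDiag.1 hx').2.1) (Finset.mem_offDiag.1 hx).2.2
        (Finset.mem_offDiag.1 hx').2.2 p.2 q.2, if_neg h]))
    (fun x hx => by
      rw [est_n2_corner_eq hp hq hα (by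
        rw [orth_three hF ha (Finset.mem_range.1 (Finset.mem_offDiag.1 hx).2.1)
          (Finset.mem_range.1 (Finset.mem_offDiag.1 hx).2.1) (Finset.mem_offDiag.1 hx).2.2
          (Finset.mem_offDiag.1 hx).2.2 p.2 q.2, if_pos rfl, hpα, hqα])]
      exact mul_le_mul_of_nonneg_left (est_n2_corner_le hp hq (mul_mem (hb _ _) (hb _ _)) hpα) hα)
  have h3 := est_key hS hSD ({()} : Finset Unit) (fun _ => p * b m * q) (fun _ => p * b m * q)
    (fun _ => mul_mem (mul_mem hp' (hb' _ _)) hq') (fun _ => mul_mem (mul_mem hp' (hb' _ _)) hq') hc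
    (fun _ _ _ _ h => absurd rfl h)
    (fun _ _ => by
      refine mul_le_mul (le_of_eq ?_) (est_n2_corner_le hp hq (hb _ _) hpα) (τ.n2_nonneg _) hα
      exact est_n2_corner_eq hp hq hα (by rw [orth_four hF ha hm p.2 q.2, hpα, hqα]))
  simp only [Finset.sum_singleton, Finset.card_singleton, Nat.cast_one, Real.sqrt_one, one_mul] at h3
  rw [e4]
  refine (τ.n2_sub_le _ _).trans ((add_le_add ((τ.n2_sub_le _ _).trans (add_le_add h1 h2)) h3).trans
    (le_of_eq (by ring)))

end Crest.Agent.R134
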