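import Crest.Agent.R134.Flow
import Crest.Agent.R134.DivFree
import Crest.Agent.R134.Est

/-! Row 134: a free semicircular generator is absorbed by a Haar unitary. -/

set_option autoImplicit false

open Filter Topology
open scoped ComplexConjugate

namespace Crest.Agent.R134

open Crest.Agent.R095

variable {A : Type*} [CStarAlgebra A] {τ : Tr A} {P : StarSubalgebra ℂ A}

/-- Equal-trace partitions of unity in `P`. -/
def Parts (τ : Tr A) (P : StarSubalgebra ℂ A) : Prop :=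
  ∀ N : ℕ, 0 < N → ∃ p : Fin N → P, (∀ i, IsStarProjection (p i : A)) ∧
    (∀ i j, i ≠ j → (p i : A) * p j = 0) ∧ ∑ i, (p i : A) = 1 ∧
    ∀ i, τ (p i) = ((N : ℝ)⁻¹ : ℝ)

/-- The hypotheses on the base point. -/
structure Base (τ : Tr A) (P : StarSubalgebra ℂ A) (u₀ S₀ : A) (a : ℕ → P) : Prop where
  free : Free τ (P : Set A) u₀
  sa : IsSelfAdjoint S₀
  sd : SD τ P u₀ S₀
  hsd : HSD τ P u₀ S₀
  onu : ONU τ P a

/-- A generating pair with the law of the base point. -/
structure Pt (τ : Tr A) (P : StarSubalgebra ℂ A) (u₀ S₀ u S : A) : Prop where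
  uni : u ∈ unitary A
  sa : IsSelfAdjoint S
  law : SameLaw τ P u₀ S₀ u S
  gen : l2cl τ (adj1 (adj1 P u) S) = ⊤

variable {u₀ S₀ u S : A} {a : ℕ → P}

/-- One block of `S` is rotated into a word in `u`. -/
theorem block (hf : τ.Faithful) (hB : Base τ P u₀ S₀ a) (h : Pt τ P u₀ S₀ u S) {p q : P}
    (hp : IsStarProjection (p : A)) (hq : IsStarProjection (q : A)) (hpq : (p : A) * q = 0)
    {α : ℝ} (hpα : τ p = α) (hqα : τ q = α) {ε : ℝ} (hε : 0 < ε) :
    ∃ u' S', Pt τ P u₀ S₀ u' S' ∧ τ.n2 (u' - u) < ε ∧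
      (∃ y ∈ adj1 P u', τ.n2 (p * S * q - y) ≤ 5 * (α * √α)) ∧
      ∀ p' q' : P, ((p' : A) * p = 0 ∨ (q : A) * q' = 0) → ((p' : A) * q = 0 ∨ (p : A) * q' = 0) →
        (p' : A) * S' * q' = p' * S * q' := by
  obtain ⟨m, hm⟩ := exists_nat_gt ((4 / ε) ^ 2)
  have hm0 : 0 < m := by
    have : (0 : ℝ) < m := lt_of_le_of_lt (by positivity) hm
    exact_mod_cast this
  have hmε : 2 / √m * (Real.pi / 2) < ε := by
    have h1 : 4 / ε < √m := Real.lt_sqrt_of_sq_lt hm
    have h2 : 0 < √(m : ℝ) := lt_trans (by positivity) h1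
    rw [div_lt_iff₀ hε] at h1
    rw [div_mul_eq_mul_div, div_lt_iff₀ h2]
    nlinarith [Real.pi_lt_four]
  have hp' : star p = p := Subtype.ext hp.isSelfAdjoint.star_eq
  have hq' : star q = q := Subtype.ext hq.isSelfAdjoint.star_eq
  have hpp : (p : A) * p = p := hp.isIdempotentElem.eq
  have hqq : (q : A) * q = q := hq.isIdempotentElem.eq
  have hqp : (q : A) * p = 0 := by
    have := congrArg star hpq
    rwa [star_mul, hp.isSelfAdjoint.star_eq, hq.isSelfAdjoint.star_eq, star_zero] at this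
  set η := vη a m p q with hη
  set ζ := vζ a m p q with hζ
  have hdiv : ∀ f : Pol P, τ (ev P u S (der η ζ f)) = 0 := fun f => by
    rw [← h.law]; exact divfree hB.free hB.sd hB.hsd a hm0 hp' hq' f
  obtain ⟨u', S', hu', hS', hlaw, hgen, hest⟩ := flow hf (star_vη a m p q) (star_vζ a m p q)
    h.uni h.sa hdiv (T := Real.pi / 2) (by positivity)
  have hevζ : ev P u S ζ = -(p * ev P u S (seg a 0 m) * q +
      q * star (ev P u S (seg a 0 m)) * p) := by
    simp only [hζ, vζ, vB, map_neg, map_add, map_mul, star_mul, star_pc, hp', hq', ev_pc,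
      ev_star h.sa, mul_assoc]
  have hconst : ∀ (f : Pol P) (C : ℝ), τ.n2 (ev P u S (der η ζ f)) ≤ C →
      τ.n2 (ev P u' S' f - ev P u S f) ≤ C * (Real.pi / 2) := by
    intro f C hC
    have := hest (fun _ => 1) (fun _ => 0) (fun _ => 0) (fun _ => 0) f 0 C
      (fun t => hasDerivAt_const t _) (fun t => hasDerivAt_const t _) (fun t => by simpa using hC)
    simpa using this
  refine ⟨u', S', ⟨hu', hS', h.law.trans hlaw, ?_⟩, ?_, ?_, ?_⟩
  · rw [eq_top_iff, ← h.gen]
    obtain ⟨h1, h2⟩ := hgen (l2cl τ (adj1 (adj1 P u') S')) isClosed_l2cl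
      (le_adj1.trans (le_adj1.trans le_l2cl)) (le_l2cl (le_adj1 self_mem_adj1))
      (le_l2cl self_mem_adj1)
    exact l2cl_le (adj1_le (adj1_le (le_adj1.trans (le_adj1.trans le_l2cl)) h1) h2)
  · have := hconst pu (2 / √m) (by
      rw [← h.law.n2_eq hB.sa h.sa, der_pu, map_mul, ev_pu, τ.n2_mul_unitary hB.free.1]
      exact est_eta hB.free hB.sa hB.sd hB.onu hm0 hp hq)
    rw [ev_pu, ev_pu] at this
    exact this.trans_lt hmε
  · refine ⟨ev P u' S' (vB a m p q), ev_mem_adj1 (vB_mem_SF a m p q), ?_⟩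
    have hZ : ev P u S (der η ζ (vZ p q)) = -ev P u S (vB a m p q) := by
      simp only [vZ, vB, der_mul, der_pc, der_ps, zero_mul, mul_zero, zero_add, add_zero, map_mul,
        ev_pc, hevζ, mul_neg, neg_mul, mul_add, add_mul, mul_assoc, hqq]
      rw [← mul_assoc (p : A) p, ← mul_assoc (p : A) q, hpp, hpq, zero_mul, add_zero]
    have hα : 0 ≤ α * √α := by
      have h0 : 0 ≤ α := by
        have := τ.re_nonneg p
        rwa [hp.isSelfAdjoint.star_eq, hpp, hpα, Complex.ofReal_re] at this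
      positivity
    have hR : τ.n2 (ev P u S (der η ζ (vB a m p q)) - ev P u S (vZ p q)) ≤ 3 * (α * √α) := by
      rw [← map_sub, ← h.law.n2_eq hB.sa h.sa, map_sub]
      exact est_B hB.free hB.sa hB.sd hB.onu hm0 hp hq hpα hqα
    have := hest Real.sin Real.cos Real.cos (fun t => -Real.sin t) (vB a m p q) (vZ p q)
      (3 * (α * √α)) Real.hasDerivAt_sin Real.hasDerivAt_cos (fun t => by
        rw [hZ, show Real.cos t • ev P u S (vB a m p q) +
            Real.sin t • ev P u S (der η ζ (vB a m p q)) +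
            (-Real.sin t • ev P u S (vZ p q) + Real.cos t • -ev P u S (vB a m p q)) =
            Real.sin t • (ev P u S (der η ζ (vB a m p q)) - ev P u S (vZ p q)) by module,
          τ.n2_real_smul]
        exact (mul_le_of_le_one_left (τ.n2_nonneg _) (Real.abs_sin_le_one t)).trans hR)
    simp only [Real.sin_pi_div_two, Real.cos_pi_div_two, Real.sin_zero, Real.cos_zero, one_smul,
      zero_smul, add_zero, zero_add] at this
    rw [τ.n2_sub_comm]
    simp only [vZ, map_mul, ev_pc, ev_ps] at this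
    nlinarith [Real.pi_lt_d2]
  · intro p' q' h1 h2
    have := hconst (pc p' * ps * pc q') 0 (by
      have e : ev P u S (der η ζ (pc p' * ps * pc q')) = 0 := by
        simp only [der_mul, der_pc, der_ps, zero_mul, mul_zero, zero_add, add_zero, map_mul,
          ev_pc, hevζ, mul_neg, neg_mul, mul_add, add_mul, neg_eq_zero]
        have e1 : (p' : A) * (p * ev P u S (seg a 0 m) * q) * q' = 0 := by
          rcases h1 with h1 | h1
          · simp only [← mul_assoc, h1, zero_mul]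
          · simp only [mul_assoc, h1, mul_zero]
        have e2 : (p' : A) * (q * star (ev P u S (seg a 0 m)) * p) * q' = 0 := by
          rcases h2 with h2 | h2
          · simp only [← mul_assoc, h2, zero_mul]
          · simp only [mul_assoc, h2, mul_zero]
        rw [e1, e2, add_zero]
      rw [e, τ.n2_zero])
    simp only [map_mul, ev_pc, ev_ps, zero_mul] at this
    exact sub_eq_zero.mp (hf _ (le_antisymm this (τ.n2_nonneg _)))

/-- A unitary as a point of the unitary group with the 2-norm. -/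
def mkU (τ : Tr A) (u : A) (hu : u ∈ unitary A) : ProjUni τ := ⟨u, hu⟩

lemma dist_mkU {u : A} (hu : u ∈ unitary A) (v : ProjUni τ) :
    dist (mkU τ u hu) v = τ.n2 (u - v.1) := ProjUni.dist_eq τ _ _

/-- The unitaries `u` such that `x` is within `r` of the algebra generated by `P` and `u`. -/
def Near (τ : Tr A) (P : StarSubalgebra ℂ A) (x : A) (r : ℝ) : Set (ProjUni τ) :=
  {u | ∃ y ∈ adj1 P u.1, τ.n2 (x - y) < r}

lemma isOpen_near (x : A) (r : ℝ) : IsOpen (Near τ P x r) := by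
  rw [Metric.isOpen_iff]
  rintro u ⟨y, hy, hr⟩
  obtain ⟨C, hC, h⟩ := adjoin_lipschitz τ (P : Set A) u.1 u.2 y hy
  refine ⟨(r - τ.n2 (x - y)) / (C + 1), div_pos (by linarith) (by linarith), fun v hv => ?_⟩
  obtain ⟨y', hy', -, h2⟩ := h v.1 v.2
  refine ⟨y', hy', ?_⟩
  rw [Metric.mem_ball, dist_comm, ProjUni.dist_eq, lt_div_iff₀ (by linarith)] at hv
  have := τ.n2_triangle x y y'
  have := τ.n2_nonneg (u.1 - v.1)
  nlinarith

lemma n2_sq_sum_orth {ι : Type*} (T : Finset ι) (e : ι → A)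
    (h : ∀ i ∈ T, ∀ j ∈ T, i ≠ j → τ (star (e i) * e j) = 0) :
    τ.n2 (∑ i ∈ T, e i) ^ 2 = ∑ i ∈ T, τ.n2 (e i) ^ 2 := by
  classical
  rw [τ.n2_sq, star_sum, Finset.sum_mul_sum, τ.map_sum, Complex.re_sum]
  refine Finset.sum_congr rfl fun i hi => ?_
  rw [τ.map_sum, Finset.sum_eq_single_of_mem i hi fun j hj hji => h i hi j hj hji.symm, τ.n2_sq]

/-- All off-diagonal blocks are rotated, one after the other. -/
theorem blocks (hf : τ.Faithful) (hB : Base τ P u₀ S₀ a) (h : Pt τ P u₀ S₀ u S) {N : ℕ}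
    {p : Fin N → P} (hp : ∀ i, IsStarProjection (p i : A))
    (hpq : ∀ i j, i ≠ j → (p i : A) * p j = 0) {α : ℝ} (hα : 0 < α) (hpα : ∀ i, τ (p i) = α)
    {ε : ℝ} (hε : 0 < ε) (T : Finset (Fin N × Fin N)) (hT : ∀ z ∈ T, z.1 < z.2) :
    ∃ u' S', Pt τ P u₀ S₀ u' S' ∧ τ.n2 (u' - u) < ε ∧
      (∀ z ∈ T, ∃ y ∈ adj1 P u', τ.n2 (p z.1 * S * p z.2 - y) < 6 * (α * √α)) ∧
      ∀ z : Fin N × Fin N, z.1 < z.2 → z ∉ T → (p z.1 : A) * S' * p z.2 = p z.1 * S * p z.2 := by
  classical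
  induction T using Finset.induction_on with
  | empty => exact ⟨u, S, h, by simpa using hε, by simp, fun _ _ _ => rfl⟩
  | insert z₀ T hz₀ ih =>
    obtain ⟨u₁, S₁, h₁, hu₁, hT₁, hS₁⟩ := ih fun z hz => hT z (Finset.mem_insert_of_mem hz)
    have hz := hT z₀ (Finset.mem_insert_self _ _)
    have hO : IsOpen (Metric.ball (mkU τ u h.uni) ε ∩
        ⋂ z ∈ T, Near τ P (p z.1 * S * p z.2) (6 * (α * √α))) :=
      Metric.isOpen_ball.inter (isOpen_biInter_finset fun z _ => isOpen_near _ _)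
    obtain ⟨δ, hδ, hball⟩ := Metric.isOpen_iff.mp hO (mkU τ u₁ h₁.uni)
      ⟨by rwa [Metric.mem_ball, dist_mkU], Set.mem_iInter₂.mpr hT₁⟩
    obtain ⟨u₂, S₂, h₂, hu₂, ⟨y, hy, hy'⟩, hS₂⟩ := block hf hB h₁ (hp z₀.1) (hp z₀.2)
      (hpq _ _ hz.ne) (hpα _) (hpα _) hδ
    obtain ⟨h3, h4⟩ := hball (show mkU τ u₂ h₂.uni ∈ Metric.ball _ δ by
      rwa [Metric.mem_ball, dist_mkU])
    refine ⟨u₂, S₂, h₂, by rwa [Metric.mem_ball, dist_mkU] at h3, fun z hzT => ?_,
      fun z hz1 hz2 => ?_⟩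
    · rcases Finset.mem_insert.mp hzT with rfl | hzT
      · refine ⟨y, hy, ?_⟩
        rw [← hS₁ z hz hz₀]
        have : 0 < α * √α := by positivity
        linarith
      · exact Set.mem_iInter₂.mp h4 z hzT
    · rw [Finset.mem_insert, not_or] at hz2
      rw [hS₂ (p z.1) (p z.2), hS₁ z hz1 hz2.2]
      · by_cases e : z.1 = z₀.1
        · exact Or.inr (hpq _ _ fun e' => hz2.1 (Prod.ext e e'.symm))
        · exact Or.inl (hpq _ _ e)
      · by_cases e : z.1 = z₀.2
        · exact Or.inr (hpq _ _ fun e' => by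
            rw [e, ← e'] at hz1; exact lt_asymm hz hz1)
        · exact Or.inl (hpq _ _ e)

/-- `S` is approximately absorbed by a small perturbation of `u`. -/
theorem absorb_approx (hf : τ.Faithful) (hB : Base τ P u₀ S₀ a) (hP : Parts τ P)
    (h : Pt τ P u₀ S₀ u S) {ε : ℝ} (hε : 0 < ε) :
    ∃ u' S', Pt τ P u₀ S₀ u' S' ∧ τ.n2 (u' - u) < ε ∧ ∃ y ∈ adj1 P u', τ.n2 (S - y) < ε := by
  classical
  obtain ⟨N, hN⟩ := exists_nat_gt (37 / ε ^ 2)
  have hN0 : (0 : ℝ) < N := lt_of_le_of_lt (by positivity) hN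
  obtain ⟨p, hp, hpq, hsum, hpα⟩ := hP N (by exact_mod_cast hN0)
  set α : ℝ := (N : ℝ)⁻¹ with hαdef
  have hα : 0 < α := inv_pos.mpr hN0
  obtain ⟨u', S', h', hu', hT, -⟩ := blocks hf hB h hp hpq hα hpα hε
    (Finset.univ.filter fun z => z.1 < z.2) (fun z hz => (Finset.mem_filter.mp hz).2)
  have hpp : ∀ i, (p i : A) * p i = p i := fun i => (hp i).isIdempotentElem.eq
  have hps : ∀ i, star (p i : A) = p i := fun i => (hp i).isSelfAdjoint.star_eq
  have := τ.nontrivial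
  have hcomp : ∀ i j (x : A), τ.n2 (p i * x * p j) ≤ τ.n2 x := by
    intro i j x
    have h1 := τ.n2_mul_le' (p i * x) (p j)
    have h2 := τ.n2_mul_le (p i) x
    have h3 := (hp i).norm_le
    have h4 := (hp j).norm_le
    have h5 := τ.n2_nonneg x
    have h6 := τ.n2_nonneg (p i * x)
    nlinarith
  have key : ∀ z : Fin N × Fin N, ∃ y ∈ adj1 P u', τ.n2 (p z.1 * (S - y) * p z.2) ^ 2 ≤
      36 * α ^ 3 + if z.1 = z.2 then α ^ 2 else 0 := by
    have hlt : ∀ i j : Fin N, i < j → ∃ y ∈ adj1 P u',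
        τ.n2 (p i * (S - y) * p j) ^ 2 ≤ 36 * α ^ 3 := by
      intro i j hij
      obtain ⟨y, hy, hy'⟩ := hT (i, j) (by simpa using hij)
      refine ⟨y, hy, ?_⟩
      have e : (p i : A) * (S - y) * p j = p i * (p i * S * p j - y) * p j := by
        simp only [mul_sub, sub_mul, mul_assoc, hpp j]
        rw [← mul_assoc (p i : A) (p i), hpp i]
      have h1 := (hcomp i j _).trans hy'.le
      rw [← e] at h1
      calc _ ≤ (6 * (α * √α)) ^ 2 := pow_le_pow_left₀ (τ.n2_nonneg _) h1 2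
        _ = 36 * α ^ 3 := by rw [mul_pow, mul_pow, Real.sq_sqrt hα.le]; ring
    rintro ⟨i, j⟩
    rcases lt_trichotomy i j with hij | rfl | hij
    · obtain ⟨y, hy, hy'⟩ := hlt i j hij
      exact ⟨y, hy, by simpa [hij.ne] using hy'⟩
    · refine ⟨0, zero_mem _, ?_⟩
      have e : τ.n2 (p i * S * p i) ^ 2 = α ^ 2 := by
        have h1 := h.law.n2_eq hB.sa h.sa (pc (p i) * ps * pc (p i))
        simp only [map_mul, ev_pc, ev_ps] at h1
        rw [← h1, τ.n2_sq]
        have h2 := hB.sd.two (le_adj1 (p i).2) (le_adj1 (p i).2)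
        have e2 : star ((p i : A) * S₀ * p i) * (p i * S₀ * p i) =
            p i * (S₀ * p i * S₀ * p i) := by
          simp only [star_mul, hps, hB.sa.star_eq, mul_assoc]
          rw [← mul_assoc (p i : A) (p i), hpp i]
        rw [e2, τ.comm, mul_assoc _ (p i : A), hpp i, h2, hpα, ← Complex.ofReal_mul,
          Complex.ofReal_re, sq]
      simp only [sub_zero, e, if_true]
      have : 0 ≤ α ^ 3 := by positivity
      linarith
    · obtain ⟨y, hy, hy'⟩ := hlt j i hij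
      refine ⟨star y, star_mem hy, ?_⟩
      rw [← τ.n2_star] at hy'
      simp only [star_mul, hps, star_sub, h.sa.star_eq, ← mul_assoc] at hy'
      simpa [hij.ne'] using hy'
  choose y hy hy' using key
  refine ⟨u', S', h', hu', ∑ z : Fin N × Fin N, p z.1 * y z * p z.2,
    sum_mem fun z _ => mul_mem (mul_mem (le_adj1 (p _).2) (hy z)) (le_adj1 (p _).2), ?_⟩
  have e : S - ∑ z : Fin N × Fin N, p z.1 * y z * p z.2 =
      ∑ z : Fin N × Fin N, p z.1 * (S - y z) * p z.2 := by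
    have : S = ∑ z : Fin N × Fin N, p z.1 * S * p z.2 := by
      rw [Fintype.sum_prod_type]
      simp only [← Finset.mul_sum, ← Finset.sum_mul, hsum, mul_one, one_mul]
    conv_lhs => rw [this]
    rw [← Finset.sum_sub_distrib]
    exact Finset.sum_congr rfl fun z _ => by noncomm_ring
  rw [e]
  refine lt_of_pow_lt_pow_left₀ 2 hε.le ?_
  rw [n2_sq_sum_orth]
  · calc _ ≤ ∑ z : Fin N × Fin N, (36 * α ^ 3 + if z.1 = z.2 then α ^ 2 else 0) :=
          Finset.sum_le_sum fun z _ => hy' z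
      _ = 37 / N := by
          rw [Finset.sum_add_distrib, Fintype.sum_prod_type (f := fun z : Fin N × Fin N =>
            if z.1 = z.2 then α ^ 2 else 0)]
          simp only [Finset.sum_const, Finset.card_univ, Fintype.card_prod, Fintype.card_fin,
            nsmul_eq_mul, Finset.sum_ite_eq, Finset.mem_univ, if_true, Nat.cast_mul, hαdef]
          field_simp
          norm_num
      _ < ε ^ 2 := by
          rw [div_lt_iff₀ (by positivity)] at hN
          rw [div_lt_iff₀ hN0]; linarith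
  · rintro ⟨i, j⟩ - ⟨i', j'⟩ - hne
    simp only [star_mul, hps]
    by_cases hi : i = i'
    · have hj : j' ≠ j := fun e => hne (Prod.ext hi e.symm)
      rw [mul_assoc, τ.comm]
      simp only [mul_assoc, hpq _ _ hj, mul_zero, τ.map_zero]
    · simp only [mul_assoc]
      rw [← mul_assoc (p i : A) (p i'), hpq _ _ hi]
      simp

/-- Evaluation is Lipschitz for the 2-norm on bounded sets. -/
lemma ev_lipschitz (f : Pol P) (R : ℝ) : ∃ C : ℝ, 0 ≤ C ∧
    (∀ u ∈ unitary A, ∀ S : A, ‖S‖ ≤ R → ‖ev P u S f‖ ≤ C) ∧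
    ∀ u ∈ unitary A, ∀ u' ∈ unitary A, ∀ S S' : A, ‖S‖ ≤ R → ‖S'‖ ≤ R →
      τ.n2 (ev P u S f - ev P u' S' f) ≤ C * (τ.n2 (u - u') + τ.n2 (S - S')) := by
  have := τ.nontrivial
  have hnn : ∀ u u' S S' : A, 0 ≤ τ.n2 (u - u') + τ.n2 (S - S') := fun _ _ _ _ =>
    add_nonneg (τ.n2_nonneg _) (τ.n2_nonneg _)
  induction f using Pol.induction with
  | halg r =>
    refine ⟨‖algebraMap ℂ A r‖, norm_nonneg _, fun _ _ _ _ => by simp, fun u _ u' _ S S' _ _ => ?_⟩
    simp only [AlgHom.commutes, sub_self, τ.n2_zero]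
    exact mul_nonneg (norm_nonneg _) (hnn _ _ _ _)
  | hof l =>
    cases l with
    | c x =>
      refine ⟨‖(x : A)‖, norm_nonneg _, fun _ _ _ _ => by simp, fun u _ u' _ S S' _ _ => ?_⟩
      simp only [ev_pc, sub_self, τ.n2_zero]
      exact mul_nonneg (norm_nonneg _) (hnn _ _ _ _)
    | u =>
      refine ⟨1, zero_le_one, fun u hu _ _ => by simp [CStarRing.norm_of_mem_unitary hu],
        fun u _ u' _ S S' _ _ => ?_⟩
      simpa using τ.n2_nonneg _
    | us =>
      refine ⟨1, zero_le_one, fun u hu _ _ => by simp [CStarRing.norm_of_mem_unitary hu],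
        fun u _ u' _ S S' _ _ => ?_⟩
      rw [ev_pus, ev_pus, ← star_sub, τ.n2_star]
      simpa using τ.n2_nonneg _
    | s =>
      refine ⟨max R 1, zero_le_one.trans (le_max_right _ _),
        fun _ _ _ h => by simpa using Or.inl h, fun u _ u' _ S S' _ _ => ?_⟩
      rw [ev_ps, ev_ps]
      have h1 := τ.n2_nonneg (u - u')
      have h2 := τ.n2_nonneg (S - S')
      nlinarith [le_max_right R 1]
  | hmul f g hf hg =>
    obtain ⟨C, hC, h1, h2⟩ := hf
    obtain ⟨D, hD, h3, h4⟩ := hg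
    refine ⟨2 * (C * D), by positivity, fun u hu S hS => ?_, fun u hu u' hu' S S' hS hS' => ?_⟩
    · rw [map_mul]
      have := (norm_mul_le _ _).trans (mul_le_mul (h1 u hu S hS) (h3 u hu S hS) (norm_nonneg _) hC)
      have : 0 ≤ C * D := by positivity
      linarith
    · have e : ev P u S (f * g) - ev P u' S' (f * g) = (ev P u S f - ev P u' S' f) * ev P u S g +
          ev P u' S' f * (ev P u S g - ev P u' S' g) := by
        simp only [map_mul]; noncomm_ring
      rw [e]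
      refine (τ.n2_add_le _ _).trans ?_
      have h5 := (τ.n2_mul_le' _ _).trans (mul_le_mul (h2 u hu u' hu' S S' hS hS') (h3 u hu S hS)
        (norm_nonneg _) (mul_nonneg hC (hnn _ _ _ _)))
      have h6 := (τ.n2_mul_le _ _).trans (mul_le_mul (h1 u' hu' S' hS')
        (h4 u hu u' hu' S S' hS hS') (τ.n2_nonneg _) hC)
      linarith
  | hadd f g hf hg =>
    obtain ⟨C, hC, h1, h2⟩ := hf
    obtain ⟨D, hD, h3, h4⟩ := hg
    refine ⟨C + D, by positivity, fun u hu S hS => ?_, fun u hu u' hu' S S' hS hS' => ?_⟩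
    · rw [map_add]
      exact (norm_add_le _ _).trans (add_le_add (h1 u hu S hS) (h3 u hu S hS))
    · rw [map_add, map_add, add_sub_add_comm]
      refine (τ.n2_add_le _ _).trans ?_
      have h5 := h2 u hu u' hu' S S' hS hS'
      have h6 := h4 u hu u' hu' S S' hS hS'
      linarith

/-- Any element is approximately absorbed by a small perturbation of `u`. -/
theorem absorb_dense (hf : τ.Faithful) (hB : Base τ P u₀ S₀ a) (hP : Parts τ P)
    (h : Pt τ P u₀ S₀ u S) (x : A) {r δ : ℝ} (hr : 0 < r) (hδ : 0 < δ) :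
    ∃ u' S', Pt τ P u₀ S₀ u' S' ∧ τ.n2 (u' - u) < δ ∧ ∃ y ∈ adj1 P u', τ.n2 (x - y) < r := by
  have hx : x ∈ l2cl τ (adj1 (adj1 P u) S) := by rw [h.gen]; trivial
  obtain ⟨_, hb, hb'⟩ := hx (r / 3) (by positivity)
  obtain ⟨f, rfl⟩ := exists_ev_of_mem_adj h.sa hb
  set R : ℝ := ‖S‖ + 1 with hR
  have hR0 : 0 < R := by positivity
  obtain ⟨C, hC, -, hL⟩ := ev_lipschitz (τ := τ) f R
  set ε : ℝ := min δ (r / (6 * (C + 1))) with hε
  have hε0 : 0 < ε := lt_min hδ (by positivity)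
  obtain ⟨u', S', h', hu', y, hy, hy'⟩ := absorb_approx hf hB hP h hε0
  refine ⟨u', S', h', hu'.trans_le (min_le_left _ _), ?_⟩
  obtain ⟨g, hg, hg1, hg2⟩ := proj_trunc' τ (l2cl τ (adj1 P u')) isClosed_l2cl
    ((R⁻¹ : ℝ) • S) (IsSelfAdjoint.smul (IsSelfAdjoint.all _) h.sa)
    (by rw [norm_smul, norm_inv, Real.norm_of_nonneg hR0.le, inv_mul_le_iff₀ hR0]; linarith)
    ((R⁻¹ : ℝ) • y) (le_l2cl (by rw [← Complex.coe_smul]; exact SMulMemClass.smul_mem _ hy))
  have hgB : (R : ℝ) • g ∈ l2cl τ (adj1 P u') := by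
    rw [← Complex.coe_smul]; exact SMulMemClass.smul_mem _ hg
  have hg3 : τ.n2 (S - R • g) < ε := by
    have e : S - R • g = R • ((R⁻¹ : ℝ) • S - g) := by
      rw [smul_sub, smul_smul, mul_inv_cancel₀ hR0.ne', one_smul]
    rw [← smul_sub, τ.n2_real_smul, abs_of_pos (inv_pos.mpr hR0), ← div_eq_inv_mul,
      le_div_iff₀ hR0] at hg2
    rw [e, τ.n2_real_smul, abs_of_pos hR0]
    linarith
  have h1 := hL u h.uni u' h'.uni S (R • g) (by linarith)
    (by rw [norm_smul, Real.norm_of_nonneg hR0.le]; nlinarith)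
  obtain ⟨y', hy1, hy2⟩ := ev_mem (B := l2cl τ (adj1 P u')) (le_adj1.trans le_l2cl)
    (le_l2cl self_mem_adj1) hgB f (r / 3) (by positivity)
  refine ⟨y', hy1, ?_⟩
  have h2 := τ.n2_triangle x (ev P u S f) y'
  have h3 := τ.n2_triangle (ev P u S f) (ev P u' (R • g) f) y'
  rw [τ.n2_sub_comm] at hu'
  have h4 : ε * (6 * (C + 1)) ≤ r := by
    rw [← le_div_iff₀ (by positivity)]; exact min_le_right _ _
  have h5 : C * (τ.n2 (u - u') + τ.n2 (S - R • g)) ≤ C * (ε + ε) :=
    mul_le_mul_of_nonneg_left (by linarith) hC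
  nlinarith

theorem absorb (hf : τ.Faithful) (hc : τ.Complete) {u₀ S₀ : A} (hF : Free τ (P : Set A) u₀)
    (hS : IsSelfAdjoint S₀) (hSD : SD τ P u₀ S₀) (hH : HSD τ P u₀ S₀) {a : ℕ → P}
    (ha : ONU τ P a) (hp : Parts τ P) (hgen : l2cl τ (adj1 (adj1 P u₀) S₀) = ⊤) :
    ∃ u ∈ unitary A, (∀ f ∈ SF P, τ (ev P u 0 f) = τ (ev P u₀ 0 f)) ∧
      l2cl τ (adj1 P u) = ⊤ := by
  have hB : Base τ P u₀ S₀ a := ⟨hF, hS, hSD, hH, ha⟩
  have := ProjUni.complete τ hf hc
  let G : Set (ProjUni τ) := {u | ∃ S, Pt τ P u₀ S₀ u.1 S}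
  have : CompleteSpace (closure G) := isClosed_closure.completeSpace_coe
  let O : Bool × ℕ → Set (closure G) := fun i =>
    Subtype.val ⁻¹' Near τ P (if i.1 then u₀ else S₀) (1 / ((i.2 : ℝ) + 1))
  have ho : ∀ i, IsOpen (O i) := fun i => (isOpen_near _ _).preimage continuous_subtype_val
  have hd : ∀ i, Dense (O i) := by
    intro i
    rw [Metric.dense_iff]
    intro v δ hδ
    obtain ⟨u, ⟨S, h⟩, huv⟩ := Metric.mem_closure_iff.mp v.2 (δ / 2) (by positivity)
    obtain ⟨u', S', h', hu', hy⟩ := absorb_dense hf hB hp h (if i.1 then u₀ else S₀)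
      (r := 1 / ((i.2 : ℝ) + 1)) (δ := δ / 2) (by positivity) (by positivity)
    refine ⟨⟨mkU τ u' h'.uni, subset_closure ⟨S', h'⟩⟩, ?_, hy⟩
    rw [Metric.mem_ball, Subtype.dist_eq]
    have h1 := dist_triangle_right (mkU τ u' h'.uni) v.1 u
    rw [dist_mkU _ u] at h1
    linarith
  have hne : Nonempty (closure G) :=
    ⟨⟨mkU τ u₀ hF.1, subset_closure ⟨S₀, hF.1, hS, SameLaw.refl _ _ _ _, hgen⟩⟩⟩
  obtain ⟨v, hv⟩ := (dense_iInter_of_isOpen ho hd).nonempty
  rw [Set.mem_iInter] at hv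
  refine ⟨v.1.1, v.1.2, fun f hfS => ?_, ?_⟩
  · obtain ⟨C, hC, -, hL⟩ := ev_lipschitz (τ := τ) f 0
    refine eq_of_forall_dist_le fun ε hε => ?_
    obtain ⟨u, ⟨S, h⟩, huv⟩ := Metric.mem_closure_iff.mp v.2 (ε / (C + 1)) (by positivity)
    rw [ProjUni.dist_eq, lt_div_iff₀ (by positivity)] at huv
    have h1 := hL v.1.1 v.1.2 u.1 u.2 0 0 (by simp) (by simp)
    rw [ev_SF hfS 0 S₀ (u := u₀), h.law, ev_SF hfS S 0, dist_eq_norm, ← τ.map_sub]
    refine (τ.norm_le_n2 _).trans (h1.trans ?_)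
    have := τ.n2_nonneg (v.1.1 - u.1)
    simp only [sub_self, τ.n2_zero, add_zero]
    nlinarith
  · have hmem : ∀ b : Bool, (if b then u₀ else S₀) ∈ l2cl τ (adj1 P v.1.1) := by
      intro b ε hε
      obtain ⟨n, hn⟩ := exists_nat_one_div_lt hε
      obtain ⟨y, hy, hy'⟩ := hv (b, n)
      exact ⟨y, hy, hy'.trans hn⟩
    rw [eq_top_iff, ← hgen]
    exact l2cl_le (adj1_le (adj1_le (le_adj1.trans le_l2cl) (hmem true)) (hmem false))

end Crest.Agent.R134
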