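import Crest.Agent.R134.BorelAux

/-! Row 134: bounded Borel functional calculus of a Haar unitary. -/

set_option autoImplicit false

open Filter Topology
open scoped ComplexConjugate

namespace Crest.Agent.R134

open Crest.Agent.R095

variable {A : Type*} [CStarAlgebra A] {τ : Tr A}

/-- Bounded measurable functions. -/
def BM (f : ℝ → ℂ) : Prop := Measurable f ∧ ∃ R : ℝ, ∀ x, ‖f x‖ ≤ R

/-- The Borel functional calculus of a Haar unitary `c = exp (2 π i x)`, `x` uniform on `[0, 1]`. -/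
structure BorelCalc (τ : Tr A) (c : A) (Φ : (ℝ → ℂ) → A) : Prop where
  mem : ∀ f, BM f → Φ f ∈ l2cl τ (StarAlgebra.adjoin ℂ {c})
  tr : ∀ f, BM f → τ (Φ f) = ∫ x in (0 : ℝ)..1, f x
  add : ∀ f g, BM f → BM g → Φ (f + g) = Φ f + Φ g
  smul : ∀ (z : ℂ) f, BM f → Φ (z • f) = z • Φ f
  mul : ∀ f g, BM f → BM g → Φ (f * g) = Φ f * Φ g
  star : ∀ f, BM f → Φ (star f) = star (Φ f)
  one : Φ 1 = 1
  gen : Φ (fun x => Complex.exp (2 * Real.pi * Complex.I * x)) = c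

theorem exists_borelCalc (hf : τ.Faithful) (hc : τ.Complete) {c : A} (hcu : c ∈ unitary A)
    (hH : ∀ k : ℕ, 0 < k → τ (c ^ k) = 0) : ∃ Φ, BorelCalc τ c Φ := by
  classical
  obtain ⟨ψ, hψ⟩ := exists_circle_hom hcu
  have htr := circle_hom_tr hH ψ hψ
  obtain ⟨s, hs1, hs2, hs3⟩ := exists_circle_section
  obtain ⟨Φ, h1⟩ : ∃ Φ : (ℝ → ℂ) → A,
      ∀ f a, BRel AddCircle.haarAddCircle τ ψ (f ∘ s) a → Φ f = a := by
    refine ⟨fun f => if h : ∃ a, BRel AddCircle.haarAddCircle τ ψ (f ∘ s) a then h.choose else 0,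
      fun f a ha => ?_⟩
    have h : ∃ a, BRel AddCircle.haarAddCircle τ ψ (f ∘ s) a := ⟨a, ha⟩
    simp only [dif_pos h]
    exact h.choose_spec.unique hf htr ha
  have h2 : ∀ f, BM f → BRel AddCircle.haarAddCircle τ ψ (f ∘ s) (Φ f) := by
    rintro f ⟨hm, R, hR⟩
    obtain ⟨a, ha⟩ := BRel.exists hc htr (F := f ∘ s) (hm.comp hs1) (R := R) (fun x => hR _)
    rw [h1 f a ha]
    exact ha
  refine ⟨Φ, fun f hf => (h2 f hf).mem (circle_hom_l2cl ψ hψ), fun f hf => ?_,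
    fun f g hf hg => h1 _ _ ?_, fun z f hf => h1 _ _ ?_,
    fun f g hf hg => h1 _ _ ?_, fun f hf => h1 _ _ ?_, ?_, ?_⟩
  · rw [(h2 f hf).tr htr, ← hs3]
    rfl
  · exact (h2 f hf).add (h2 g hg)
  · exact (h2 f hf).smul z
  · exact (h2 f hf).mul (h2 g hg)
  · exact (h2 f hf).star
  · rw [← map_one ψ]
    exact h1 _ _ (BRel.cont 1)
  · rw [← hψ]
    refine h1 _ _ ?_
    have : (fun x : ℝ => Complex.exp (2 * Real.pi * Complex.I * x)) ∘ s =
        (fourier 1 : C(AddCircle (1 : ℝ), ℂ)) := by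
      funext x
      conv_rhs => rw [← hs2 x, fourier_coe_apply]
      simp
    rw [this]
    exact BRel.cont (fourier 1)

end Crest.Agent.R134
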