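import Crest.Agent.R134.Defs

/-! Row 134: extension of a trace-preserving representation of `C(X)` to bounded Borel
functions. -/

set_option autoImplicit false
set_option linter.unusedSectionVars false

open Filter Topology MeasureTheory
open scoped ComplexConjugate

namespace Crest.Agent.R134

open Crest.Agent.R095

section abs

variable {X : Type*} [MetricSpace X] [CompactSpace X] [MeasurableSpace X] [BorelSpace X]
variable {μ : Measure X}

/-- Bounded almost everywhere approximation by continuous functions. -/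
def BAp (μ : Measure X) (F : X → ℂ) (g : ℕ → C(X, ℂ)) : Prop :=
  (∃ R : ℝ, ∀ n, ‖g n‖ ≤ R) ∧ ∀ᵐ x ∂μ, Tendsto (fun n => g n x) atTop (𝓝 (F x))

lemma exists_bAp [IsFiniteMeasure μ] {F : X → ℂ} (hF : Measurable F) {R : ℝ}
    (hR : ∀ x, ‖F x‖ ≤ R) : ∃ g, BAp μ F g := by
  have hm : MemLp F 1 μ := MemLp.of_bound hF.aestronglyMeasurable R (.of_forall hR)
  have h1 : ∀ n : ℕ, ∃ g : BoundedContinuousFunction X ℂ,
      eLpNorm (F - (g : X → ℂ)) 1 μ ≤ ((n : ENNReal) + 1)⁻¹ ∧ MemLp g 1 μ := fun n =>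
    hm.exists_boundedContinuous_eLpNorm_sub_le ENNReal.one_ne_top (by simp)
  choose g hg hg' using h1
  have h2 : Tendsto (fun n => eLpNorm ((g n : X → ℂ) - F) 1 μ) atTop (𝓝 0) := by
    have h3 : Tendsto (fun n : ℕ => ((n : ENNReal) + 1)⁻¹) atTop (𝓝 0) := by
      have := ENNReal.tendsto_inv_nat_nhds_zero.comp (tendsto_add_atTop_nat 1)
      simpa [Function.comp_def] using this
    refine tendsto_of_tendsto_of_tendsto_of_le_of_le tendsto_const_nhds h3 (fun _ => zero_le)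
      fun n => ?_
    rw [eLpNorm_sub_comm]
    exact hg n
  obtain ⟨ns, -, hns⟩ := (tendstoInMeasure_of_tendsto_eLpNorm one_ne_zero
    (fun n => (hg' n).aestronglyMeasurable) hF.aestronglyMeasurable h2).exists_seq_tendsto_ae
  set S := |R| + 1 with hS
  have hS0 : 0 < S := by positivity
  let r : ℂ → ℂ := fun z => (S / max S ‖z‖ : ℝ) • z
  have hmax : ∀ z : ℂ, 0 < max S ‖z‖ := fun z => lt_max_of_lt_left hS0
  have hr : Continuous r :=
    (continuous_const.div (continuous_const.max continuous_norm) fun z => (hmax z).ne').smul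
      continuous_id
  have hr1 : ∀ z, ‖r z‖ ≤ S := by
    intro z
    rw [norm_smul, Real.norm_eq_abs, abs_of_pos (div_pos hS0 (hmax z)), div_mul_eq_mul_div,
      div_le_iff₀ (hmax z)]
    exact mul_le_mul_of_nonneg_left (le_max_right _ _) hS0.le
  have hr2 : ∀ x, r (F x) = F x := by
    intro x
    have : ‖F x‖ ≤ S := by
      have := le_abs_self R
      have := hR x
      linarith
    simp only [r, max_eq_left this, div_self hS0.ne', one_smul]
  refine ⟨fun n => ⟨fun x => r (g (ns n) x), hr.comp (g (ns n)).continuous⟩, ⟨S, fun n => ?_⟩, ?_⟩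
  · exact (ContinuousMap.norm_le _ hS0.le).2 fun x => hr1 _
  · filter_upwards [hns] with x hx
    have := (hr.tendsto _).comp hx
    rw [hr2] at this
    exact this

lemma BAp.const (F : C(X, ℂ)) : BAp μ F fun _ => F :=
  ⟨⟨‖F‖, fun _ => le_rfl⟩, .of_forall fun _ => tendsto_const_nhds⟩

lemma BAp.add {F G : X → ℂ} {g h : ℕ → C(X, ℂ)} (hg : BAp μ F g) (hh : BAp μ G h) :
    BAp μ (F + G) fun n => g n + h n := by
  obtain ⟨⟨R, hR⟩, h1⟩ := hg
  obtain ⟨⟨S, hS⟩, h2⟩ := hh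
  refine ⟨⟨R + S, fun n => (norm_add_le _ _).trans (add_le_add (hR n) (hS n))⟩, ?_⟩
  filter_upwards [h1, h2] with x hx hx'
  exact hx.add hx'

lemma BAp.mul {F G : X → ℂ} {g h : ℕ → C(X, ℂ)} (hg : BAp μ F g) (hh : BAp μ G h) :
    BAp μ (F * G) fun n => g n * h n := by
  obtain ⟨⟨R, hR⟩, h1⟩ := hg
  obtain ⟨⟨S, hS⟩, h2⟩ := hh
  refine ⟨⟨R * S, fun n => (norm_mul_le _ _).trans
    (mul_le_mul (hR n) (hS n) (norm_nonneg _) ((norm_nonneg _).trans (hR n)))⟩, ?_⟩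
  filter_upwards [h1, h2] with x hx hx'
  exact hx.mul hx'

lemma BAp.smul {F : X → ℂ} {g : ℕ → C(X, ℂ)} (hg : BAp μ F g) (z : ℂ) :
    BAp μ (z • F) fun n => z • g n := by
  obtain ⟨⟨R, hR⟩, h1⟩ := hg
  refine ⟨⟨‖z‖ * R, fun n => (norm_smul_le _ _).trans
    (mul_le_mul_of_nonneg_left (hR n) (norm_nonneg _))⟩, ?_⟩
  filter_upwards [h1] with x hx
  exact hx.const_smul z

lemma BAp.star {F : X → ℂ} {g : ℕ → C(X, ℂ)} (hg : BAp μ F g) :
    BAp μ (star F) fun n => star (g n) := by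
  obtain ⟨⟨R, hR⟩, h1⟩ := hg
  refine ⟨⟨R, fun n => by rw [norm_star]; exact hR n⟩, ?_⟩
  filter_upwards [h1] with x hx
  exact hx.star

lemma tendsto_integral_cm [IsFiniteMeasure μ] {ι : Type*} {l : Filter ι} [l.IsCountablyGenerated]
    {g : ι → C(X, ℂ)} {F : X → ℂ} {R : ℝ} (hR : ∀ i, ‖g i‖ ≤ R)
    (h : ∀ᵐ x ∂μ, Tendsto (fun n => g n x) l (𝓝 (F x))) :
    Tendsto (fun n => ∫ x, g n x ∂μ) l (𝓝 (∫ x, F x ∂μ)) :=
  tendsto_integral_filter_of_dominated_convergence (fun _ => R)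
    (.of_forall fun n => (g n).continuous.aestronglyMeasurable)
    (.of_forall fun n => .of_forall fun x => ((g n).norm_coe_le_norm x).trans (hR n))
    (integrable_const R) h

variable {A : Type*} [CStarAlgebra A] {τ : Tr A} {ψ : C(X, ℂ) →⋆ₐ[ℂ] A}

lemma tendsto_n2_cm [IsFiniteMeasure μ] (hψ : ∀ g, τ (ψ g) = ∫ x, g x ∂μ) {ι : Type*}
    {l : Filter ι} [l.IsCountablyGenerated] {g : ι → C(X, ℂ)} {R : ℝ} (hR : ∀ i, ‖g i‖ ≤ R)
    (h : ∀ᵐ x ∂μ, Tendsto (fun n => g n x) l (𝓝 0)) :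
    Tendsto (fun n => τ.n2 (ψ (g n))) l (𝓝 0) := by
  have h1 := tendsto_integral_cm (μ := μ) (l := l) (g := fun n => star (g n) * g n)
    (F := fun _ => 0) (R := R * R) (fun n => (norm_mul_le _ _).trans (by
      rw [norm_star]
      exact mul_le_mul (hR n) (hR n) (norm_nonneg _) ((norm_nonneg _).trans (hR n)))) (by
      filter_upwards [h] with x hx
      simpa using hx.star.mul hx)
  simp only [← hψ, integral_zero, map_mul, map_star] at h1
  have h2 := ((Complex.continuous_re.tendsto _).comp h1).sqrt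
  simpa [τ.n2_eq_sqrt, Function.comp_def] using h2

/-- `a` represents the function `F`. -/
def BRel (μ : Measure X) (τ : Tr A) (ψ : C(X, ℂ) →⋆ₐ[ℂ] A) (F : X → ℂ) (a : A) : Prop :=
  ∃ g, BAp μ F g ∧ Tendsto (fun n => τ.n2 (ψ (g n) - a)) atTop (𝓝 0)

lemma BRel.unique [IsFiniteMeasure μ] (hf : τ.Faithful) (hψ : ∀ g, τ (ψ g) = ∫ x, g x ∂μ)
    {F : X → ℂ} {a b : A} (ha : BRel μ τ ψ F a) (hb : BRel μ τ ψ F b) : a = b := by
  obtain ⟨g, ⟨⟨R, hR⟩, h1⟩, hg⟩ := ha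
  obtain ⟨h, ⟨⟨S, hS⟩, h2⟩, hh⟩ := hb
  have h3 := tendsto_n2_cm (l := atTop) hψ (g := fun n => g n - h n) (R := R + S)
    (fun n => (norm_sub_le _ _).trans (add_le_add (hR n) (hS n))) (by
      filter_upwards [h1, h2] with x hx hx'
      simpa using hx.sub hx')
  have h4 := (hg.add h3).add hh
  simp only [add_zero] at h4
  refine sub_eq_zero.1 (hf _ (le_antisymm (ge_of_tendsto' h4 fun n => ?_) (τ.n2_nonneg _)))
  have e1 := τ.n2_triangle a (ψ (g n)) b
  have e2 := τ.n2_triangle (ψ (g n)) (ψ (h n)) b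
  rw [τ.n2_sub_comm a (ψ (g n))] at e1
  rw [map_sub]
  linarith

lemma BRel.exists [IsFiniteMeasure μ] (hc : τ.Complete) (hψ : ∀ g, τ (ψ g) = ∫ x, g x ∂μ)
    {F : X → ℂ} (hF : Measurable F) {R : ℝ} (hR : ∀ x, ‖F x‖ ≤ R) : ∃ a, BRel μ τ ψ F a := by
  obtain ⟨g, hg⟩ := exists_bAp (μ := μ) hF hR
  obtain ⟨⟨S, hS⟩, h1⟩ := id hg
  obtain ⟨a, -, ha⟩ := hc (fun n => ψ (g n)) S
    (fun n => (NonUnitalStarAlgHom.norm_apply_le ψ (g n)).trans (hS n)) (by
      rw [cauchySeq_iff_tendsto_dist_atTop_0]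
      have h3 := tendsto_n2_cm (l := atTop) hψ (g := fun n : ℕ × ℕ => g n.1 - g n.2) (R := S + S)
        (fun n => (norm_sub_le _ _).trans (add_le_add (hS _) (hS _))) (by
          filter_upwards [h1] with x hx
          rw [← prod_atTop_atTop_eq]
          simpa using (hx.comp tendsto_fst).sub (hx.comp tendsto_snd))
      simpa only [τ.dist_toL2, map_sub] using h3)
  exact ⟨a, g, hg, ha⟩

lemma BRel.cont (F : C(X, ℂ)) : BRel μ τ ψ F (ψ F) :=
  ⟨fun _ => F, BAp.const F, by simp⟩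

lemma BRel.add {F G : X → ℂ} {a b : A} (ha : BRel μ τ ψ F a) (hb : BRel μ τ ψ G b) :
    BRel μ τ ψ (F + G) (a + b) := by
  obtain ⟨g, h1, hg⟩ := ha
  obtain ⟨h, h2, hh⟩ := hb
  refine ⟨_, h1.add h2, squeeze_zero (fun _ => τ.n2_nonneg _) (fun n => ?_)
    (by simpa using hg.add hh)⟩
  rw [map_add, show ψ (g n) + ψ (h n) - (a + b) = ψ (g n) - a + (ψ (h n) - b) by abel]
  exact τ.n2_add_le _ _

lemma BRel.mul {F G : X → ℂ} {a b : A} (ha : BRel μ τ ψ F a) (hb : BRel μ τ ψ G b) :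
    BRel μ τ ψ (F * G) (a * b) := by
  obtain ⟨g, h1, hg⟩ := ha
  obtain ⟨h, h2, hh⟩ := hb
  obtain ⟨S, hS⟩ := h2.1
  refine ⟨_, h1.mul h2, squeeze_zero (fun _ => τ.n2_nonneg _) (fun n => ?_)
    (by simpa using (hg.mul_const S).add (hh.const_mul ‖a‖))⟩
  rw [map_mul, show ψ (g n) * ψ (h n) - a * b = (ψ (g n) - a) * ψ (h n) + a * (ψ (h n) - b) by
    noncomm_ring]
  refine (τ.n2_add_le _ _).trans (add_le_add ((τ.n2_mul_le' _ _).trans ?_) (τ.n2_mul_le _ _))
  exact mul_le_mul_of_nonneg_left ((NonUnitalStarAlgHom.norm_apply_le ψ (h n)).trans (hS n))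
    (τ.n2_nonneg _)

lemma BRel.smul {F : X → ℂ} {a : A} (ha : BRel μ τ ψ F a) (z : ℂ) :
    BRel μ τ ψ (z • F) (z • a) := by
  obtain ⟨g, h1, hg⟩ := ha
  refine ⟨_, h1.smul z, ?_⟩
  simpa [← smul_sub, τ.n2_smul] using hg.const_mul ‖z‖

lemma BRel.star {F : X → ℂ} {a : A} (ha : BRel μ τ ψ F a) :
    BRel μ τ ψ (star F) (star a) := by
  obtain ⟨g, h1, hg⟩ := ha
  refine ⟨_, h1.star, ?_⟩
  simpa only [map_star, ← star_sub, τ.n2_star] using hg

lemma BRel.tr [IsFiniteMeasure μ] (hψ : ∀ g, τ (ψ g) = ∫ x, g x ∂μ) {F : X → ℂ} {a : A}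
    (ha : BRel μ τ ψ F a) : τ a = ∫ x, F x ∂μ := by
  obtain ⟨g, ⟨⟨R, hR⟩, h1⟩, hg⟩ := ha
  have h2 := tendsto_integral_cm hR h1
  simp only [← hψ] at h2
  refine tendsto_nhds_unique ?_ h2
  rw [tendsto_iff_norm_sub_tendsto_zero]
  refine squeeze_zero (fun _ => norm_nonneg _) (fun n => ?_) hg
  rw [← τ.map_sub]
  exact τ.norm_le_n2 _

lemma BRel.mem {Q : StarSubalgebra ℂ A} (hQ : ∀ g, ψ g ∈ l2cl τ Q) {F : X → ℂ} {a : A}
    (ha : BRel μ τ ψ F a) : a ∈ l2cl τ Q := by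
  obtain ⟨g, -, hg⟩ := ha
  exact mem_l2cl_of_tendsto (fun n => hQ _) hg

end abs

section circ

variable {A : Type*} [CStarAlgebra A] {τ : Tr A}

lemma exists_circle_hom {c : A} (hcu : c ∈ unitary A) :
    ∃ ψ : C(AddCircle (1 : ℝ), ℂ) →⋆ₐ[ℂ] A, ψ (fourier 1) = c := by
  have hn : IsStarNormal c := isStarNormal_of_mem_unitary hcu
  let i : C(spectrum ℂ c, Circle) :=
    ⟨fun z => ⟨z.1, spectrum.subset_circle_of_unitary hcu z.2⟩, by fun_prop⟩
  let j : C(spectrum ℂ c, AddCircle (1 : ℝ)) :=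
    ContinuousMap.comp ((AddCircle.homeomorphCircle (T := 1) one_ne_zero).symm : C(_, _)) i
  refine ⟨(cfcHom (R := ℂ) hn).comp (ContinuousMap.compStarAlgHom' ℂ ℂ j), ?_⟩
  rw [StarAlgHom.comp_apply]
  refine Eq.trans ?_ (cfcHom_id (R := ℂ) hn)
  congr 1
  ext z
  simp only [ContinuousMap.compStarAlgHom'_apply, ContinuousMap.comp_apply, fourier_one, j]
  rw [← AddCircle.homeomorphCircle_apply one_ne_zero]
  simp [i]

lemma fourier_nat (k : ℕ) : (fourier (k : ℤ) : C(AddCircle (1 : ℝ), ℂ)) = fourier 1 ^ k := by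
  induction k with
  | zero => ext x; simp
  | succ k ih => ext x; rw [pow_succ, ← ih, Nat.cast_succ, fourier_add]; rfl

lemma fourier_neg_nat (k : ℕ) :
    (fourier (-(k : ℤ)) : C(AddCircle (1 : ℝ), ℂ)) = star (fourier 1 ^ k) := by
  ext x; rw [← fourier_nat, fourier_neg]; rfl

lemma circle_mem (S : Submodule ℂ C(AddCircle (1 : ℝ), ℂ))
    (hS : IsClosed (S : Set C(AddCircle (1 : ℝ), ℂ))) (h : ∀ n, fourier n ∈ S) (g) : g ∈ S := by
  have h1 : Submodule.span ℂ (Set.range (@fourier 1)) ≤ S :=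
    Submodule.span_le.2 (Set.range_subset_iff.2 h)
  have h2 := Submodule.topologicalClosure_minimal _ h1 hS
  rw [span_fourier_closure_eq_top] at h2
  exact h2 Submodule.mem_top

lemma circle_hom_cont (ψ : C(AddCircle (1 : ℝ), ℂ) →⋆ₐ[ℂ] A) : Continuous ψ :=
  AddMonoidHomClass.continuous_of_bound ψ 1 fun g => by
    simpa using NonUnitalStarAlgHom.norm_apply_le ψ g

lemma circle_hom_l2cl {c : A} (ψ : C(AddCircle (1 : ℝ), ℂ) →⋆ₐ[ℂ] A) (hψ : ψ (fourier 1) = c)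
    (g : C(AddCircle (1 : ℝ), ℂ)) : ψ g ∈ l2cl τ (StarAlgebra.adjoin ℂ {c}) := by
  have hc : c ∈ l2cl τ (StarAlgebra.adjoin ℂ {c}) :=
    le_l2cl (StarAlgebra.self_mem_adjoin_singleton ℂ c)
  refine circle_mem ((l2cl τ (StarAlgebra.adjoin ℂ {c})).comap ψ).toSubalgebra.toSubmodule
    (isClosed_l2cl.preimage (circle_hom_cont ψ)) (fun n => ?_) g
  change ψ (fourier n) ∈ l2cl τ (StarAlgebra.adjoin ℂ {c})
  obtain ⟨k, rfl | rfl⟩ := Int.eq_nat_or_neg n
  · rw [fourier_nat, map_pow, hψ]; exact pow_mem hc k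
  · rw [fourier_neg_nat, map_star, map_pow, hψ]; exact star_mem (pow_mem hc k)

lemma integral_fourier_circle {n : ℤ} (hn : n ≠ 0) :
    ∫ x : AddCircle (1 : ℝ), fourier n x ∂AddCircle.haarAddCircle = 0 :=
  integral_eq_zero_of_add_right_eq_neg (μ := AddCircle.haarAddCircle)
    (fourier_add_half_inv_index hn one_pos)

lemma circle_hom_tr {c : A} (hH : ∀ k : ℕ, 0 < k → τ (c ^ k) = 0)
    (ψ : C(AddCircle (1 : ℝ), ℂ) →⋆ₐ[ℂ] A) (hψ : ψ (fourier 1) = c)
    (g : C(AddCircle (1 : ℝ), ℂ)) : τ (ψ g) = ∫ x, g x ∂AddCircle.haarAddCircle := by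
  have hint : ∀ g : C(AddCircle (1 : ℝ), ℂ), Integrable g AddCircle.haarAddCircle := fun g =>
    g.continuous.integrable_of_hasCompactSupport (HasCompactSupport.of_compactSpace _)
  let S : Submodule ℂ C(AddCircle (1 : ℝ), ℂ) :=
    { carrier := {g | τ (ψ g) = ∫ x, g x ∂AddCircle.haarAddCircle}
      add_mem' := fun {a b} ha hb => by
        simp only [Set.mem_ofPred_eq, map_add, ContinuousMap.add_apply] at ha hb ⊢
        rw [integral_add (hint a) (hint b), ha, hb]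
      zero_mem' := by simp
      smul_mem' := fun z a ha => by
        simp only [Set.mem_ofPred_eq, map_smul, ContinuousMap.smul_apply] at ha ⊢
        rw [integral_smul, ha] }
  have hS : IsClosed (S : Set C(AddCircle (1 : ℝ), ℂ)) := by
    refine isClosed_eq (τ.continuous.comp (circle_hom_cont ψ)) ?_
    refine continuous_iff_seqContinuous.2 fun g a hg => ?_
    obtain ⟨R, hR⟩ := (Metric.isBounded_range_of_tendsto g hg).exists_norm_le
    exact tendsto_integral_cm (fun n => hR _ ⟨n, rfl⟩) (.of_forall fun x =>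
      ((continuous_eval_const x).tendsto a).comp hg)
  refine circle_mem S hS (fun n => ?_) g
  change τ (ψ (fourier n)) = ∫ x, fourier n x ∂AddCircle.haarAddCircle
  by_cases hn : n = 0
  · subst hn
    have : (fourier 0 : C(AddCircle (1 : ℝ), ℂ)) = 1 := by ext x; simp
    rw [this]
    simp
  rw [integral_fourier_circle hn]
  obtain ⟨k, rfl | rfl⟩ := Int.eq_nat_or_neg n
  · rw [fourier_nat, map_pow, hψ]; exact hH k (by omega)
  · rw [fourier_neg_nat, map_star, map_pow, hψ, τ.map_star, hH k (by omega), map_zero]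

lemma exists_circle_section : ∃ s : AddCircle (1 : ℝ) → ℝ, Measurable s ∧
    (∀ x, (s x : AddCircle (1 : ℝ)) = x) ∧
    ∀ f : ℝ → ℂ, ∫ x, f (s x) ∂AddCircle.haarAddCircle = ∫ x in (0 : ℝ)..1, f x := by
  refine ⟨fun x => AddCircle.equivIoc 1 0 x,
    measurable_subtype_coe.comp (AddCircle.measurableEquivIoc 1 0).measurable,
    fun x => AddCircle.coe_equivIoc, fun f => ?_⟩
  have := AddCircle.integral_liftIoc_eq_intervalIntegral (T := 1) (t := 0) (f := f)
  rw [zero_add] at this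
  rw [AddCircle.integral_haarAddCircle, ← this, inv_one, one_smul]
  rfl

end circ

end Crest.Agent.R134
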