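import Crest.Agent.R095.Free
import Crest.Agent.R095.Proj

/-!
Row 134 (free group factors): basic definitions.

Formal noncommutative ⋆-polynomials in constants, a unitary letter `u` (with adjoint `us`) and a
self-adjoint letter `s`; derivations on them; evaluation in a tracial C⋆-algebra; the
Schwinger–Dyson equations of a semicircular element and of a Haar unitary; closure in the 2-norm.
-/

set_option autoImplicit false

open Filter Topology
open scoped ComplexConjugate

namespace Crest.Agent.R134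

open Crest.Agent.R095

/-- Letters: constants, a unitary `u`, its adjoint `us`, a self-adjoint `s`. -/
inductive Let (C : Type*) : Type _
  | c : C → Let C
  | u : Let C
  | us : Let C
  | s : Let C

/-- The adjoint of a letter. -/
def Let.st {C : Type*} [Star C] : Let C → Let C
  | .c x => .c (star x)
  | .u => .us
  | .us => .u
  | .s => .s

lemma Let.st_st {C : Type*} [InvolutiveStar C] (l : Let C) : l.st.st = l := by
  cases l <;> simp [Let.st]

/-- Formal noncommutative polynomials in the letters. -/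
def Pol (C : Type*) : Type _ := FreeAlgebra ℂ (Let C)

namespace Pol

variable {C : Type*}

noncomputable instance : Ring (Pol C) := inferInstanceAs (Ring (FreeAlgebra ℂ (Let C)))
noncomputable instance : Algebra ℂ (Pol C) :=
  inferInstanceAs (Algebra ℂ (FreeAlgebra ℂ (Let C)))

/-- A letter as a polynomial. -/
noncomputable def of (l : Let C) : Pol C := FreeAlgebra.ι ℂ l

/-- The algebra homomorphism with given values on the letters. -/
noncomputable def lift {R : Type*} [Semiring R] [Algebra ℂ R] (a : Let C → R) :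
    Pol C →ₐ[ℂ] R := FreeAlgebra.lift ℂ a

@[simp] lemma lift_of {R : Type*} [Semiring R] [Algebra ℂ R] (a : Let C → R) (l : Let C) :
    lift a (of l) = a l := FreeAlgebra.lift_ι_apply a l

lemma hom_ext {R : Type*} [Semiring R] [Algebra ℂ R] {φ ψ : Pol C →ₐ[ℂ] R}
    (h : ∀ l, φ (of l) = ψ (of l)) : φ = ψ :=
  FreeAlgebra.hom_ext (funext h)

@[simp] lemma lift_of_self (f : Pol C) : lift of f = f := by
  have : (lift of : Pol C →ₐ[ℂ] Pol C) = AlgHom.id ℂ _ := hom_ext fun l => by simp
  rw [this]; rfl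

lemma map_lift {R R' : Type*} [Semiring R] [Algebra ℂ R] [Semiring R'] [Algebra ℂ R']
    (φ : R →ₐ[ℂ] R') (a : Let C → R) (f : Pol C) :
    φ (lift a f) = lift (fun l => φ (a l)) f := by
  have : φ.comp (lift a) = lift fun l => φ (a l) := hom_ext fun l => by simp
  exact DFunLike.congr_fun this f

@[elab_as_elim]
theorem induction {motive : Pol C → Prop} (halg : ∀ r : ℂ, motive (algebraMap ℂ (Pol C) r))
    (hof : ∀ l, motive (of l)) (hmul : ∀ f g, motive f → motive g → motive (f * g))
    (hadd : ∀ f g, motive f → motive g → motive (f + g)) (f : Pol C) : motive f :=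
  FreeAlgebra.induction ℂ (Let C) halg hof hmul hadd f

/-- The opposite ring with the conjugate scalar action. -/
def Cj (C : Type*) : Type _ := (Pol C)ᵐᵒᵖ

noncomputable instance : Ring (Cj C) := inferInstanceAs (Ring (Pol C)ᵐᵒᵖ)

noncomputable instance : Algebra ℂ (Cj C) :=
  RingHom.toAlgebra' ((algebraMap ℂ (Pol C)ᵐᵒᵖ).comp (starRingEnd ℂ))
    fun c x => Algebra.commutes (A := (Pol C)ᵐᵒᵖ) (conj c) x

/-- The formal adjoint. -/
noncomputable def adj [Star C] (f : Pol C) : Pol C :=
  MulOpposite.unop (lift (R := Cj C) (fun l => MulOpposite.op (of l.st)) f)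

lemma adj_of [Star C] (l : Let C) : adj (of l) = of l.st := by
  rw [adj, lift_of]; rfl
lemma adj_mul [Star C] (f g : Pol C) : adj (f * g) = adj g * adj f := by
  rw [adj, map_mul]; rfl
lemma adj_add [Star C] (f g : Pol C) : adj (f + g) = adj f + adj g := by
  rw [adj, map_add]; rfl
lemma adj_algebraMap [Star C] (r : ℂ) :
    adj (algebraMap ℂ (Pol C) r) = algebraMap ℂ (Pol C) (conj r) := by
  rw [adj, AlgHom.commutes]; rfl

noncomputable instance [InvolutiveStar C] : StarRing (Pol C) where
  star := adj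
  star_involutive f := by
    induction f using induction with
    | halg r => rw [adj_algebraMap, adj_algebraMap, Complex.conj_conj]
    | hof l => rw [adj_of, adj_of, Let.st_st]
    | hmul f g hf hg => rw [adj_mul, adj_mul, hf, hg]
    | hadd f g hf hg => rw [adj_add, adj_add, hf, hg]
  star_mul := adj_mul
  star_add := adj_add

lemma star_of [InvolutiveStar C] (l : Let C) : star (of l) = of l.st := adj_of l

instance [InvolutiveStar C] : StarModule ℂ (Pol C) where
  star_smul r f := by
    rw [Algebra.smul_def, Algebra.smul_def, star_mul, Algebra.commutes]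
    congr 1
    exact adj_algebraMap r

end Pol

open Pol

section formal

variable {C : Type*}

/-- A constant. -/
noncomputable abbrev pc (x : C) : Pol C := of (.c x)
/-- The unitary letter. -/
noncomputable abbrev pu : Pol C := of .u
/-- The adjoint of the unitary letter. -/
noncomputable abbrev pus : Pol C := of .us
/-- The self-adjoint letter. -/
noncomputable abbrev ps : Pol C := of .s

@[simp] lemma star_pc [InvolutiveStar C] (x : C) : star (pc x) = pc (star x) := star_of _
@[simp] lemma star_pu [InvolutiveStar C] : star (pu : Pol C) = pus := star_of _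
@[simp] lemma star_pus [InvolutiveStar C] : star (pus : Pol C) = pu := star_of _
@[simp] lemma star_ps [InvolutiveStar C] : star (ps : Pol C) = ps := star_of _

/-- The word of a list of letters. -/
noncomputable def wd (l : List (Let C)) : Pol C := (l.map of).prod

@[simp] lemma wd_nil : wd ([] : List (Let C)) = 1 := rfl
@[simp] lemma wd_cons (x : Let C) (l : List (Let C)) : wd (x :: l) = of x * wd l := by
  simp [wd]
@[simp] lemma wd_append (l l' : List (Let C)) : wd (l ++ l') = wd l * wd l' := by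
  simp [wd]

lemma mem_span_wd (f : Pol C) : f ∈ Submodule.span ℂ (Set.range (wd (C := C))) := by
  induction f using Pol.induction with
  | halg r =>
    rw [Algebra.algebraMap_eq_smul_one]
    exact Submodule.smul_mem _ _ (Submodule.subset_span ⟨[], rfl⟩)
  | hof l => exact Submodule.subset_span ⟨[l], by simp⟩
  | hadd f g hf hg => exact add_mem hf hg
  | hmul f g hf hg =>
    have := Submodule.mul_mem_mul hf hg
    rw [Submodule.span_mul_span] at this
    refine Submodule.span_mono ?_ this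
    rintro _ ⟨_, ⟨l, rfl⟩, _, ⟨l', rfl⟩, rfl⟩
    exact ⟨l ++ l', wd_append l l'⟩

/-- Polynomials are linear combinations of words. -/
@[elab_as_elim]
theorem wd_induction {motive : Pol C → Prop} (hwd : ∀ l, motive (wd l)) (hzero : motive 0)
    (hadd : ∀ f g, motive f → motive g → motive (f + g))
    (hsmul : ∀ (c : ℂ) f, motive f → motive (c • f)) (f : Pol C) : motive f := by
  induction mem_span_wd f using Submodule.span_induction with
  | mem x hx => obtain ⟨l, rfl⟩ := hx; exact hwd l
  | zero => exact hzero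
  | add x y _ _ hx hy => exact hadd x y hx hy
  | smul c x _ hx => exact hsmul c x hx

/-- Two linear maps that agree on words agree. -/
lemma linear_ext {V : Type*} [AddCommMonoid V] [Module ℂ V] {φ ψ : Pol C →ₗ[ℂ] V}
    (h : ∀ l, φ (wd l) = ψ (wd l)) : φ = ψ := by
  ext f
  induction f using wd_induction with
  | hwd l => exact h l
  | hzero => simp
  | hadd f g hf hg => simp [hf, hg]
  | hsmul c f hf => simp [hf]

section dlift

variable {R : Type*} [Ring R] [Algebra ℂ R]

/-- The derivation over `lift a` with values `b` on the letters. -/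
noncomputable def dlift (a b : Let C → R) : Pol C →ₗ[ℂ] R :=
  ((TrivSqZeroExt.sndHom R R).restrictScalars ℂ).comp
    (lift (R := TrivSqZeroExt R R)
      fun l => TrivSqZeroExt.inl (a l) + TrivSqZeroExt.inr (b l)).toLinearMap

lemma dlift_def (a b : Let C → R) (f : Pol C) : dlift a b f = (lift (R := TrivSqZeroExt R R)
    (fun l => TrivSqZeroExt.inl (a l) + TrivSqZeroExt.inr (b l)) f).snd := rfl

lemma dlift_fst (a b : Let C → R) (f : Pol C) : (lift (R := TrivSqZeroExt R R)
    (fun l => TrivSqZeroExt.inl (a l) + TrivSqZeroExt.inr (b l)) f).fst = lift a f := by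
  have := map_lift (TrivSqZeroExt.fstHom ℂ R R)
    (fun l => TrivSqZeroExt.inl (a l) + TrivSqZeroExt.inr (b l)) f
  simpa using this

@[simp] lemma dlift_of (a b : Let C → R) (l : Let C) : dlift a b (of l) = b l := by
  simp [dlift_def]

@[simp] lemma dlift_one (a b : Let C → R) : dlift a b 1 = 0 := by
  simp [dlift_def]

@[simp] lemma dlift_algebraMap (a b : Let C → R) (r : ℂ) :
    dlift a b (algebraMap ℂ (Pol C) r) = 0 := by
  rw [Algebra.algebraMap_eq_smul_one, map_smul, dlift_one, smul_zero]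

/-- The Leibniz rule. -/
lemma dlift_mul (a b : Let C → R) (f g : Pol C) :
    dlift a b (f * g) = dlift a b f * lift a g + lift a f * dlift a b g := by
  rw [dlift_def, map_mul, TrivSqZeroExt.snd_mul, dlift_fst, dlift_fst, ← dlift_def, ← dlift_def,
    add_comm]
  rfl

/-- A linear map satisfying the Leibniz rule is determined by its values on letters. -/
lemma dlift_unique (a b : Let C → R) (D : Pol C →ₗ[ℂ] R) (hof : ∀ l, D (of l) = b l)
    (hmul : ∀ f g, D (f * g) = D f * lift a g + lift a f * D g) : D = dlift a b := by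
  have h1 : D 1 = 0 := by simpa using hmul 1 1
  ext f
  induction f using Pol.induction with
  | halg r => rw [Algebra.algebraMap_eq_smul_one, map_smul, map_smul, h1, dlift_one]
  | hof l => rw [hof, dlift_of]
  | hmul f g hf hg => rw [hmul, dlift_mul, hf, hg]
  | hadd f g hf hg => rw [map_add, map_add, hf, hg]

lemma dlift_add (a b b' : Let C → R) (f : Pol C) :
    dlift a (fun l => b l + b' l) f = dlift a b f + dlift a b' f := by
  have := dlift_unique a (fun l => b l + b' l) (dlift a b + dlift a b') (fun l => by simp)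
    fun f g => by simp only [LinearMap.add_apply, dlift_mul, add_mul, mul_add]; abel
  rw [← this]; rfl

lemma dlift_smul (a b : Let C → R) (c : ℂ) (f : Pol C) :
    dlift a (fun l => c • b l) f = c • dlift a b f := by
  have := dlift_unique a (fun l => c • b l) (c • dlift a b) (fun l => by simp)
    fun f g => by
      simp only [LinearMap.smul_apply, dlift_mul, smul_add, smul_mul_assoc, mul_smul_comm]
  rw [← this]; rfl

lemma dlift_zero (a : Let C → R) (f : Pol C) : dlift a (fun _ => 0) f = 0 := by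
  have := dlift_unique a (fun _ => 0) 0 (fun l => by simp) fun f g => by simp
  rw [← this]; rfl

lemma map_dlift {R' : Type*} [Ring R'] [Algebra ℂ R'] (φ : R →ₐ[ℂ] R') (a b : Let C → R)
    (f : Pol C) : φ (dlift a b f) = dlift (fun l => φ (a l)) (fun l => φ (b l)) f := by
  have := dlift_unique (fun l => φ (a l)) (fun l => φ (b l)) (φ.toLinearMap.comp (dlift a b))
    (fun l => by simp) fun f g => by simp [dlift_mul, map_lift]
  rw [← this]; rfl

end dlift

/-- The values on letters of the vector field `u ↦ η u`, `s ↦ ζ`. -/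
noncomputable def derL (η ζ : Pol C) : Let C → Pol C
  | .c _ => 0
  | .u => η * pu
  | .us => -(pus * η)
  | .s => ζ

/-- The derivation `u ↦ η u`, `u⋆ ↦ -u⋆ η`, `s ↦ ζ`, constants `↦ 0`. -/
noncomputable def der (η ζ : Pol C) : Pol C →ₗ[ℂ] Pol C := dlift of (derL η ζ)

lemma der_of (η ζ : Pol C) (l : Let C) : der η ζ (of l) = derL η ζ l := dlift_of _ _ l
@[simp] lemma der_pc (η ζ : Pol C) (x : C) : der η ζ (pc x) = 0 := der_of _ _ _
@[simp] lemma der_pu (η ζ : Pol C) : der η ζ pu = η * pu := der_of _ _ _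
@[simp] lemma der_pus (η ζ : Pol C) : der η ζ pus = -(pus * η) := der_of _ _ _
@[simp] lemma der_ps (η ζ : Pol C) : der η ζ ps = ζ := der_of _ _ _
@[simp] lemma der_one (η ζ : Pol C) : der η ζ 1 = 0 := dlift_one _ _
@[simp] lemma der_algebraMap (η ζ : Pol C) (r : ℂ) : der η ζ (algebraMap ℂ _ r) = 0 :=
  dlift_algebraMap _ _ r
lemma der_mul (η ζ f g : Pol C) : der η ζ (f * g) = der η ζ f * g + f * der η ζ g := by
  simp [der, dlift_mul]

lemma der_add (η ζ η' ζ' f : Pol C) :
    der (η + η') (ζ + ζ') f = der η ζ f + der η' ζ' f := by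
  rw [der, der, der, ← dlift_add]
  congr 2
  funext l
  cases l <;> simp [derL, add_mul, mul_add, add_comm]

lemma der_smul (c : ℂ) (η ζ f : Pol C) : der (c • η) (c • ζ) f = c • der η ζ f := by
  rw [der, der, ← dlift_smul]
  congr 2
  funext l
  cases l <;> simp [derL]

lemma der_zero (f : Pol C) : der 0 0 f = 0 := by
  simpa using der_smul 0 0 0 f

lemma der_sum {ι : Type*} (T : Finset ι) (η ζ : ι → Pol C) (f : Pol C) :
    der (∑ i ∈ T, η i) (∑ i ∈ T, ζ i) f = ∑ i ∈ T, der (η i) (ζ i) f := by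
  classical
  induction T using Finset.induction_on with
  | empty => simp [der_zero]
  | insert i T hi ih => simp only [Finset.sum_insert hi, der_add, ih]

lemma star_der [InvolutiveStar C] {η ζ : Pol C} (hη : star η = -η) (hζ : star ζ = ζ) (f : Pol C) :
    star (der η ζ f) = der η ζ (star f) := by
  induction f using Pol.induction with
  | halg r => rw [← algebraMap_star_comm, der_algebraMap, der_algebraMap, star_zero]
  | hof l => cases l <;> simp [hη, hζ]
  | hmul f g hf hg => simp only [der_mul, star_add, star_mul, hf, hg, add_comm]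
  | hadd f g hf hg => simp only [map_add, star_add, hf, hg]

/-- The polynomials without the letter `s`. -/
noncomputable def SF (C : Type*) : Subalgebra ℂ (Pol C) :=
  Algebra.adjoin ℂ {f | ∃ l : Let C, l ≠ .s ∧ f = of l}

lemma of_mem_SF {l : Let C} (hl : l ≠ .s) : of l ∈ SF C := Algebra.subset_adjoin ⟨l, hl, rfl⟩
lemma pc_mem_SF (x : C) : pc x ∈ SF C := of_mem_SF (by simp)
lemma pu_mem_SF : pu ∈ SF C := of_mem_SF (by simp)
lemma pus_mem_SF : pus ∈ SF C := of_mem_SF (by simp)

@[elab_as_elim]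
theorem SF_induction {motive : ∀ f : Pol C, f ∈ SF C → Prop}
    (halg : ∀ r : ℂ, motive (algebraMap ℂ (Pol C) r) (Subalgebra.algebraMap_mem _ r))
    (hc : ∀ x, motive (pc x) (pc_mem_SF x)) (hu : motive pu pu_mem_SF)
    (hus : motive pus pus_mem_SF)
    (hmul : ∀ f g hf hg, motive f hf → motive g hg → motive (f * g) (mul_mem hf hg))
    (hadd : ∀ f g hf hg, motive f hf → motive g hg → motive (f + g) (add_mem hf hg))
    {f : Pol C} (hf : f ∈ SF C) : motive f hf := by
  induction hf using Algebra.adjoin_induction with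
  | mem x hx =>
    obtain ⟨l, hl, rfl⟩ := hx
    cases l with
    | c x => exact hc x
    | u => exact hu
    | us => exact hus
    | s => exact absurd rfl hl
  | algebraMap r => exact halg r
  | add x y hx hy h1 h2 => exact hadd x y hx hy h1 h2
  | mul x y hx hy h1 h2 => exact hmul x y hx hy h1 h2

lemma star_mem_SF [InvolutiveStar C] {f : Pol C} (hf : f ∈ SF C) : star f ∈ SF C := by
  induction hf using SF_induction with
  | halg r => rw [← algebraMap_star_comm]; exact Subalgebra.algebraMap_mem _ _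
  | hc x => rw [star_pc]; exact pc_mem_SF _
  | hu => rw [star_pu]; exact pus_mem_SF
  | hus => rw [star_pus]; exact pu_mem_SF
  | hmul f g _ _ h1 h2 => rw [star_mul]; exact mul_mem h2 h1
  | hadd f g _ _ h1 h2 => rw [star_add]; exact add_mem h1 h2

lemma dlift_SF {R : Type*} [Ring R] [Algebra ℂ R] (a b : Let C → R)
    (hb : ∀ l, l ≠ .s → b l = 0) {f : Pol C} (hf : f ∈ SF C) : dlift a b f = 0 := by
  induction hf using SF_induction with
  | halg r => exact dlift_algebraMap _ _ r
  | hc x => rw [dlift_of, hb _ (by simp)]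
  | hu => rw [dlift_of, hb _ (by simp)]
  | hus => rw [dlift_of, hb _ (by simp)]
  | hmul f g _ _ h1 h2 => rw [dlift_mul, h1, h2, zero_mul, mul_zero, add_zero]
  | hadd f g _ _ h1 h2 => rw [map_add, h1, h2, add_zero]

/-- The word `u a_i u a_{i+1} ⋯ u a_{i+n-1}`. -/
noncomputable def seg (a : ℕ → C) (i : ℕ) : ℕ → Pol C
  | 0 => 1
  | n + 1 => seg a i n * (pu * pc (a (i + n)))

@[simp] lemma seg_zero (a : ℕ → C) (i : ℕ) : seg a i 0 = 1 := rfl
lemma seg_succ (a : ℕ → C) (i n : ℕ) : seg a i (n + 1) = seg a i n * (pu * pc (a (i + n))) := rfl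

lemma seg_add (a : ℕ → C) (i n n' : ℕ) : seg a i (n + n') = seg a i n * seg a (i + n) n' := by
  induction n' with
  | zero => simp
  | succ k ih => rw [← add_assoc, seg_succ, seg_succ, ih, mul_assoc, add_assoc]

lemma seg_succ' (a : ℕ → C) (i n : ℕ) :
    seg a i (n + 1) = pu * pc (a i) * seg a (i + 1) n := by
  rw [add_comm n 1, seg_add, seg_succ]; simp

lemma seg_mem_SF (a : ℕ → C) (i n : ℕ) : seg a i n ∈ SF C := by
  induction n with
  | zero => exact one_mem _
  | succ n ih => exact mul_mem ih (mul_mem pu_mem_SF (pc_mem_SF _))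

/-- The block `p s q`. -/
noncomputable def vZ (p q : C) : Pol C := pc p * ps * pc q

/-- The block `p w q` of the long word `w`. -/
noncomputable def vB (a : ℕ → C) (m : ℕ) (p q : C) : Pol C := pc p * seg a 0 m * pc q

/-- The skew-adjoint part of the vector field. -/
noncomputable def vη [InvolutiveStar C] (a : ℕ → C) (m : ℕ) (p q : C) : Pol C :=
  (m : ℂ)⁻¹ • ∑ k ∈ Finset.range m,
    (star (seg a 0 k) * vZ p q * star (seg a k (m - k)) -
      seg a k (m - k) * star (vZ p q) * seg a 0 k)

/-- The self-adjoint part of the vector field. -/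
noncomputable def vζ [InvolutiveStar C] (a : ℕ → C) (m : ℕ) (p q : C) : Pol C :=
  -(vB a m p q + star (vB a m p q))

lemma star_vη [InvolutiveStar C] (a : ℕ → C) (m : ℕ) (p q : C) :
    star (vη a m p q) = -vη a m p q := by
  rw [vη, star_smul, star_sum, ← smul_neg, ← Finset.sum_neg_distrib]
  congr 1
  · simp
  · refine Finset.sum_congr rfl fun k _ => ?_
    simp only [star_sub, star_mul, star_star, neg_sub, mul_assoc]

lemma star_vζ [InvolutiveStar C] (a : ℕ → C) (m : ℕ) (p q : C) :
    star (vζ a m p q) = vζ a m p q := by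
  rw [vζ, star_neg, star_add, star_star, add_comm]

lemma vB_mem_SF (a : ℕ → C) (m : ℕ) (p q : C) : vB a m p q ∈ SF C :=
  mul_mem (mul_mem (pc_mem_SF _) (seg_mem_SF _ _ _)) (pc_mem_SF _)

lemma vζ_mem_SF [InvolutiveStar C] (a : ℕ → C) (m : ℕ) (p q : C) : vζ a m p q ∈ SF C :=
  neg_mem (add_mem (vB_mem_SF _ _ _ _) (star_mem_SF (vB_mem_SF _ _ _ _)))

end formal

section eval

variable {A : Type*} [CStarAlgebra A]

/-- The values of the letters. -/
def evL (P : StarSubalgebra ℂ A) (u S : A) : Let P → A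
  | .c x => x
  | .u => u
  | .us => star u
  | .s => S

/-- Evaluation of a polynomial with constants in `P` at `(u, S)`. -/
noncomputable def ev (P : StarSubalgebra ℂ A) (u S : A) : Pol P →ₐ[ℂ] A := lift (evL P u S)

variable {P : StarSubalgebra ℂ A} {u S : A}

lemma ev_of (l : Let P) : ev P u S (of l) = evL P u S l := lift_of _ _
@[simp] lemma ev_pc (x : P) : ev P u S (pc x) = x := ev_of _
@[simp] lemma ev_pu : ev P u S pu = u := ev_of _
@[simp] lemma ev_pus : ev P u S pus = star u := ev_of _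
@[simp] lemma ev_ps : ev P u S ps = S := ev_of _

lemma ev_star (hS : IsSelfAdjoint S) (f : Pol P) : ev P u S (star f) = star (ev P u S f) := by
  induction f using Pol.induction with
  | halg r => rw [← algebraMap_star_comm, AlgHom.commutes, AlgHom.commutes, algebraMap_star_comm]
  | hof l => cases l <;> simp [hS.star_eq]
  | hmul f g hf hg => simp only [star_mul, map_mul, hf, hg]
  | hadd f g hf hg => simp only [star_add, map_add, hf, hg]

lemma ev_mem {B : StarSubalgebra ℂ A} (hP : P ≤ B) (hu : u ∈ B) (hS : S ∈ B) (f : Pol P) :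
    ev P u S f ∈ B := by
  induction f using Pol.induction with
  | halg r => rw [AlgHom.commutes]; exact algebraMap_mem B r
  | hof l =>
    cases l with
    | c x => rw [ev_pc]; exact hP x.2
    | u => rwa [ev_pu]
    | us => rw [ev_pus]; exact star_mem hu
    | s => rwa [ev_ps]
  | hmul f g hf hg => rw [map_mul]; exact mul_mem hf hg
  | hadd f g hf hg => rw [map_add]; exact add_mem hf hg

lemma ev_SF {f : Pol P} (hf : f ∈ SF P) (S S' : A) : ev P u S f = ev P u S' f := by
  induction hf using SF_induction with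
  | halg r => simp only [AlgHom.commutes]
  | hc x => simp
  | hu => simp
  | hus => simp
  | hmul f g _ _ h1 h2 => simp only [map_mul, h1, h2]
  | hadd f g _ _ h1 h2 => simp only [map_add, h1, h2]

lemma ev_star_SF {f : Pol P} (hf : f ∈ SF P) : ev P u S (star f) = star (ev P u S f) := by
  rw [ev_SF (star_mem_SF hf) S 0, ev_SF hf S 0, ev_star (IsSelfAdjoint.zero A)]

lemma ev_mem_SF {B : StarSubalgebra ℂ A} (hP : P ≤ B) (hu : u ∈ B) {f : Pol P} (hf : f ∈ SF P) :
    ev P u S f ∈ B := by
  rw [ev_SF hf S 0]; exact ev_mem hP hu (zero_mem _) f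

/-- The ⋆-algebra generated by `P` and `u`. -/
noncomputable abbrev adj1 (P : StarSubalgebra ℂ A) (u : A) : StarSubalgebra ℂ A :=
  StarAlgebra.adjoin ℂ ((P : Set A) ∪ {u})

lemma le_adj1 : P ≤ adj1 P u := fun _ hx => StarAlgebra.subset_adjoin ℂ _ (Or.inl hx)
lemma self_mem_adj1 : u ∈ adj1 P u := StarAlgebra.subset_adjoin ℂ _ (Or.inr rfl)
lemma adj1_le {B : StarSubalgebra ℂ A} (hP : P ≤ B) (hu : u ∈ B) : adj1 P u ≤ B :=
  StarAlgebra.adjoin_le (Set.union_subset hP (Set.singleton_subset_iff.mpr hu))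

lemma ev_mem_adj1 {f : Pol P} (hf : f ∈ SF P) : ev P u S f ∈ adj1 P u :=
  ev_mem_SF le_adj1 self_mem_adj1 hf

lemma exists_SF_of_mem_adj1 {x : A} (hx : x ∈ adj1 P u) :
    ∃ f ∈ SF P, ∀ S, ev P u S f = x := by
  induction hx using StarAlgebra.adjoin_induction with
  | mem x hx =>
    rcases hx with hx | rfl
    · exact ⟨pc ⟨x, hx⟩, pc_mem_SF _, fun _ => by simp⟩
    · exact ⟨pu, pu_mem_SF, fun _ => by simp⟩
  | algebraMap r => exact ⟨algebraMap ℂ _ r, Subalgebra.algebraMap_mem _ _, fun _ => by simp⟩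
  | add x y _ _ hx hy =>
    obtain ⟨f, hf, hf'⟩ := hx
    obtain ⟨g, hg, hg'⟩ := hy
    exact ⟨f + g, add_mem hf hg, fun S => by rw [map_add, hf', hg']⟩
  | mul x y _ _ hx hy =>
    obtain ⟨f, hf, hf'⟩ := hx
    obtain ⟨g, hg, hg'⟩ := hy
    exact ⟨f * g, mul_mem hf hg, fun S => by rw [map_mul, hf', hg']⟩
  | star x _ hx =>
    obtain ⟨f, hf, hf'⟩ := hx
    exact ⟨star f, star_mem_SF hf, fun S => by rw [ev_star_SF hf, hf']⟩

/-- The range of evaluation as a ⋆-subalgebra. -/
noncomputable def evRange (P : StarSubalgebra ℂ A) (u : A) {S : A} (hS : IsSelfAdjoint S) :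
    StarSubalgebra ℂ A where
  toSubalgebra := (ev P u S).range
  star_mem' := by
    rintro _ ⟨f, rfl⟩
    exact ⟨star f, ev_star hS f⟩

lemma exists_ev_of_mem_adj (hS : IsSelfAdjoint S) {x : A} (hx : x ∈ adj1 (adj1 P u) S) :
    ∃ f, ev P u S f = x := by
  have : adj1 (adj1 P u) S ≤ evRange P u hS :=
    adj1_le (adj1_le (fun y hy => ⟨pc ⟨y, hy⟩, ev_pc _⟩) ⟨pu, ev_pu⟩) ⟨ps, ev_ps⟩
  exact this hx

/-- `(u, S)` and `(u', S')` have the same joint law over `P`. -/
def SameLaw (τ : Tr A) (P : StarSubalgebra ℂ A) (u S u' S' : A) : Prop :=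
  ∀ f : Pol P, τ (ev P u S f) = τ (ev P u' S' f)

variable {τ : Tr A}

lemma SameLaw.refl (τ : Tr A) (P : StarSubalgebra ℂ A) (u S : A) : SameLaw τ P u S u S :=
  fun _ => rfl
lemma SameLaw.symm {u' S' : A} (h : SameLaw τ P u S u' S') : SameLaw τ P u' S' u S :=
  fun f => (h f).symm
lemma SameLaw.trans {u' S' u'' S'' : A} (h : SameLaw τ P u S u' S')
    (h' : SameLaw τ P u' S' u'' S'') : SameLaw τ P u S u'' S'' :=
  fun f => (h f).trans (h' f)

lemma SameLaw.n2_eq {u' S' : A} (h : SameLaw τ P u S u' S') (hS : IsSelfAdjoint S)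
    (hS' : IsSelfAdjoint S') (f : Pol P) : τ.n2 (ev P u S f) = τ.n2 (ev P u' S' f) := by
  rw [τ.n2_eq_sqrt, τ.n2_eq_sqrt, ← ev_star hS, ← ev_star hS', ← map_mul, ← map_mul, h]

/-- Left multiplication. -/
noncomputable def Lm (x : A) : Module.End ℂ A := Algebra.lmul ℂ A x

@[simp] lemma Lm_apply (x y : A) : Lm x y = x * y := rfl
lemma Lm_mul (x y : A) : Lm (x * y) = Lm x * Lm y := map_mul (Algebra.lmul ℂ A) x y
lemma Lm_one : Lm (1 : A) = 1 := map_one (Algebra.lmul ℂ A)

/-- The rank-one operator `x ↦ τ x • 1`. -/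
noncomputable def eT (τ : Tr A) : Module.End ℂ A := τ.toLin.smulRight 1

@[simp] lemma eT_apply (x : A) : eT τ x = τ x • (1 : A) := rfl

lemma lift_Lm (f : Pol P) : lift (fun l => Lm (evL P u S l)) f = Lm (ev P u S f) :=
  (map_lift (Algebra.lmul ℂ A) (evL P u S) f).symm

/-- Values on letters of the free difference quotient in `s`. -/
noncomputable def dsL (τ : Tr A) (P : StarSubalgebra ℂ A) : Let P → Module.End ℂ A
  | .s => eT τ
  | _ => 0

/-- Values on letters of the free difference quotient in `u`. -/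
noncomputable def duL (τ : Tr A) (P : StarSubalgebra ℂ A) (u : A) : Let P → Module.End ℂ A
  | .u => eT τ * Lm u
  | .us => -(Lm (star u) * eT τ)
  | _ => 0

/-- The free difference quotient in `s`: `DS f R = ∑_{f = f₁ s f₂} τ (f₂ R) • f₁`. -/
noncomputable def DS (τ : Tr A) (P : StarSubalgebra ℂ A) (u S : A) :
    Pol P →ₗ[ℂ] Module.End ℂ A :=
  dlift (fun l => Lm (evL P u S l)) (dsL τ P)

/-- The free difference quotient in `u`:
`DU f R = ∑_{f = f₁ u f₂} τ (u f₂ R) • f₁ - ∑_{f = f₁ u⋆ f₂} τ (f₂ R) • f₁ u⋆`. -/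
noncomputable def DU (τ : Tr A) (P : StarSubalgebra ℂ A) (u S : A) :
    Pol P →ₗ[ℂ] Module.End ℂ A :=
  dlift (fun l => Lm (evL P u S l)) (duL τ P u)

@[simp] lemma DS_pc (x : P) : DS τ P u S (pc x) = 0 := dlift_of _ _ _
@[simp] lemma DS_pu : DS τ P u S pu = 0 := dlift_of _ _ _
@[simp] lemma DS_pus : DS τ P u S pus = 0 := dlift_of _ _ _
@[simp] lemma DS_ps : DS τ P u S ps = eT τ := dlift_of _ _ _
@[simp] lemma DS_one : DS τ P u S 1 = 0 := dlift_one _ _
@[simp] lemma DS_algebraMap (r : ℂ) : DS τ P u S (algebraMap ℂ _ r) = 0 := dlift_algebraMap _ _ _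
lemma DS_mul (f g : Pol P) :
    DS τ P u S (f * g) = DS τ P u S f * Lm (ev P u S g) + Lm (ev P u S f) * DS τ P u S g := by
  rw [DS, dlift_mul, lift_Lm, lift_Lm]
lemma DS_mul_apply (f g : Pol P) (R : A) :
    DS τ P u S (f * g) R = DS τ P u S f (ev P u S g * R) + ev P u S f * DS τ P u S g R := by
  rw [DS_mul]; rfl
lemma DS_SF {f : Pol P} (hf : f ∈ SF P) : DS τ P u S f = 0 :=
  dlift_SF _ _ (fun l hl => by cases l <;> first | rfl | exact absurd rfl hl) hf

@[simp] lemma DU_pc (x : P) : DU τ P u S (pc x) = 0 := dlift_of _ _ _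
@[simp] lemma DU_pu : DU τ P u S pu = eT τ * Lm u := dlift_of _ _ _
@[simp] lemma DU_pus : DU τ P u S pus = -(Lm (star u) * eT τ) := dlift_of _ _ _
@[simp] lemma DU_ps : DU τ P u S ps = 0 := dlift_of _ _ _
@[simp] lemma DU_one : DU τ P u S 1 = 0 := dlift_one _ _
@[simp] lemma DU_algebraMap (r : ℂ) : DU τ P u S (algebraMap ℂ _ r) = 0 := dlift_algebraMap _ _ _
lemma DU_mul (f g : Pol P) :
    DU τ P u S (f * g) = DU τ P u S f * Lm (ev P u S g) + Lm (ev P u S f) * DU τ P u S g := by
  rw [DU, dlift_mul, lift_Lm, lift_Lm]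
lemma DU_mul_apply (f g : Pol P) (R : A) :
    DU τ P u S (f * g) R = DU τ P u S f (ev P u S g * R) + ev P u S f * DU τ P u S g R := by
  rw [DU_mul]; rfl

/-- The Schwinger–Dyson equation of a semicircular element `S` free from `P` and `u`. -/
def SD (τ : Tr A) (P : StarSubalgebra ℂ A) (u S : A) : Prop :=
  ∀ f : Pol P, τ (S * ev P u S f) = τ (DS τ P u S f 1)

/-- The Schwinger–Dyson equation of a Haar unitary `u` free from `P` and `S`. -/
def HSD (τ : Tr A) (P : StarSubalgebra ℂ A) (u S : A) : Prop :=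
  ∀ f : Pol P, τ (DU τ P u S f 1) = 0

lemma SD.tr_mul (h : SD τ P u S) {x : A} (hx : x ∈ adj1 P u) : τ (S * x) = 0 := by
  obtain ⟨f, hf, hf'⟩ := exists_SF_of_mem_adj1 hx
  rw [← hf' S, h, DS_SF hf]; simp

lemma SD.two (h : SD τ P u S) {x y : A} (hx : x ∈ adj1 P u) (hy : y ∈ adj1 P u) :
    τ (S * x * S * y) = τ x * τ y := by
  obtain ⟨f, hf, hf'⟩ := exists_SF_of_mem_adj1 hx
  obtain ⟨g, hg, hg'⟩ := exists_SF_of_mem_adj1 hy
  have := h (f * ps * g)
  simp only [map_mul, hf', hg', ev_ps, DS_mul_apply, DS_SF hf, DS_SF hg, DS_ps, mul_one,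
    LinearMap.zero_apply, mul_zero, add_zero, zero_add, eT_apply, mul_smul_comm,
    Tr.map_smul] at this
  simp only [mul_assoc] at this ⊢
  rw [this, mul_comm]

end eval

section l2cl

variable {A : Type*} [CStarAlgebra A]

/-- The closure of a ⋆-subalgebra in the 2-norm. -/
def l2cl (τ : Tr A) (Q : StarSubalgebra ℂ A) : StarSubalgebra ℂ A where
  carrier := {x | ∀ ε : ℝ, 0 < ε → ∃ y ∈ Q, τ.n2 (x - y) < ε}
  mul_mem' := by
    intro x y hx hy ε hε
    obtain ⟨x', hx', h1⟩ := hx (ε / (2 * (‖y‖ + 1))) (by positivity)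
    obtain ⟨y', hy', h2⟩ := hy (ε / (2 * (‖x'‖ + 1))) (by positivity)
    refine ⟨x' * y', mul_mem hx' hy', ?_⟩
    have e : x * y - x' * y' = (x - x') * y + x' * (y - y') := by noncomm_ring
    rw [e]
    have h3 := τ.n2_mul_le' (x - x') y
    have h4 := τ.n2_mul_le x' (y - y')
    have h5 : τ.n2 (x - x') * (‖y‖ + 1) < ε / 2 := by
      rw [lt_div_iff₀ (by positivity)] at h1; linarith
    have h6 : τ.n2 (y - y') * (‖x'‖ + 1) < ε / 2 := by
      rw [lt_div_iff₀ (by positivity)] at h2; linarith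
    have := τ.n2_add_le ((x - x') * y) (x' * (y - y'))
    have := τ.n2_nonneg (x - x')
    have := τ.n2_nonneg (y - y')
    nlinarith
  add_mem' := by
    intro x y hx hy ε hε
    obtain ⟨x', hx', h1⟩ := hx (ε / 2) (by positivity)
    obtain ⟨y', hy', h2⟩ := hy (ε / 2) (by positivity)
    refine ⟨x' + y', add_mem hx' hy', ?_⟩
    have := τ.n2_add_le (x - x') (y - y')
    rw [show x + y - (x' + y') = x - x' + (y - y') by abel]
    linarith
  algebraMap_mem' r ε hε := ⟨_, algebraMap_mem Q r, by simpa using hε⟩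
  star_mem' := by
    intro x hx ε hε
    obtain ⟨y, hy, h⟩ := hx ε hε
    exact ⟨star y, star_mem hy, by rwa [← star_sub, τ.n2_star]⟩

variable {τ : Tr A} {Q R : StarSubalgebra ℂ A}

lemma mem_l2cl {x : A} : x ∈ l2cl τ Q ↔ ∀ ε : ℝ, 0 < ε → ∃ y ∈ Q, τ.n2 (x - y) < ε := Iff.rfl

lemma le_l2cl : Q ≤ l2cl τ Q := fun x hx ε hε => ⟨x, hx, by simpa using hε⟩

lemma mem_l2cl_of_approx {x : A} (h : ∀ ε : ℝ, 0 < ε → ∃ y ∈ l2cl τ Q, τ.n2 (x - y) < ε) :
    x ∈ l2cl τ Q := by
  intro ε hε
  obtain ⟨y, hy, h1⟩ := h (ε / 2) (by positivity)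
  obtain ⟨z, hz, h2⟩ := hy (ε / 2) (by positivity)
  exact ⟨z, hz, by have := τ.n2_triangle x y z; linarith⟩

lemma l2cl_le (h : Q ≤ l2cl τ R) : l2cl τ Q ≤ l2cl τ R := fun _ hx =>
  mem_l2cl_of_approx fun ε hε => by
    obtain ⟨y, hy, h1⟩ := hx ε hε
    exact ⟨y, h hy, h1⟩

lemma l2cl_mono (h : Q ≤ R) : l2cl τ Q ≤ l2cl τ R := l2cl_le (h.trans le_l2cl)

lemma mem_l2cl_of_tendsto {x : A} {y : ℕ → A} (hy : ∀ n, y n ∈ l2cl τ Q)
    (h : Tendsto (fun n => τ.n2 (y n - x)) atTop (𝓝 0)) : x ∈ l2cl τ Q :=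
  mem_l2cl_of_approx fun ε hε => by
    obtain ⟨n, hn⟩ := (h.eventually (gt_mem_nhds hε)).exists
    exact ⟨y n, hy n, by rwa [τ.n2_sub_comm]⟩

lemma wclosed_l2cl : τ.WClosed (l2cl τ Q : Set A) :=
  fun _ _ _ hx _ h => mem_l2cl_of_tendsto hx h

lemma isClosed_l2cl : IsClosed (l2cl τ Q : Set A) := wclosed_l2cl.isClosed

end l2cl

end Crest.Agent.R134
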