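import Crest.Agent.R134.FlowLocal

/-! Row 134: the global flow of a divergence-free polynomial vector field. -/

set_option autoImplicit false

open Filter Topology
open scoped ComplexConjugate

namespace Crest.Agent.R134

open Crest.Agent.R095

variable {A : Type*} [CStarAlgebra A] {τ : Tr A} {P : StarSubalgebra ℂ A}

/-- For a faithful trace the moments of a self-adjoint element determine its norm. -/
theorem norm_le_of_moments (hτ : τ.Faithful) {S S' : A} (hS : IsSelfAdjoint S)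
    (hS' : IsSelfAdjoint S') (h : ∀ k : ℕ, τ (S ^ k) = τ (S' ^ k)) : ‖S'‖ ≤ ‖S‖ := by
  let _ := CStarAlgebra.spectralOrder A
  have _ := CStarAlgebra.spectralOrderedRing A
  have _ := τ.nontrivial
  by_contra hcon
  push Not at hcon
  obtain ⟨R, hR1, hR2⟩ := exists_between hcon
  have hR0 : 0 < R := lt_of_le_of_lt (norm_nonneg _) hR1
  set g : ℝ → ℝ := fun x => max (|x| - R) 0 with hg
  have hgc : Continuous g := by fun_prop
  set y : A := cfc g S' with hy
  have hysa : IsSelfAdjoint y := cfc_predicate _ _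
  have hy0 : y ≠ 0 := by
    intro h0
    have h1 : cfc g S' = cfc (fun _ : ℝ => (0 : ℝ)) S' := by
      rw [← hy, h0]; exact (cfc_const_zero ℝ S').symm
    have h2 := eqOn_of_cfc_eq_cfc h1 hgc.continuousOn continuousOn_const hS'
    rcases CStarAlgebra.norm_or_neg_norm_mem_spectrum hS' with h3 | h3
    · have := h2 h3
      simp only [hg, abs_norm] at this
      linarith [le_max_left (‖S'‖ - R) 0]
    · have := h2 h3
      simp only [hg, abs_neg, abs_norm] at this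
      linarith [le_max_left (‖S'‖ - R) 0]
  have hn0 : 0 < τ.n2 y := lt_of_le_of_ne (τ.n2_nonneg y) fun h0 => hy0 (hτ y h0.symm)
  have hlow : ∀ k : ℕ, R ^ k * τ.n2 y ≤ τ.n2 (S' ^ k * y) := by
    intro k
    have e : star (S' ^ k * y) * (S' ^ k * y) - (R ^ k) ^ 2 • (star y * y) =
        cfc (fun x : ℝ => g x * x ^ k * (x ^ k * g x) - (R ^ k) ^ 2 • (g x * g x)) S' := by
      rw [cfc_sub _ _ S' (by fun_prop) (by fun_prop), cfc_smul _ _ S' (by fun_prop),
        cfc_mul _ _ S' (by fun_prop) (by fun_prop), cfc_mul _ _ S' (by fun_prop) (by fun_prop),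
        cfc_mul _ _ S' (by fun_prop) (by fun_prop), cfc_mul _ _ S' (by fun_prop) (by fun_prop),
        cfc_pow_id (R := ℝ) S' k hS', star_mul, hysa.star_eq, (hS'.pow k).star_eq]
    have h1 : 0 ≤ star (S' ^ k * y) * (S' ^ k * y) - (R ^ k) ^ 2 • (star y * y) := by
      rw [e]
      refine cfc_nonneg fun x _ => ?_
      rcases le_total (|x| - R) 0 with hx | hx
      · simp [hg, max_eq_right hx]
      · have h2 : (R ^ k) ^ 2 ≤ (x ^ k) ^ 2 := by
          rw [← sq_abs (x ^ k), abs_pow]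
          gcongr
          linarith
        have h3 : 0 ≤ g x * g x := mul_self_nonneg _
        rw [smul_eq_mul]
        nlinarith
    have h2 := proj_re_mul_nonneg τ h1 zero_le_one
    rw [mul_one, τ.map_sub, τ.map_real_smul, Complex.sub_re, Complex.re_ofReal_mul, ← τ.n2_sq,
      ← τ.n2_sq] at h2
    refine (pow_le_pow_iff_left₀ (by positivity) (τ.n2_nonneg _) two_ne_zero).mp ?_
    rw [mul_pow]; linarith
  have hup : ∀ k : ℕ, τ.n2 (S' ^ k * y) ≤ ‖S‖ ^ k * ‖y‖ := by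
    intro k
    refine (τ.n2_mul_le' _ _).trans (mul_le_mul_of_nonneg_right ?_ (norm_nonneg _))
    have : τ.n2 (S' ^ k) = τ.n2 (S ^ k) := by
      rw [τ.n2_eq_sqrt, τ.n2_eq_sqrt, (hS.pow k).star_eq, (hS'.pow k).star_eq, ← pow_add,
        ← pow_add, h]
    rw [this]
    exact (τ.n2_le_norm _).trans (norm_pow_le _ _)
  have hlim : Tendsto (fun k : ℕ => (‖S‖ / R) ^ k * ‖y‖) atTop (𝓝 (0 * ‖y‖)) :=
    (tendsto_pow_atTop_nhds_zero_of_lt_one (by positivity) ((div_lt_one hR0).2 hR1)).mul_const _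
  rw [zero_mul] at hlim
  obtain ⟨k, hk⟩ := (hlim.eventually (gt_mem_nhds hn0)).exists
  have h4 := (hlow k).trans (hup k)
  rw [div_pow, div_mul_eq_mul_div, div_lt_iff₀ (by positivity)] at hk
  linarith

/-- The conclusion of `flow` as a relation. -/
def FlowRel (τ : Tr A) (P : StarSubalgebra ℂ A) (η ζ : Pol P) (T : ℝ) (u S u' S' : A) : Prop :=
  u' ∈ unitary A ∧ IsSelfAdjoint S' ∧ SameLaw τ P u S u' S' ∧
    (∀ B : StarSubalgebra ℂ A, IsClosed (B : Set A) → P ≤ B → u' ∈ B → S' ∈ B →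
      u ∈ B ∧ S ∈ B) ∧
    ∀ (φ ψ φ' ψ' : ℝ → ℝ) (f g : Pol P) (C : ℝ), (∀ t, HasDerivAt φ (φ' t) t) →
      (∀ t, HasDerivAt ψ (ψ' t) t) →
      (∀ t, τ.n2 (φ' t • ev P u S f + φ t • ev P u S (der η ζ f) +
        (ψ' t • ev P u S g + ψ t • ev P u S (der η ζ g))) ≤ C) →
      τ.n2 (φ T • ev P u' S' f + ψ T • ev P u' S' g -
        (φ 0 • ev P u S f + ψ 0 • ev P u S g)) ≤ C * T

lemma SameLaw.n2_four {u S u' S' : A} (h : SameLaw τ P u S u' S') (hS : IsSelfAdjoint S)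
    (hS' : IsSelfAdjoint S') (a b c d : ℝ) (f₁ f₂ f₃ f₄ : Pol P) :
    τ.n2 (a • ev P u S f₁ + b • ev P u S f₂ + (c • ev P u S f₃ + d • ev P u S f₄)) =
      τ.n2 (a • ev P u' S' f₁ + b • ev P u' S' f₂ + (c • ev P u' S' f₃ + d • ev P u' S' f₄)) := by
  have := h.n2_eq hS hS' ((a : ℂ) • f₁ + (b : ℂ) • f₂ + ((c : ℂ) • f₃ + (d : ℂ) • f₄))
  simp only [map_add, map_smul] at this
  simpa only [Complex.coe_smul] using this

lemma FlowRel.zero {η ζ : Pol P} {u S : A} (hu : u ∈ unitary A) (hS : IsSelfAdjoint S) :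
    FlowRel τ P η ζ 0 u S u S :=
  ⟨hu, hS, SameLaw.refl _ _ _ _, fun _ _ _ h1 h2 => ⟨h1, h2⟩, fun _ _ _ _ _ _ _ _ _ _ => by simp⟩

lemma FlowRel.trans {η ζ : Pol P} {u S u₁ S₁ u₂ S₂ : A} {T₁ T₂ : ℝ} (hS : IsSelfAdjoint S)
    (h₁ : FlowRel τ P η ζ T₁ u S u₁ S₁) (h₂ : FlowRel τ P η ζ T₂ u₁ S₁ u₂ S₂) :
    FlowRel τ P η ζ (T₁ + T₂) u S u₂ S₂ := by
  obtain ⟨-, hS₁, hl₁, hB₁, he₁⟩ := h₁
  obtain ⟨hu₂, hS₂, hl₂, hB₂, he₂⟩ := h₂
  refine ⟨hu₂, hS₂, hl₁.trans hl₂, fun B hB hP h1 h2 => ?_, fun φ ψ φ' ψ' f g C hφ hψ hC => ?_⟩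
  · obtain ⟨h3, h4⟩ := hB₂ B hB hP h1 h2
    exact hB₁ B hB hP h3 h4
  · have e1 := he₁ φ ψ φ' ψ' f g C hφ hψ hC
    have e2 := he₂ (fun t => φ (T₁ + t)) (fun t => ψ (T₁ + t)) (fun t => φ' (T₁ + t))
      (fun t => ψ' (T₁ + t)) f g C (fun t => (hφ (T₁ + t)).comp_const_add T₁ t)
      (fun t => (hψ (T₁ + t)).comp_const_add T₁ t)
      (fun t => by rw [← hl₁.n2_four hS hS₁]; exact hC _)
    simp only [add_zero] at e2
    have := τ.n2_triangle (φ (T₁ + T₂) • ev P u₂ S₂ f + ψ (T₁ + T₂) • ev P u₂ S₂ g)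
      (φ T₁ • ev P u₁ S₁ f + ψ T₁ • ev P u₁ S₁ g) (φ 0 • ev P u S f + ψ 0 • ev P u S g)
    linarith

/-- One short step of the flow. -/
lemma flow_step (hτ : τ.Faithful) {η ζ : Pol P} (hη : star η = -η) (hζ : star ζ = ζ) (ρ : ℝ) :
    ∃ r : ℝ, 0 < r ∧ ∀ u S : A, u ∈ unitary A → IsSelfAdjoint S → ‖S‖ ≤ ρ →
      (∀ f : Pol P, τ (ev P u S (der η ζ f)) = 0) → ∀ h : ℝ, 0 ≤ h → h < r →
      ∃ u' S' : A, FlowRel τ P η ζ h u S u' S' := by
  have _ := τ.nontrivial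
  obtain ⟨r, hr, H⟩ := local_flow P hη hζ ρ
  refine ⟨r, hr, fun u S hu hS hρ hdiv h h0 hh => ?_⟩
  obtain ⟨U, V, hU0, hV0, HH⟩ := H u S (CStarRing.norm_of_mem_unitary hu).le hS hρ
  have hlaw : ∀ t, |t| < r → SameLaw τ P u S (U t) (V t) := by
    intro t ht f
    have h1 := τ.clm.hasSum ((HH t ht).2.1 f)
    have h2 : HasSum (fun k : ℕ => τ.clm ((t ^ k / (k.factorial : ℝ)) •
        ev P u S ((der η ζ)^[k] f))) (τ (ev P u S f)) := by
      have := hasSum_single (f := fun k : ℕ => τ.clm ((t ^ k / (k.factorial : ℝ)) •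
        ev P u S ((der η ζ)^[k] f))) 0 (fun k hk => by
          obtain ⟨j, rfl⟩ := Nat.exists_eq_succ_of_ne_zero hk
          rw [Tr.clm_apply, Tr.map_real_smul, Function.iterate_succ_apply', hdiv, mul_zero])
      simpa using this
    exact h2.unique h1
  have habs : |h| < r := by rwa [abs_of_nonneg h0]
  have hstar : star (U h) * U h = 1 := by
    have h1 := (HH h habs).2.1 (pus * pu)
    have hd : der η ζ (pus * pu) = 0 := by
      rw [der_mul, der_pus, der_pu, neg_mul, mul_assoc, neg_add_cancel]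
    have h2 := hasSum_single (f := fun k : ℕ => (h ^ k / (k.factorial : ℝ)) •
        ev P u S ((der η ζ)^[k] (pus * pu))) 0 (fun k hk => by
          obtain ⟨j, rfl⟩ := Nat.exists_eq_succ_of_ne_zero hk
          rw [Function.iterate_succ_apply, hd, Function.iterate_fixed (map_zero _), map_zero,
            smul_zero])
    have h3 := h1.unique h2
    simpa [Unitary.star_mul_self_of_mem hu] using h3
  have hstar' : U h * star (U h) = 1 := by
    have hp : star (1 - U h * star (U h)) * (1 - U h * star (U h)) = 1 - U h * star (U h) := by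
      have : U h * star (U h) * (U h * star (U h)) = U h * star (U h) := by
        rw [mul_assoc, ← mul_assoc (star (U h)), hstar, one_mul]
      simp only [star_sub, star_one, star_mul, star_star, sub_mul, mul_sub, one_mul, mul_one, this]
      abel
    have h1 : τ.n2 (1 - U h * star (U h)) ^ 2 = 0 := by
      rw [τ.n2_sq, hp, τ.map_sub, τ.comm, hstar]; simp
    have := hτ _ (pow_eq_zero_iff two_ne_zero |>.1 h1)
    exact (sub_eq_zero.1 this).symm
  refine ⟨U h, V h, ⟨hstar, hstar'⟩, (HH h habs).1, hlaw h habs, (HH h habs).2.2.2,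
    fun φ ψ φ' ψ' f g C hφ hψ hC => ?_⟩
  set y := φ h • ev P (U h) (V h) f + ψ h • ev P (U h) (V h) g -
    (φ 0 • ev P u S f + ψ 0 • ev P u S g) with hy
  set L : A →L[ℝ] ℂ := (τ.clm.restrictScalars ℝ).comp (ContinuousLinearMap.mul ℝ A (star y))
    with hL
  have hLa : ∀ x, L x = τ (star y * x) := fun x => rfl
  have hin : ∀ t ∈ Set.Icc 0 h, |t| < r := fun t ht => by
    rw [abs_of_nonneg ht.1]; exact lt_of_le_of_lt ht.2 hh
  have hder : ∀ t ∈ Set.Icc 0 h, HasDerivWithinAt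
      (fun t => L (φ t • ev P (U t) (V t) f + ψ t • ev P (U t) (V t) g))
      (L (φ' t • ev P (U t) (V t) f + φ t • ev P (U t) (V t) (der η ζ f) +
        (ψ' t • ev P (U t) (V t) g + ψ t • ev P (U t) (V t) (der η ζ g)))) (Set.Icc 0 h) t := by
    intro t ht
    have h1 := ((hφ t).smul ((HH t (hin t ht)).2.2.1 f)).add
      ((hψ t).smul ((HH t (hin t ht)).2.2.1 g))
    have h2 := L.hasFDerivAt.comp_hasDerivAt t h1
    rw [add_comm (φ' t • _), add_comm (ψ' t • _)]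
    exact h2.hasDerivWithinAt
  have hbd : ∀ t ∈ Set.Icc 0 h,
      ‖L (φ' t • ev P (U t) (V t) f + φ t • ev P (U t) (V t) (der η ζ f) +
        (ψ' t • ev P (U t) (V t) g + ψ t • ev P (U t) (V t) (der η ζ g)))‖ ≤ τ.n2 y * C := by
    intro t ht
    rw [hLa]
    refine (τ.norm_star_mul_le _ _).trans (mul_le_mul_of_nonneg_left ?_ (τ.n2_nonneg _))
    rw [← (hlaw t (hin t ht)).n2_four hS (HH t (hin t ht)).1]
    exact hC t
  have hmv := (convex_Icc 0 h).norm_image_sub_le_of_norm_hasDerivWithin_le hder hbd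
    (Set.left_mem_Icc.2 h0) (Set.right_mem_Icc.2 h0)
  rw [← map_sub, hU0, hV0, ← hy, hLa, ← τ.n2_sq_complex, norm_pow, Complex.norm_real,
    Real.norm_eq_abs, sq_abs, sub_zero, Real.norm_eq_abs, abs_of_nonneg h0] at hmv
  have hC0 : 0 ≤ C := (τ.n2_nonneg _).trans (hC 0)
  rcases (τ.n2_nonneg y).eq_or_lt with h5 | h5
  · rw [← h5]; positivity
  · refine le_of_mul_le_mul_left ?_ h5
    nlinarith

/-- The flow of a divergence-free vector field for time `T`. -/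
theorem flow (hτ : τ.Faithful) {η ζ : Pol P} (hη : star η = -η) (hζ : star ζ = ζ)
    {u S : A} (hu : u ∈ unitary A) (hS : IsSelfAdjoint S)
    (hdiv : ∀ f : Pol P, τ (ev P u S (der η ζ f)) = 0) {T : ℝ} (hT : 0 ≤ T) :
    ∃ u' S' : A, u' ∈ unitary A ∧ IsSelfAdjoint S' ∧ SameLaw τ P u S u' S' ∧
      (∀ B : StarSubalgebra ℂ A, IsClosed (B : Set A) → P ≤ B → u' ∈ B → S' ∈ B →
        u ∈ B ∧ S ∈ B) ∧
      ∀ (φ ψ φ' ψ' : ℝ → ℝ) (f g : Pol P) (C : ℝ), (∀ t, HasDerivAt φ (φ' t) t) →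
        (∀ t, HasDerivAt ψ (ψ' t) t) →
        (∀ t, τ.n2 (φ' t • ev P u S f + φ t • ev P u S (der η ζ f) +
          (ψ' t • ev P u S g + ψ t • ev P u S (der η ζ g))) ≤ C) →
        τ.n2 (φ T • ev P u' S' f + ψ T • ev P u' S' g -
          (φ 0 • ev P u S f + ψ 0 • ev P u S g)) ≤ C * T := by
  obtain ⟨r, hr, H⟩ := flow_step hτ hη hζ ‖S‖
  obtain ⟨N, hN⟩ := exists_nat_gt (T / r)
  have hN0 : (0 : ℝ) < N := lt_of_le_of_lt (by positivity) hN
  have hh0 : 0 ≤ T / N := by positivity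
  have hh : T / N < r := by
    rw [div_lt_iff₀ hN0]; rw [div_lt_iff₀ hr] at hN; linarith
  have key : ∀ n : ℕ, ∃ u' S' : A, FlowRel τ P η ζ (n * (T / N)) u S u' S' := by
    intro n
    induction n with
    | zero => exact ⟨u, S, by simpa using FlowRel.zero hu hS⟩
    | succ n ih =>
      obtain ⟨u₁, S₁, h₁⟩ := ih
      have hn : ‖S₁‖ ≤ ‖S‖ := norm_le_of_moments hτ hS h₁.2.1 fun k => by
        simpa using h₁.2.2.1 (ps ^ k)
      obtain ⟨u₂, S₂, h₂⟩ := H u₁ S₁ h₁.1 h₁.2.1 hn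
        (fun f => by rw [← h₁.2.2.1, hdiv]) _ hh0 hh
      refine ⟨u₂, S₂, ?_⟩
      have := h₁.trans hS h₂
      rwa [show (n : ℝ) * (T / N) + T / N = ((n + 1 : ℕ) : ℝ) * (T / N) by push_cast; ring]
        at this
  obtain ⟨u', S', h⟩ := key N
  rw [mul_div_cancel₀ _ hN0.ne'] at h
  exact ⟨u', S', h⟩

end Crest.Agent.R134
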