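import Crest.Agent.R134.Defs

/-! Row 134: the local flow of a polynomial vector field, as a power series. -/

set_option autoImplicit false

open Filter Topology
open scoped ComplexConjugate

namespace Crest.Agent.R134

open Crest.Agent.R095 Finset.HasAntidiagonal

variable {A : Type*} [CStarAlgebra A]

/-- Majorants: degree at most `n` in the non-constant letters, total size at most `a`. -/
inductive PF (P : StarSubalgebra ℂ A) : ℕ → ℝ → Pol P → Prop
  | one : PF P 0 1 1
  | u : PF P 1 1 pu
  | us : PF P 1 1 pus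
  | s : PF P 1 1 ps
  | c (x : P) : PF P 0 ‖(x : A)‖ (pc x)
  | zero : PF P 0 0 0
  | mul {n n' : ℕ} {a a' : ℝ} {f g : Pol P} : PF P n a f → PF P n' a' g →
      PF P (n + n') (a * a') (f * g)
  | add {n : ℕ} {a a' : ℝ} {f g : Pol P} : PF P n a f → PF P n a' g → PF P n (a + a') (f + g)
  | smul {n : ℕ} {a : ℝ} {f : Pol P} (c : ℂ) : PF P n a f → PF P n (‖c‖ * a) (c • f)
  | mono {n n' : ℕ} {a a' : ℝ} {f : Pol P} : PF P n a f → n ≤ n' → a ≤ a' → PF P n' a' f

variable {P : StarSubalgebra ℂ A}

lemma PF.nonneg {n : ℕ} {a : ℝ} {f : Pol P} (h : PF P n a f) : 0 ≤ a := by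
  induction h with
  | one => exact zero_le_one
  | u => exact zero_le_one
  | us => exact zero_le_one
  | s => exact zero_le_one
  | c x => exact norm_nonneg _
  | zero => exact le_rfl
  | mul _ _ h1 h2 => exact mul_nonneg h1 h2
  | add _ _ h1 h2 => exact add_nonneg h1 h2
  | smul c _ h => exact mul_nonneg (norm_nonneg _) h
  | mono _ _ h2 h => exact h.trans h2

lemma exists_PF (f : Pol P) : ∃ n a, PF P n a f := by
  induction f using Pol.induction with
  | halg r => exact ⟨_, _, by rw [Algebra.algebraMap_eq_smul_one]; exact PF.one.smul r⟩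
  | hof l =>
    cases l with
    | c x => exact ⟨_, _, .c x⟩
    | u => exact ⟨_, _, .u⟩
    | us => exact ⟨_, _, .us⟩
    | s => exact ⟨_, _, .s⟩
  | hmul f g hf hg =>
    obtain ⟨n, a, hf⟩ := hf
    obtain ⟨n', a', hg⟩ := hg
    exact ⟨_, _, hf.mul hg⟩
  | hadd f g hf hg =>
    obtain ⟨n, a, hf⟩ := hf
    obtain ⟨n', a', hg⟩ := hg
    exact ⟨max n n', _, (hf.mono (le_max_left _ _) le_rfl).add (hg.mono (le_max_right _ _) le_rfl)⟩

lemma PF.norm_ev {n : ℕ} {a : ℝ} {f : Pol P} (h : PF P n a f) {u S : A} {ρ : ℝ} (hρ : 1 ≤ ρ)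
    (hu : ‖u‖ ≤ 1) (hS : ‖S‖ ≤ ρ) : ‖ev P u S f‖ ≤ a * ρ ^ n := by
  induction h with
  | one =>
    rw [map_one, pow_zero, mul_one]
    rcases subsingleton_or_nontrivial A with h | h
    · rw [Subsingleton.elim (1 : A) 0, norm_zero]; exact zero_le_one
    · exact CStarRing.norm_one.le
  | u => simpa using hu.trans hρ
  | us => simpa using hu.trans hρ
  | s => simpa using hS
  | c x => simp
  | zero => simp
  | mul h1 _ i1 i2 =>
    rw [map_mul, pow_add, mul_mul_mul_comm]
    exact (norm_mul_le _ _).trans (mul_le_mul i1 i2 (norm_nonneg _) ((norm_nonneg _).trans i1))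
  | add _ _ i1 i2 =>
    rw [map_add, add_mul]
    exact (norm_add_le _ _).trans (add_le_add i1 i2)
  | smul c _ i =>
    rw [map_smul, norm_smul, mul_assoc]
    exact mul_le_mul_of_nonneg_left i (norm_nonneg _)
  | mono h h1 h2 i =>
    exact i.trans (mul_le_mul h2 (pow_le_pow_right₀ hρ h1) (by positivity) (h.nonneg.trans h2))

lemma PF.der {η ζ : Pol P} {d : ℕ} {K : ℝ} (hη : PF P d K η) (hζ : PF P d K ζ) {n : ℕ} {a : ℝ}
    {f : Pol P} (h : PF P n a f) : PF P (n + d) (n * K * a) (der η ζ f) := by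
  have hK := hη.nonneg
  induction h with
  | one => rw [der_one]; exact PF.zero.mono (Nat.zero_le _) (by simp)
  | u => rw [der_pu]; exact (hη.mul .u).mono (by omega) (by simp)
  | us =>
    rw [der_pus, ← neg_one_smul ℂ]
    exact ((PF.us.mul hη).smul (-1)).mono le_rfl (by simp)
  | s => rw [der_ps]; exact hζ.mono (by omega) (by simp)
  | c x => rw [der_pc]; exact PF.zero.mono (Nat.zero_le _) (by simp)
  | zero => rw [map_zero]; exact PF.zero.mono (Nat.zero_le _) (by simp)
  | @mul n n' a a' f g h1 h2 i1 i2 =>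
    rw [der_mul]
    exact (((i1.mul h2).mono (n' := n + n' + d) (by omega) le_rfl).add
      ((h1.mul i2).mono (by omega) le_rfl)).mono le_rfl (le_of_eq (by push_cast; ring))
  | add _ _ i1 i2 =>
    rw [map_add]
    exact (i1.add i2).mono le_rfl (le_of_eq (by ring))
  | smul c _ i =>
    rw [map_smul]
    exact (i.smul c).mono le_rfl (le_of_eq (by ring))
  | mono h h1 h2 i =>
    refine i.mono (by omega) ?_
    exact mul_le_mul (mul_le_mul_of_nonneg_right (by exact_mod_cast h1) hK) h2 h.nonneg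
      (by positivity)

lemma PF.iter {η ζ : Pol P} {d : ℕ} (hd : 1 ≤ d) {K : ℝ} (hη : PF P d K η) (hζ : PF P d K ζ)
    {n : ℕ} {a : ℝ} {f : Pol P} (h : PF P n a f) (k : ℕ) :
    PF P (n + k * d) (a * (K * d) ^ k * n.ascFactorial k) ((R134.der η ζ)^[k] f) := by
  have hK := hη.nonneg
  have ha := h.nonneg
  induction k with
  | zero => simpa using h
  | succ k ih =>
    rw [Function.iterate_succ_apply']
    refine (PF.der hη hζ ih).mono (le_of_eq (by ring)) ?_
    have h1 : ((n + k * d : ℕ) : ℝ) ≤ d * (n + k : ℕ) := by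
      have : n + k * d ≤ d * (n + k) := by nlinarith
      exact_mod_cast this
    rw [Nat.ascFactorial_succ, Nat.cast_mul]
    calc ((n + k * d : ℕ) : ℝ) * K * (a * (K * d) ^ k * n.ascFactorial k)
        ≤ d * (n + k : ℕ) * K * (a * (K * d) ^ k * n.ascFactorial k) := by gcongr
      _ = _ := by ring

/-- Factorial bounds for the iterated derivation, with a rate that does not depend on `f`. -/
lemma exists_iter_bound (η ζ : Pol P) (ρ : ℝ) : ∃ M : ℝ, 0 < M ∧ ∀ f : Pol P, ∃ C : ℝ, 0 ≤ C ∧
    ∀ u S : A, ‖u‖ ≤ 1 → ‖S‖ ≤ ρ → ∀ k : ℕ,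
      ‖ev P u S ((der η ζ)^[k] f)‖ ≤ C * M ^ k * k.factorial := by
  obtain ⟨d1, K1, h1⟩ := exists_PF η
  obtain ⟨d2, K2, h2⟩ := exists_PF ζ
  have k1 := h1.nonneg
  have k2 := h2.nonneg
  obtain ⟨d, K, hd, hK, hη, hζ⟩ : ∃ (d : ℕ) (K : ℝ), 1 ≤ d ∧ 0 < K ∧ PF P d K η ∧ PF P d K ζ :=
    ⟨d1 + d2 + 1, K1 + K2 + 1, by omega, by positivity, h1.mono (by omega) (by linarith),
      h2.mono (by omega) (by linarith)⟩
  obtain ⟨R, hR, hρ⟩ : ∃ R : ℝ, 1 ≤ R ∧ ρ ≤ R := ⟨max 1 ρ, le_max_left _ _, le_max_right _ _⟩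
  refine ⟨2 * (K * d) * R ^ d, by positivity, fun f => ?_⟩
  obtain ⟨n, a, hf⟩ := exists_PF f
  have ha := hf.nonneg
  refine ⟨a * 2 ^ n * R ^ n, by positivity, fun u S hu hS k => ?_⟩
  refine ((PF.iter hd hη hζ hf k).norm_ev hR hu (hS.trans hρ)).trans ?_
  have h3 : (n.ascFactorial k : ℝ) ≤ k.factorial * 2 ^ (n + k) := by
    rw [Nat.ascFactorial_eq_factorial_mul_choose']
    have := (Nat.choose_le_two_pow (n + k - 1) k).trans
      (Nat.pow_le_pow_right two_pos (Nat.sub_le (n + k) 1))
    exact_mod_cast Nat.mul_le_mul_left _ this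
  calc a * (K * d) ^ k * n.ascFactorial k * R ^ (n + k * d)
      ≤ a * (K * d) ^ k * (k.factorial * 2 ^ (n + k)) * R ^ (n + k * d) := by gcongr
    _ = _ := by rw [mul_pow (2 * (K * d)), mul_pow 2, ← pow_mul]; ring

lemma iter_der_mul {C : Type*} (η ζ f g : Pol C) (n : ℕ) :
    (der η ζ)^[n] (f * g) = ∑ ij ∈ antidiagonal n,
      n.choose ij.1 • ((der η ζ)^[ij.1] f * (der η ζ)^[ij.2] g) := by
  induction n with
  | zero => simp
  | succ n ih =>
    rw [Finset.sum_antidiagonal_choose_succ_nsmul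
      (fun i j => (der η ζ)^[i] f * (der η ζ)^[j] g) n, Function.iterate_succ_apply', ih, map_sum,
      add_comm, ← Finset.sum_add_distrib]
    refine Finset.sum_congr rfl fun ij hij => ?_
    rw [map_nsmul, der_mul, smul_add, Function.iterate_succ_apply', Function.iterate_succ_apply',
      Nat.choose_symm_of_eq_add (mem_antidiagonal.1 hij).symm]

lemma choose_div_factorial {n : ℕ} {ij : ℕ × ℕ} (h : ij ∈ antidiagonal n) (x y : ℝ) :
    x ^ ij.1 / ij.1.factorial * (y ^ ij.2 / ij.2.factorial) =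
      n.choose ij.1 * (x ^ ij.1 * y ^ ij.2) / n.factorial := by
  obtain ⟨i, j⟩ := ij
  obtain rfl : i + j = n := mem_antidiagonal.1 h
  have h1 : ((i + j).choose i : ℝ) * i.factorial * j.factorial = (i + j).factorial := by
    rw [Nat.choose_symm_add]
    exact_mod_cast Nat.add_choose_mul_factorial_mul_factorial i j
  have h2 : ((i + j).choose i : ℝ) ≠ 0 := by
    exact_mod_cast (Nat.choose_pos (Nat.le_add_right i j)).ne'
  simp only
  rw [← h1]
  field_simp

section series

variable {η ζ : Pol P} {u S : A} {M : ℝ}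

/-- The terms of the exponential series. -/
noncomputable def flowT (η ζ : Pol P) (u S : A) (f : Pol P) (t : ℝ) (k : ℕ) : A :=
  (t ^ k / (k.factorial : ℝ)) • ev P u S ((der η ζ)^[k] f)

lemma norm_flowT_le {f : Pol P} {C : ℝ}
    (h : ∀ k : ℕ, ‖ev P u S ((der η ζ)^[k] f)‖ ≤ C * M ^ k * k.factorial) (t : ℝ) (k : ℕ) :
    ‖flowT η ζ u S f t k‖ ≤ C * (M * |t|) ^ k := by
  unfold flowT
  have hk : (0 : ℝ) < k.factorial := by positivity
  rw [norm_smul, Real.norm_eq_abs, abs_div, abs_pow, abs_of_pos hk]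
  refine (mul_le_mul_of_nonneg_left (h k) (by positivity)).trans (le_of_eq ?_)
  rw [mul_pow]
  field_simp

lemma flowT_mul (f g : Pol P) (t : ℝ) (n : ℕ) :
    flowT η ζ u S (f * g) t n =
      ∑ ij ∈ antidiagonal n, flowT η ζ u S f t ij.1 * flowT η ζ u S g t ij.2 := by
  unfold flowT
  rw [iter_der_mul, map_sum, Finset.smul_sum]
  refine Finset.sum_congr rfl fun ij hij => ?_
  rw [smul_mul_smul_comm, choose_div_factorial hij, map_nsmul, map_mul, ← pow_add,
    mem_antidiagonal.1 hij, ← Nat.cast_smul_eq_nsmul ℝ, smul_smul]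
  congr 1
  ring

lemma iter_der_add {C : Type*} (η ζ f g : Pol C) (n : ℕ) :
    (der η ζ)^[n] (f + g) = (der η ζ)^[n] f + (der η ζ)^[n] g := by
  simp only [← Module.End.pow_apply, map_add]

lemma iter_der_star (hη : star η = -η) (hζ : star ζ = ζ) (f : Pol P) (n : ℕ) :
    star ((der η ζ)^[n] f) = (der η ζ)^[n] (star f) := by
  induction n with
  | zero => rfl
  | succ n ih => rw [Function.iterate_succ_apply', Function.iterate_succ_apply', star_der hη hζ, ih]

lemma flowT_star (hη : star η = -η) (hζ : star ζ = ζ) (hS : IsSelfAdjoint S) (f : Pol P) (t : ℝ)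
    (k : ℕ) : flowT η ζ u S (star f) t k = star (flowT η ζ u S f t k) := by
  unfold flowT
  rw [← iter_der_star hη hζ, ev_star hS, star_smul, star_trivial (_ : ℝ)]

lemma hasSum_flowT_of_der_zero {f : Pol P} (h : der η ζ f = 0) (t : ℝ) :
    HasSum (flowT η ζ u S f t) (ev P u S f) := by
  have := hasSum_single (f := flowT η ζ u S f t) 0 fun k hk => by
    obtain ⟨k, rfl⟩ := Nat.exists_eq_succ_of_ne_zero hk
    unfold flowT
    rw [Function.iterate_succ_apply, h, ← Module.End.pow_apply, map_zero, map_zero, smul_zero]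
  simpa [flowT] using this

lemma hasSum_flowT_zero (f : Pol P) : HasSum (flowT η ζ u S f 0) (ev P u S f) := by
  have := hasSum_single (f := flowT η ζ u S f 0) 0 fun k hk => by simp [flowT, hk]
  simpa [flowT] using this

end series

/-- The local flow `exp (t δ)` of the derivation `δ = der η ζ`; the radius depends only on a bound
for the norms of the starting point. -/
theorem local_flow (P : StarSubalgebra ℂ A) {η ζ : Pol P} (hη : star η = -η) (hζ : star ζ = ζ)
    (ρ : ℝ) :
    ∃ r : ℝ, 0 < r ∧ ∀ u S : A, ‖u‖ ≤ 1 → IsSelfAdjoint S → ‖S‖ ≤ ρ →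
      ∃ U V : ℝ → A, U 0 = u ∧ V 0 = S ∧ ∀ t : ℝ, |t| < r →
        IsSelfAdjoint (V t) ∧
        (∀ f : Pol P, HasSum (fun k : ℕ => (t ^ k / (k.factorial : ℝ)) •
          ev P u S ((der η ζ)^[k] f)) (ev P (U t) (V t) f)) ∧
        (∀ f : Pol P, HasDerivAt (fun t => ev P (U t) (V t) f)
          (ev P (U t) (V t) (der η ζ f)) t) ∧
        (∀ B : StarSubalgebra ℂ A, IsClosed (B : Set A) → P ≤ B → U t ∈ B → V t ∈ B →
          u ∈ B ∧ S ∈ B) := by
  obtain ⟨M, hM, hb⟩ := exists_iter_bound η ζ ρ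
  refine ⟨1 / (4 * M), by positivity, fun u S hu hS hSρ => ?_⟩
  have hMt : ∀ t : ℝ, |t| < 1 / (4 * M) → M * |t| ≤ 1 / 4 := by
    intro t ht
    rw [lt_div_iff₀ (by positivity)] at ht
    linarith
  have hsum : ∀ (f : Pol P) (t : ℝ), |t| < 1 / (4 * M) →
      Summable fun k => ‖flowT η ζ u S f t k‖ := by
    intro f t ht
    obtain ⟨C, -, hC⟩ := hb f
    refine Summable.of_nonneg_of_le (fun _ => norm_nonneg _)
      (norm_flowT_le (hC u S hu hSρ) t) (Summable.mul_left _ ?_)
    exact summable_geometric_of_lt_one (by positivity) ((hMt t ht).trans_lt (by norm_num))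
  set U : ℝ → A := fun t => ∑' k, flowT η ζ u S pu t k with hU
  set V : ℝ → A := fun t => ∑' k, flowT η ζ u S ps t k with hV
  have hstar : ∀ (f : Pol P) (t : ℝ), ∑' k, flowT η ζ u S (star f) t k =
      star (∑' k, flowT η ζ u S f t k) := by
    intro f t
    simp only [flowT_star hη hζ hS, tsum_star]
  have hev : ∀ t : ℝ, |t| < 1 / (4 * M) → ∀ f : Pol P,
      ∑' k, flowT η ζ u S f t k = ev P (U t) (V t) f := by
    intro t ht f
    induction f using Pol.induction with
    | halg r =>
      rw [(hasSum_flowT_of_der_zero (der_algebraMap η ζ r) t).tsum_eq, AlgHom.commutes,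
        AlgHom.commutes]
    | hof l =>
      cases l with
      | c x => rw [(hasSum_flowT_of_der_zero (der_pc η ζ x) t).tsum_eq, ev_pc, ev_pc]
      | u => rw [ev_pu]
      | us => rw [ev_pus, ← hstar, star_pu]
      | s => rw [ev_ps]
    | hmul f g hf hg =>
      rw [map_mul, ← hf, ← hg, tsum_mul_tsum_eq_tsum_sum_antidiagonal_of_summable_norm
        (hsum f t ht) (hsum g t ht)]
      simp only [flowT_mul]
    | hadd f g hf hg =>
      rw [map_add, ← hf, ← hg, ← (hsum f t ht).of_norm.tsum_add (hsum g t ht).of_norm]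
      simp only [flowT, iter_der_add, map_add, smul_add]
  have hhas : ∀ t : ℝ, |t| < 1 / (4 * M) → ∀ f : Pol P,
      HasSum (flowT η ζ u S f t) (ev P (U t) (V t) f) := fun t ht f =>
    hev t ht f ▸ (hsum f t ht).of_norm.hasSum
  refine ⟨U, V, by simpa using (hasSum_flowT_zero (η := η) (ζ := ζ) (u := u) (S := S) pu).tsum_eq,
    by simpa using (hasSum_flowT_zero (η := η) (ζ := ζ) (u := u) (S := S) ps).tsum_eq,
    fun t ht => ⟨?_, hhas t ht, fun f => ?_, fun B hB hPB hUB hVB => ?_⟩⟩
  · have := hstar ps t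
    rw [star_ps] at this
    exact this.symm
  · obtain ⟨C, hC0, hC⟩ := hb (der η ζ f)
    have hd := hasDerivAt_tsum_of_isPreconnected (u := fun k : ℕ => C * (1 / 4 : ℝ) ^ k)
      (g := fun k y => flowT η ζ u S f y (k + 1)) (g' := fun k y => flowT η ζ u S (der η ζ f) y k)
      (t := Metric.ball (0 : ℝ) (1 / (4 * M))) (y₀ := t) (y := t)
      ((summable_geometric_of_lt_one (by norm_num) (by norm_num)).mul_left C) Metric.isOpen_ball
      (convex_ball _ _).isPreconnected
      (fun k y _ => by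
        have h1 := (((hasDerivAt_pow (k + 1) y).div_const ((k + 1).factorial : ℝ)).smul_const
          (ev P u S ((der η ζ)^[k + 1] f)))
        have e : ((k + 1 : ℕ) : ℝ) * y ^ (k + 1 - 1) / ((k + 1).factorial : ℝ) =
            y ^ k / k.factorial := by
          rw [Nat.factorial_succ, Nat.add_sub_cancel]
          push_cast
          field_simp
        rw [e] at h1
        exact h1)
      (fun k y hy => by
        refine (norm_flowT_le (hC u S hu hSρ) y k).trans (mul_le_mul_of_nonneg_left ?_ hC0)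
        exact pow_le_pow_left₀ (by positivity) (hMt y (by simpa using hy)) k)
      (by simpa using ht) ((summable_nat_add_iff 1).2 (hsum f t ht).of_norm) (by simpa using ht)
    rw [hev t ht] at hd
    refine (hd.const_add (ev P u S f)).congr_of_eventuallyEq ?_
    filter_upwards [Metric.isOpen_ball.mem_nhds
      (show t ∈ Metric.ball (0 : ℝ) (1 / (4 * M)) by simpa using ht)] with y hy
    have hy' : |y| < 1 / (4 * M) := by simpa using hy
    rw [← hev y hy', (hsum f y hy').of_norm.tsum_eq_zero_add]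
    simp [flowT]
  · have key : ∀ f : Pol P, ev P u S f ∈ B := by
      intro f
      obtain ⟨C, hC0, hC⟩ := hb f
      set a : ℕ × ℕ → A := fun p => ((-t) ^ p.1 / (p.1.factorial : ℝ)) •
        flowT η ζ u S ((der η ζ)^[p.1] f) t p.2 with ha
      have ha' : ∀ n, ∀ p ∈ antidiagonal n, a p =
          (n.choose p.1 * ((-t) ^ p.1 * t ^ p.2) / n.factorial : ℝ) •
            ev P u S ((der η ζ)^[n] f) := by
        intro n p hp
        simp only [ha, flowT]
        rw [smul_smul, choose_div_factorial hp, ← Function.iterate_add_apply, add_comm p.2,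
          mem_antidiagonal.1 hp]
      have hq : 0 ≤ 2 * (M * |t|) := by positivity
      have hq1 : 2 * (M * |t|) < 1 := by linarith [hMt t ht]
      have hgeo := summable_geometric_of_lt_one hq hq1
      have hsa : Summable a := by
        refine Summable.of_norm_bounded
          ((hgeo.mul_of_nonneg hgeo (fun _ => pow_nonneg hq _) fun _ => pow_nonneg hq _).mul_left C)
          fun p => ?_
        rw [ha' (p.1 + p.2) p (mem_antidiagonal.2 rfl), norm_smul, Real.norm_eq_abs,
          abs_div, abs_mul, abs_mul, abs_pow, abs_pow, abs_neg, Nat.abs_cast, Nat.abs_cast]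
        have h1 : ((p.1 + p.2).choose p.1 : ℝ) ≤ 2 ^ (p.1 + p.2) := by
          exact_mod_cast Nat.choose_le_two_pow _ _
        have h2 : (0 : ℝ) < (p.1 + p.2).factorial := by positivity
        calc _ ≤ 2 ^ (p.1 + p.2) * (|t| ^ p.1 * |t| ^ p.2) / (p.1 + p.2).factorial *
              (C * M ^ (p.1 + p.2) * (p.1 + p.2).factorial) := by
              gcongr
              exact hC u S hu hSρ _
          _ = _ := by
              simp only [mul_pow, pow_add]
              field_simp
      have h1 : HasSum (fun k : ℕ => ((-t) ^ k / (k.factorial : ℝ)) •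
          ev P (U t) (V t) ((der η ζ)^[k] f)) (∑' p, a p) :=
        hsa.hasSum.prod_fiberwise fun k => (hhas t ht _).const_smul _
      have h2 : HasSum (fun n : ℕ => ∑ p ∈ antidiagonal n, a p) (∑' p, a p) :=
        (Finset.HasAntidiagonal.sigmaAntidiagonalEquivProd.hasSum_iff.2 hsa.hasSum).sigma
          fun n => (antidiagonal n).hasSum a
      have h3 : HasSum (fun n : ℕ => ∑ p ∈ antidiagonal n, a p) (ev P u S f) := by
        convert hasSum_flowT_zero (η := η) (ζ := ζ) (u := u) (S := S) f using 1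
        funext n
        rw [Finset.sum_congr rfl (ha' n), ← Finset.sum_smul, ← Finset.sum_div, flowT,
          show (0 : ℝ) = -t + t by ring, (Commute.all _ _).add_pow']
        simp only [nsmul_eq_mul]
      rw [← h2.unique h3]
      exact hB.mem_of_tendsto h1.tendsto_sum_nat (Eventually.of_forall fun n =>
        sum_mem fun k _ => by
          rw [← Complex.coe_smul]
          exact SMulMemClass.smul_mem _ (ev_mem hPB hUB hVB _))
    exact ⟨by simpa using key pu, by simpa using key ps⟩

end Crest.Agent.R134
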