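import Crest.Agent.R134.Defs

/-! Row 134: free generators of a free group are free Haar unitaries. -/

set_option autoImplicit false

open Filter Topology
open scoped ComplexConjugate

namespace Crest.Agent.R134

open Crest.Agent.R095

variable {A : Type*} [CStarAlgebra A] {τ : Tr A}

section words

variable {ι : Type*} [DecidableEq ι]

/-- Group elements whose reduced word does not use the letter `i`. -/
def FreeGrp.Av (i : ι) (h : FreeGroup ι) : Prop := ∀ a ∈ h.toWord, a.1 ≠ i

lemma FreeGrp.av_one (i : ι) : FreeGrp.Av i 1 := by simp [FreeGrp.Av]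

lemma FreeGrp.av_mul {i : ι} {g h : FreeGroup ι} (hg : FreeGrp.Av i g) (hh : FreeGrp.Av i h) :
    FreeGrp.Av i (g * h) := by
  intro a ha
  rcases List.mem_append.mp ((FreeGroup.toWord_mul_sublist g h).subset ha) with h1 | h1
  · exact hg a h1
  · exact hh a h1

lemma FreeGrp.av_of {i j : ι} (hj : j ≠ i) : FreeGrp.Av i (FreeGroup.of j) := by
  intro a ha
  rw [FreeGroup.toWord_of, List.mem_singleton] at ha
  rw [ha]; exact hj

lemma FreeGrp.av_of_inv {i j : ι} (hj : j ≠ i) : FreeGrp.Av i (FreeGroup.of j)⁻¹ := by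
  intro a ha
  rw [FreeGroup.toWord_inv, FreeGroup.toWord_of] at ha
  simp only [FreeGroup.invRev, List.map_cons, List.map_nil, List.reverse_cons, List.reverse_nil,
    List.nil_append, List.mem_singleton] at ha
  rw [ha]; exact hj

lemma FreeGrp.head_last {i : ι} (e : Bool) {h : FreeGroup ι} (hh : FreeGrp.Av i h) :
    (FreeGroup.mk [(i, e)] * h).toWord.head? = some (i, e) := by
  have hred : FreeGroup.IsReduced ([(i, e)] ++ h.toWord) := by
    refine List.IsChain.cons FreeGroup.isReduced_toWord fun y hy hiy => ?_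
    exact absurd hiy.symm (hh y (List.mem_of_mem_head? hy))
  conv_lhs => rw [← FreeGroup.mk_toWord (x := h), FreeGroup.mul_mk, FreeGroup.toWord_mk,
    hred.reduce_eq]
  rfl

lemma FreeGrp.head_cons {i : ι} {e e' : Bool} {h g : FreeGroup ι} (hh : FreeGrp.Av i h)
    (hg : g.toWord.head? = some (i, e')) (hne : h ≠ 1 ∨ e = e') :
    (FreeGroup.mk [(i, e)] * h * g).toWord.head? = some (i, e) := by
  have hred1 : FreeGroup.IsReduced (h.toWord ++ g.toWord) := by
    refine List.IsChain.append FreeGroup.isReduced_toWord FreeGroup.isReduced_toWord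
      fun x hx y hy hxy => ?_
    rw [hg, Option.mem_some_iff] at hy
    subst hy
    exact absurd hxy (hh x (List.mem_of_mem_getLast? hx))
  have hred : FreeGroup.IsReduced ([(i, e)] ++ (h.toWord ++ g.toWord)) := by
    refine List.IsChain.cons hred1 fun y hy hiy => ?_
    change y ∈ (h.toWord ++ g.toWord).head? at hy
    by_cases h1 : h = 1
    · subst h1
      rw [FreeGroup.toWord_one, List.nil_append, hg, Option.mem_some_iff] at hy
      subst hy
      exact hne.resolve_left (fun h => h rfl)
    · have h2 : h.toWord ≠ [] := fun h3 => h1 (FreeGroup.toWord_eq_nil_iff.mp h3)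
      rw [List.head?_append_of_ne_nil _ h2] at hy
      exact absurd hiy.symm (hh y (List.mem_of_mem_head? hy))
  conv_lhs => rw [← FreeGroup.mk_toWord (x := h), ← FreeGroup.mk_toWord (x := g), mul_assoc,
    FreeGroup.mul_mk, FreeGroup.mul_mk, FreeGroup.toWord_mk, hred.reduce_eq]
  rfl

end words

lemma FreeGrp.span_mul_span {G G' : Set A} {V : Submodule ℂ A} {b : A}
    (h : ∀ x ∈ G, ∀ z ∈ G', b * x * z ∈ V) :
    ∀ x ∈ Submodule.span ℂ G, ∀ z ∈ Submodule.span ℂ G', b * x * z ∈ V := by
  intro x hx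
  induction hx using Submodule.span_induction with
  | mem x hx => exact span_mul_mem (h x hx)
  | zero => simp
  | add x y _ _ hx hy =>
    intro z hz; rw [mul_add, add_mul]; exact V.add_mem (hx z hz) (hy z hz)
  | smul c x _ hx =>
    intro z hz; rw [mul_smul_comm, smul_mul_assoc]; exact V.smul_mem c (hx z hz)

theorem free_of_freeGroup {ι : Type*} (π : FreeGroup ι →* A) (hstar : ∀ g, star (π g) = π g⁻¹)
    (htr : ∀ g, g ≠ 1 → τ (π g) = 0) (i : ι) :
    Free τ (StarAlgebra.adjoin ℂ {x | ∃ j, j ≠ i ∧ x = π (FreeGroup.of j)} : Set A)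
      (π (FreeGroup.of i)) := by
  classical
  have hlt : ∀ e, lt (π (FreeGroup.of i)) e = π (FreeGroup.mk [(i, e)]) := by
    intro e
    cases e
    · rw [lt_false, hstar]; rfl
    · rfl
  set V : Submodule ℂ A := Submodule.span ℂ {x | ∃ h, FreeGrp.Av i h ∧ x = π h} with hV
  set V₀ : Submodule ℂ A := Submodule.span ℂ {x | ∃ h, (FreeGrp.Av i h ∧ h ≠ 1) ∧ x = π h}
    with hV₀
  set W : Bool → Submodule ℂ A := fun e =>
    Submodule.span ℂ {x | ∃ g : FreeGroup ι, g.toWord.head? = some (i, e) ∧ x = π g} with hW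
  have hadj : ∀ x ∈ StarAlgebra.adjoin ℂ {x | ∃ j, j ≠ i ∧ x = π (FreeGroup.of j)}, x ∈ V := by
    intro x hx
    have hmul : ∀ g, FreeGrp.Av i g → ∀ z ∈ V, π g * z ∈ V := by
      intro g hg
      refine span_mul_mem ?_
      rintro z ⟨h, hh, rfl⟩
      exact Submodule.subset_span ⟨g * h, FreeGrp.av_mul hg hh, (map_mul π g h).symm⟩
    have := adjoin_mul_mem V ?_ hx 1
      (Submodule.subset_span ⟨1, FreeGrp.av_one i, (map_one π).symm⟩)
    · simpa using this
    · rintro g ⟨j, hj, rfl⟩
      refine ⟨hmul _ (FreeGrp.av_of hj), ?_⟩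
      rw [hstar]
      exact hmul _ (FreeGrp.av_of_inv hj)
  have hcen : ∀ x ∈ V, x - τ x • (1 : A) ∈ V₀ := by
    intro x hx
    induction hx using Submodule.span_induction with
    | mem x hx =>
      obtain ⟨h, hh, rfl⟩ := hx
      by_cases h1 : h = 1
      · subst h1; simp
      · rw [htr h h1, zero_smul, sub_zero]
        exact Submodule.subset_span ⟨h, ⟨hh, h1⟩, rfl⟩
    | zero => simp
    | add x y _ _ hx hy =>
      have : x + y - τ (x + y) • (1 : A) = (x - τ x • (1 : A)) + (y - τ y • (1 : A)) := by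
        rw [τ.map_add, add_smul]; abel
      rw [this]; exact V₀.add_mem hx hy
    | smul c x _ hx =>
      have : c • x - τ (c • x) • (1 : A) = c • (x - τ x • (1 : A)) := by
        rw [τ.map_smul, smul_sub, mul_smul]
      rw [this]; exact V₀.smul_mem c hx
  refine ⟨?_, fun e w hw => ?_⟩
  · rw [Unitary.mem_iff, hstar, ← map_mul, ← map_mul, inv_mul_cancel, mul_inv_cancel, map_one]
    exact ⟨rfl, rfl⟩
  have key : w ∈ W e := by
    induction hw with
    | last e x hx =>
      rw [hlt]
      refine span_mul_mem ?_ x (hadj x hx)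
      rintro z ⟨h, hh, rfl⟩
      exact Submodule.subset_span ⟨_, FreeGrp.head_last e hh, (map_mul π _ _).symm⟩
    | cons e e' x w hx hc _ ih =>
      rw [hlt]
      by_cases hee : e = e'
      · refine FreeGrp.span_mul_span ?_ x (hadj x hx) w ih
        rintro _ ⟨h, hh, rfl⟩ _ ⟨g, hg, rfl⟩
        exact Submodule.subset_span ⟨_, FreeGrp.head_cons hh hg (Or.inr hee), by
          rw [map_mul, map_mul]⟩
      · have hx0 : x ∈ V₀ := by
          have := hcen x (hadj x hx)
          rwa [hc hee, zero_smul, sub_zero] at this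
        refine FreeGrp.span_mul_span ?_ x hx0 w ih
        rintro _ ⟨h, hh, rfl⟩ _ ⟨g, hg, rfl⟩
        exact Submodule.subset_span ⟨_, FreeGrp.head_cons hh.1 hg (Or.inl hh.2), by
          rw [map_mul, map_mul]⟩
  refine tr_span_eq_zero τ ?_ w key
  rintro z ⟨g, hg, rfl⟩
  refine htr g fun h1 => ?_
  rw [h1] at hg
  simp at hg

end Crest.Agent.R134
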