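import Crest.Agent.R134.Defs
import Crest.Agent.R095.Concrete
import Crest.Prelude.Def_GroupVNA

/-! Row 134: the group von Neumann algebra as a tracial algebra. -/

set_option autoImplicit false

open Filter Topology
open scoped ComplexConjugate

namespace Crest.Agent.R134

open Crest.Agent.R095

open Crest.OpAlg
open scoped InnerProductSpace ComplexOrder

/-- The group von Neumann algebra as a C⋆-algebra. -/
abbrev LG (G : Type*) [Group G] : Type _ := VN (groupVNA G)

variable {G : Type*} [Group G]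

/-- Reindexing as a bounded operator. -/
noncomputable def grpRe {G : Type*} (e : Equiv.Perm G) : ltwo G →L[ℂ] ltwo G :=
  ((ltwoReindex e : ltwo G ≃ₗᵢ[ℂ] ltwo G) : ltwo G →L[ℂ] ltwo G)

lemma grpRe_apply {G : Type*} (e : Equiv.Perm G) (ξ : ltwo G) (h : G) :
    grpRe e ξ h = ξ (e h) := rfl

lemma star_grpRe {G : Type*} (e : Equiv.Perm G) : star (grpRe e) = grpRe e.symm := by
  rw [grpRe, LinearIsometryEquiv.star_eq_symm]
  ext ξ h; rfl

lemma leftRegular_apply (g : G) (ξ : ltwo G) (h : G) : leftRegular g ξ h = ξ (g⁻¹ * h) := rfl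

lemma mem_groupVNA {x : ltwo G →L[ℂ] ltwo G} : x ∈ (groupVNA G).toStarSubalgebra ↔
    ∀ T ∈ StarSubalgebra.centralizer ℂ (Set.range (leftRegular (G := G))),
      T * x = x * T ∧ star T * x = x * star T :=
  StarSubalgebra.mem_centralizer_iff ℂ

theorem leftRegular_mem (g : G) : leftRegular g ∈ (groupVNA G).toStarSubalgebra := by
  refine mem_groupVNA.2 fun T hT => ⟨?_, ?_⟩
  · exact (((StarSubalgebra.mem_centralizer_iff ℂ).1 hT _ ⟨g, rfl⟩).1).symm
  · exact (((StarSubalgebra.mem_centralizer_iff ℂ).1 (star_mem hT) _ ⟨g, rfl⟩).1).symm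

theorem leftRegular_one : leftRegular (1 : G) = 1 := by
  ext ξ h
  simp [leftRegular_apply]

theorem leftRegular_mul (g h : G) : leftRegular (g * h) = leftRegular g * leftRegular h := by
  ext ξ k
  simp [leftRegular_apply, mul_assoc]

theorem star_leftRegular (g : G) : star (leftRegular g) = leftRegular g⁻¹ := by
  have := star_grpRe (Equiv.mulLeft g⁻¹)
  rw [Equiv.mulLeft_symm] at this
  exact this

/-- The left regular representation. -/
noncomputable def lam (G : Type*) [Group G] : G →* LG G where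
  toFun g := ⟨leftRegular g, leftRegular_mem g⟩
  map_one' := Subtype.ext leftRegular_one
  map_mul' g h := Subtype.ext (leftRegular_mul g h)

@[simp] lemma coe_lam (g : G) : (lam G g : ltwo G →L[ℂ] ltwo G) = leftRegular g := rfl

lemma star_lam (g : G) : star (lam G g) = lam G g⁻¹ := Subtype.ext (star_leftRegular g)

variable [DecidableEq G]

/-- The basis vector `δ_g`. -/
noncomputable abbrev dl (g : G) : ltwo G := lp.single 2 g (1 : ℂ)

theorem leftRegular_dl (g h : G) : leftRegular g (dl h) = dl (g * h) := by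
  ext k
  rw [leftRegular_apply]
  simp only [lp.single_apply, Pi.single_apply, inv_mul_eq_iff_eq_mul]

/-- Right translations commute with `L(G)`. -/
theorem exists_right (h : G) : ∃ R : ltwo G →L[ℂ] ltwo G, R ∈ unitary (ltwo G →L[ℂ] ltwo G) ∧
    (∀ g, R (dl g) = dl (g * h)) ∧ ∀ x ∈ (groupVNA G).toStarSubalgebra, x * R = R * x := by
  refine ⟨grpRe (Equiv.mulRight h⁻¹), ?_, fun g => ?_, fun x hx => ?_⟩
  · rw [Unitary.mem_iff, star_grpRe]
    constructor
    · ext ξ k; simp [grpRe_apply]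
    · ext ξ k; simp [grpRe_apply]
  · ext k
    rw [grpRe_apply]
    simp only [lp.single_apply, Pi.single_apply, Equiv.coe_mulRight, mul_inv_eq_iff_eq_mul]
  · refine ((mem_groupVNA.1 hx _ ?_).1).symm
    have key : ∀ g : G, leftRegular g * grpRe (Equiv.mulRight h⁻¹) =
        grpRe (Equiv.mulRight h⁻¹) * leftRegular g := fun g => by
      ext ξ k
      simp [leftRegular_apply, grpRe_apply, mul_assoc]
    refine (StarSubalgebra.mem_centralizer_iff ℂ).2 ?_
    rintro _ ⟨g, rfl⟩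
    exact ⟨key g, by rw [star_leftRegular]; exact key _⟩

lemma inner_dl (g : G) (ξ : ltwo G) : ⟪dl g, ξ⟫_ℂ = ξ g := by
  rw [lp.inner_single_left]; simp

lemma star_apply_dl {x : ltwo G →L[ℂ] ltwo G} (hx : x ∈ (groupVNA G).toStarSubalgebra) (g : G) :
    conj ((star x) (dl 1) g) = x (dl 1) g⁻¹ := by
  obtain ⟨R, hR, hRd, hRc⟩ := exists_right g
  have h1 : dl g = R (dl 1) := by rw [hRd, one_mul]
  have h2 : dl (1 : G) = R (dl g⁻¹) := by rw [hRd, inv_mul_cancel]
  have h3 : x (dl g) = R (x (dl 1)) := by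
    rw [h1]; exact congrArg (fun U : ltwo G →L[ℂ] ltwo G => U (dl 1)) (hRc x hx)
  rw [← inner_dl g, inner_conj_symm, ContinuousLinearMap.star_eq_adjoint,
    ContinuousLinearMap.adjoint_inner_left, h3, ← inner_dl g⁻¹]
  conv_lhs => rw [h2]
  rw [← ContinuousLinearMap.adjoint_inner_right, ← ContinuousLinearMap.star_eq_adjoint,
    ← ContinuousLinearMap.mul_apply, Unitary.star_mul_self_of_mem hR,
    ContinuousLinearMap.one_apply, ← h2]

lemma groupTrace_mul {x : ltwo G →L[ℂ] ltwo G} (hx : x ∈ (groupVNA G).toStarSubalgebra)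
    (y : ltwo G →L[ℂ] ltwo G) :
    groupTrace G (x * y) = ∑' g, x (dl 1) g⁻¹ * y (dl 1) g := by
  change ⟪dl (1 : G), x (y (dl 1))⟫_ℂ = _
  rw [← ContinuousLinearMap.adjoint_inner_left, ← ContinuousLinearMap.star_eq_adjoint,
    lp.inner_eq_tsum]
  congr 1
  funext g
  rw [← star_apply_dl hx g, mul_comm]
  simp

theorem groupTrace_comm (x y : LG G) :
    groupTrace G ((x * y : LG G) : ltwo G →L[ℂ] ltwo G) =
      groupTrace G ((y * x : LG G) : ltwo G →L[ℂ] ltwo G) := by
  change groupTrace G ((x : ltwo G →L[ℂ] ltwo G) * (y : ltwo G →L[ℂ] ltwo G)) =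
    groupTrace G ((y : ltwo G →L[ℂ] ltwo G) * (x : ltwo G →L[ℂ] ltwo G))
  rw [groupTrace_mul x.2, groupTrace_mul y.2, ← (Equiv.inv G).tsum_eq]
  congr 1
  funext g
  simp [mul_comm]

/-- The canonical trace. -/
noncomputable def gtr (G : Type*) [Group G] [DecidableEq G] : Tr (LG G) where
  toLin :=
    { toFun := fun x => groupTrace G (x : ltwo G →L[ℂ] ltwo G)
      map_add' := fun x y => by simp [groupTrace, inner_add_right]
      map_smul' := fun c x => by simp [groupTrace] }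
  map_one' := by simp [groupTrace]
  tracial' := groupTrace_comm
  pos' x := by
    change 0 ≤ ⟪dl (1 : G), (star (x : ltwo G →L[ℂ] ltwo G)) ((x : ltwo G →L[ℂ] ltwo G) (dl 1))⟫_ℂ
    rw [ContinuousLinearMap.star_eq_adjoint, ContinuousLinearMap.adjoint_inner_right,
      inner_self_eq_norm_sq_to_K]
    positivity

lemma gtr_apply (x : LG G) : gtr G x = groupTrace G (x : ltwo G →L[ℂ] ltwo G) := rfl

theorem gtr_n2 (x : LG G) : (gtr G).n2 x = ‖(x : ltwo G →L[ℂ] ltwo G) (dl 1)‖ := by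
  rw [Tr.n2_eq_sqrt]
  change √(⟪dl (1 : G), (star (x : ltwo G →L[ℂ] ltwo G))
    ((x : ltwo G →L[ℂ] ltwo G) (dl 1))⟫_ℂ).re = _
  rw [ContinuousLinearMap.star_eq_adjoint, ContinuousLinearMap.adjoint_inner_right,
    inner_self_eq_norm_sq_to_K]
  have : (((‖(x : ltwo G →L[ℂ] ltwo G) (dl 1)‖ : ℝ) : ℂ) ^ 2).re =
      ‖(x : ltwo G →L[ℂ] ltwo G) (dl 1)‖ ^ 2 := by
    rw [← Complex.ofReal_pow, Complex.ofReal_re]
  exact (congrArg Real.sqrt this).trans (Real.sqrt_sq (norm_nonneg _))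

lemma groupVNA_sep {x : ltwo G →L[ℂ] ltwo G} (hx : x ∈ (groupVNA G).toStarSubalgebra)
    (h : x (dl 1) = 0) : x = 0 := by
  refine lp.ext_continuousLinearMap (by norm_num) fun g => ?_
  obtain ⟨R, -, hRd, hRc⟩ := exists_right g
  have h1 : dl g = R (dl 1) := by rw [hRd, one_mul]
  have h3 : x (dl g) = R (x (dl 1)) := by
    rw [h1]; exact congrArg (fun U : ltwo G →L[ℂ] ltwo G => U (dl 1)) (hRc x hx)
  rw [h, map_zero] at h3
  refine ContinuousLinearMap.ext_ring ?_
  simpa using h3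

theorem gtr_faithful : (gtr G).Faithful := by
  intro x hx
  rw [gtr_n2, norm_eq_zero] at hx
  exact Subtype.ext (groupVNA_sep x.2 hx)

theorem gtr_complete : (gtr G).Complete := by
  intro x R hR hc
  have hsub : ∀ x y : LG G, (gtr G).n2 (x - y) =
      dist ((x : ltwo G →L[ℂ] ltwo G) (dl 1)) ((y : ltwo G →L[ℂ] ltwo G) (dl 1)) := by
    intro x y
    rw [gtr_n2, dist_eq_norm]; rfl
  have hc' : CauchySeq fun k => (x k : ltwo G →L[ℂ] ltwo G) (dl 1) := by
    rw [Metric.cauchySeq_iff] at hc ⊢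
    simpa only [Tr.dist_toL2, hsub] using hc
  obtain ⟨y, hyR, hy⟩ := cstrong_limit (groupVNA G) (fun _ => dl 1)
    (fun x hx h => groupVNA_sep hx (h 0)) (fun k => (x k : ltwo G →L[ℂ] ltwo G))
    (fun k => (x k).2) R hR (fun _ => hc')
  have hyM : y ∈ groupVNA G := cstrong_mem (groupVNA G) _ (fun k => (x k).2) y hy
  refine ⟨⟨y, hyM⟩, hyR, ?_⟩
  simp only [hsub]
  exact tendsto_iff_dist_tendsto_zero.mp (hy (dl 1))

theorem gtr_lam {g : G} (hg : g ≠ 1) : gtr G (lam G g) = 0 := by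
  change ⟪dl (1 : G), leftRegular g (dl 1)⟫_ℂ = 0
  rw [leftRegular_dl, inner_dl, mul_one]
  simp [lp.single_apply, hg.symm]

theorem gtr_dense : l2cl (gtr G) (StarAlgebra.adjoin ℂ (Set.range (lam G))) = ⊤ := by
  refine top_le_iff.1 fun x _ => mem_l2cl.2 fun ε hε => ?_
  set ξ := (x : ltwo G →L[ℂ] ltwo G) (dl 1) with hξ
  have h1 := lp.hasSum_single (p := 2) (by norm_num) ξ
  obtain ⟨s, hs⟩ := ((Metric.tendsto_nhds.1 h1) ε hε).exists
  refine ⟨∑ g ∈ s, ξ g • lam G g, sum_mem fun g _ =>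
    SMulMemClass.smul_mem _ (StarAlgebra.subset_adjoin ℂ _ ⟨g, rfl⟩), ?_⟩
  have e : ((∑ g ∈ s, ξ g • lam G g : LG G) : ltwo G →L[ℂ] ltwo G) (dl 1) =
      ∑ g ∈ s, lp.single 2 g (ξ g) := by
    rw [AddSubmonoidClass.coe_finsetSum, ContinuousLinearMap.sum_apply]
    refine Finset.sum_congr rfl fun g _ => ?_
    change ξ g • leftRegular g (dl 1) = _
    rw [leftRegular_dl, mul_one, ← lp.single_smul, smul_eq_mul, mul_one]
  rw [gtr_n2]
  change ‖ξ - ((∑ g ∈ s, ξ g • lam G g : LG G) : ltwo G →L[ℂ] ltwo G) (dl 1)‖ < ε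
  rw [e, ← dist_eq_norm, dist_comm]
  exact hs

end Crest.Agent.R134
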