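import Crest.Agent.R134.Defs

/-! Row 134: the Schwinger–Dyson equation of a free Haar unitary. -/

set_option autoImplicit false

open Filter Topology
open scoped ComplexConjugate

namespace Crest.Agent.R134

open Crest.Agent.R095

variable {A : Type*} [CStarAlgebra A] {τ : Tr A} {P Q : StarSubalgebra ℂ A} {u S : A}

lemma HSD_lt_unitary (hu : u ∈ unitary A) (e : Bool) : lt u e ∈ unitary A := by
  cases e
  · exact Unitary.star_mem hu
  · exact hu

lemma HSD_approx_center {x : A} (hx : x ∈ l2cl τ Q) (p : Prop) (hc : p → τ x = 0) {ε : ℝ}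
    (hε : 0 < ε) : ∃ y ∈ Q, (p → τ y = 0) ∧ τ.n2 (x - y) < ε := by
  by_cases hp : p
  · obtain ⟨y, hy, h⟩ := mem_l2cl.mp hx (ε / 2) (by positivity)
    refine ⟨y - τ y • (1 : A), center_mem hy, fun _ => tr_center τ y, ?_⟩
    have h1 : ‖τ y‖ ≤ τ.n2 (x - y) := by
      have := τ.norm_le_n2 (x - y)
      rwa [τ.map_sub, hc hp, zero_sub, norm_neg] at this
    have h2 := τ.n2_add_le (x - y) (τ y • (1 : A))
    rw [τ.n2_smul, τ.n2_one, mul_one] at h2
    rw [show x - (y - τ y • (1 : A)) = x - y + τ y • (1 : A) by abel]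
    linarith
  · obtain ⟨y, hy, h⟩ := mem_l2cl.mp hx ε hε
    exact ⟨y, hy, fun h => absurd h hp, h⟩

lemma HSD_approx_red (hu : u ∈ unitary A) {e : Bool} {w : A}
    (hw : Red τ (l2cl τ Q : Set A) u e w) :
    ∀ ε : ℝ, 0 < ε → ∃ w', Red τ (Q : Set A) u e w' ∧ τ.n2 (w - w') < ε := by
  induction hw with
  | last e x hx =>
    intro ε hε
    obtain ⟨y, hy, h⟩ := mem_l2cl.mp hx ε hε
    refine ⟨_, Red.last e y hy, ?_⟩
    rwa [← mul_sub, τ.n2_unitary_mul (HSD_lt_unitary hu e)]
  | cons e e' x w hx hc _ ih =>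
    intro ε hε
    obtain ⟨y, hy, hy0, h1⟩ := HSD_approx_center hx (e ≠ e') hc
      (show 0 < ε / (2 * (‖w‖ + 1)) by positivity)
    obtain ⟨w', hw', h2⟩ := ih (ε / (2 * (‖y‖ + 1))) (by positivity)
    refine ⟨_, Red.cons e e' y w' hy hy0 hw', ?_⟩
    rw [mul_assoc, mul_assoc, ← mul_sub, τ.n2_unitary_mul (HSD_lt_unitary hu e)]
    have e1 : x * w - y * w' = (x - y) * w + y * (w - w') := by noncomm_ring
    rw [e1]
    have h3 := τ.n2_mul_le' (x - y) w
    have h4 := τ.n2_mul_le y (w - w')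
    have h5 : τ.n2 (x - y) * (‖w‖ + 1) < ε / 2 := by
      rw [lt_div_iff₀ (by positivity)] at h1; linarith
    have h6 : τ.n2 (w - w') * (‖y‖ + 1) < ε / 2 := by
      rw [lt_div_iff₀ (by positivity)] at h2; linarith
    have := τ.n2_add_le ((x - y) * w) (y * (w - w'))
    have := τ.n2_nonneg (x - y)
    have := τ.n2_nonneg (w - w')
    nlinarith

/-- Freeness passes to the closure in the 2-norm. -/
theorem free_l2cl (hF : Free τ (Q : Set A) u) : Free τ (l2cl τ Q : Set A) u := by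
  refine ⟨hF.1, fun e w hw => ?_⟩
  rw [← norm_le_zero_iff]
  refine le_of_forall_pos_le_add fun ε hε => ?_
  obtain ⟨w', hw', h⟩ := HSD_approx_red hF.1 hw ε hε
  have := τ.norm_le_n2 (w - w')
  rw [τ.map_sub, hF.2 e w' hw', sub_zero] at this
  linarith

/-- Left multiplication by a constant on pairs (value, derivative). -/
noncomputable def HSD_Tc (x : A) : A × A →ₗ[ℂ] A × A :=
  (LinearMap.mulLeft ℂ x).prodMap (LinearMap.mulLeft ℂ x)

lemma HSD_Tc_apply (x : A) (z : A × A) : HSD_Tc x z = (x * z.1, x * z.2) := rfl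

/-- Left multiplication by a unitary letter on pairs (value, derivative). -/
noncomputable def HSD_Tu (τ : Tr A) (u : A) (e : Bool) : A × A →ₗ[ℂ] A × A where
  toFun z := (lt u e * z.1, lt u e * z.2 + if e then τ (u * z.1) • 1 else -(τ z.1 • star u))
  map_add' z z' := by
    cases e <;> simp [mul_add, add_smul] <;> abel
  map_smul' c z := by
    cases e <;> simp [smul_smul]

lemma HSD_Tu_true (z : A × A) :
    HSD_Tu τ u true z = (u * z.1, u * z.2 + τ (u * z.1) • 1) := rfl

lemma HSD_Tu_false (z : A × A) :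
    HSD_Tu τ u false z = (star u * z.1, star u * z.2 + -(τ z.1 • star u)) := rfl

lemma HSD_Tu_Tu (hu : u ∈ unitary A) {e e' : Bool} (h : e ≠ e') (z : A × A) :
    HSD_Tu τ u e (HSD_Tu τ u e' z) = z := by
  have h1 : ∀ y : A, star u * (u * y) = y := fun y => by
    rw [← mul_assoc, Unitary.star_mul_self_of_mem hu, one_mul]
  have h2 : ∀ y : A, u * (star u * y) = y := fun y => by
    rw [← mul_assoc, Unitary.mul_star_self_of_mem hu, one_mul]
  cases e <;> cases e'
  · exact absurd rfl h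
  · rw [HSD_Tu_true, HSD_Tu_false]
    simp [mul_add, h1]
  · rw [HSD_Tu_false, HSD_Tu_true]
    simp [mul_add, h2, Unitary.mul_star_self_of_mem hu]
  · exact absurd rfl h

/-- Reduced words with their derivatives. -/
inductive HSD_Red (τ : Tr A) (Q : Set A) (u : A) : Bool → A × A → Prop
  | last (e : Bool) (x : A) (hx : x ∈ Q) : HSD_Red τ Q u e (HSD_Tu τ u e (x, 0))
  | cons (e e' : Bool) (x : A) (z : A × A) (hx : x ∈ Q) (hc : e ≠ e' → τ x = 0)
      (hz : HSD_Red τ Q u e' z) : HSD_Red τ Q u e (HSD_Tu τ u e (HSD_Tc x z))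

lemma HSD_Red.spec (hF : Free τ (Q : Set A) u) {e : Bool} {z : A × A}
    (hz : HSD_Red τ (Q : Set A) u e z) :
    Red τ (Q : Set A) u e z.1 ∧ ∃ (c : ℂ) (w : A), Red τ (Q : Set A) u e w ∧ z.2 = c • w := by
  induction hz with
  | last e x hx =>
    refine ⟨Red.last e x hx, ?_⟩
    cases e
    · exact ⟨-τ x, _, Red.last false 1 (one_mem Q), by simp [HSD_Tu_false]⟩
    · have h0 : τ (u * x) = 0 := hF.2 _ _ (Red.last true x hx)
      exact ⟨0, _, Red.last true 1 (one_mem Q), by simp [HSD_Tu_true, h0]⟩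
  | cons e e' x z hx hc _ ih =>
    obtain ⟨h1, c, w, hw, h2⟩ := ih
    have h3 := Red.cons e e' x z.1 hx hc h1
    refine ⟨by rw [mul_assoc] at h3; exact h3, c, _, Red.cons e e' x w hx hc hw, ?_⟩
    cases e
    · have h0 : τ (x * z.1) = 0 := hF.tr_mul h1 hx
      simp [HSD_Tu_false, HSD_Tc_apply, h0, h2, mul_assoc]
    · have h0 : τ (u * (x * z.1)) = 0 := by
        have := hF.2 _ _ h3
        rwa [mul_assoc] at this
      simp [HSD_Tu_true, HSD_Tc_apply, h0, h2, mul_assoc]

theorem hsd_of_free (hF : Free τ (Q : Set A) u) (hP : P ≤ Q) (hS : S ∈ Q) : HSD τ P u S := by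
  set G : Set (A × A) := {z | ∃ x ∈ Q, z = (x, 0)} ∪
    {z | ∃ y ∈ Q, ∃ e z', HSD_Red τ (Q : Set A) u e z' ∧ z = HSD_Tc y z'} with hG
  set V := Submodule.span ℂ G with hV
  have hQ : ∀ x ∈ Q, ((x, 0) : A × A) ∈ V := fun x hx => Submodule.subset_span (Or.inl ⟨x, hx, rfl⟩)
  have hW : ∀ y ∈ Q, ∀ e z, HSD_Red τ (Q : Set A) u e z → HSD_Tc y z ∈ V :=
    fun y hy e z hz => Submodule.subset_span (Or.inr ⟨y, hy, e, z, hz, rfl⟩)
  have hR : ∀ e z, HSD_Red τ (Q : Set A) u e z → z ∈ V := fun e z hz => by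
    simpa [HSD_Tc_apply] using hW 1 (one_mem Q) e z hz
  have stab : ∀ T : A × A →ₗ[ℂ] A × A, (∀ z ∈ G, T z ∈ V) → ∀ z ∈ V, T z ∈ V :=
    fun T hT z hz => (Submodule.span_le (p := V.comap T)).mpr hT hz
  have h1 : ∀ g ∈ Q, ∀ z ∈ V, HSD_Tc g z ∈ V := by
    intro g hg
    refine stab _ ?_
    rintro z (⟨x, hx, rfl⟩ | ⟨y, hy, e, z', hz', rfl⟩)
    · simpa [HSD_Tc_apply] using hQ _ (mul_mem hg hx)
    · simpa [HSD_Tc_apply, mul_assoc] using hW _ (mul_mem hg hy) e z' hz'
  have h2 : ∀ e, ∀ z ∈ V, HSD_Tu τ u e z ∈ V := by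
    intro e
    refine stab _ ?_
    rintro z (⟨x, hx, rfl⟩ | ⟨y, hy, e', z', hz', rfl⟩)
    · exact hR _ _ (HSD_Red.last e x hx)
    · by_cases hee : e = e'
      · exact hR _ _ (HSD_Red.cons e e' y z' hy (fun h => absurd hee h) hz')
      · have e1 : HSD_Tc y z' = HSD_Tc (y - τ y • (1 : A)) z' + τ y • z' := by
          simp [HSD_Tc_apply, sub_mul, Prod.ext_iff]
        rw [e1, map_add, map_smul]
        refine V.add_mem (hR _ _ (HSD_Red.cons e e' _ z' (center_mem hy)
          (fun _ => tr_center τ y) hz')) (V.smul_mem _ ?_)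
        cases hz' with
        | last _ x hx => rw [HSD_Tu_Tu hF.1 hee]; exact hQ x hx
        | cons _ e'' x w hx _ hw => rw [HSD_Tu_Tu hF.1 hee]; exact hW x hx e'' w hw
  have h3 : ∀ z ∈ V, τ z.2 = 0 := by
    intro z hz
    induction hz using Submodule.span_induction with
    | mem z hz =>
      rcases hz with ⟨x, _, rfl⟩ | ⟨y, hy, e, z', hz', rfl⟩
      · simp
      · obtain ⟨-, c, w, hw, h⟩ := hz'.spec hF
        simp [HSD_Tc_apply, h, hF.tr_mul hw hy]
    | zero => simp
    | add x y _ _ hx hy => simp [hx, hy]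
    | smul c x _ hx => simp [hx]
  have h4 : ∀ f : Pol P, ((ev P u S f, DU τ P u S f 1) : A × A) ∈ V := by
    intro f
    induction f using wd_induction with
    | hwd l =>
      induction l with
      | nil => simpa using hQ 1 (one_mem Q)
      | cons a l ih =>
        rw [wd_cons, map_mul, DU_mul_apply, mul_one]
        cases a with
        | c x => simpa [HSD_Tc_apply] using h1 x (hP x.2) _ ih
        | u => simpa [HSD_Tu_true, add_comm] using h2 true _ ih
        | us => simpa [HSD_Tu_false, add_comm] using h2 false _ ih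
        | s => simpa [HSD_Tc_apply] using h1 S hS _ ih
    | hzero => simp only [map_zero, LinearMap.zero_apply]; exact V.zero_mem
    | hadd f g hf hg => simpa using V.add_mem hf hg
    | hsmul c f hf => simpa using V.smul_mem c hf
  exact fun f => h3 _ (h4 f)

end Crest.Agent.R134
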