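import Crest.Agent.R134.Group

/-! Row 134: an isomorphism of group von Neumann algebras from a generating trace-orthonormal representation. -/

set_option autoImplicit false
set_option linter.unusedSectionVars false

open Filter Topology
open scoped ComplexConjugate

namespace Crest.Agent.R134

open Crest.Agent.R095

open Crest.OpAlg
open scoped InnerProductSpace

section aux
variable {G : Type*} [Group G] [DecidableEq G]

lemma iso_clm_ext {E : Type*} [NormedAddCommGroup E] [NormedSpace ℂ E] {S T : ltwo G →L[ℂ] E}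
    (h : ∀ g, S (dl g) = T (dl g)) : S = T := by
  refine lp.ext_continuousLinearMap (by simp) fun g => ?_
  refine ContinuousLinearMap.ext_ring ?_
  simpa using h g

lemma iso_vec_ext {ξ η : ltwo G} (h : ∀ g, ⟪dl g, ξ⟫_ℂ = ⟪dl g, η⟫_ℂ) : ξ = η := by
  ext g
  simpa [lp.inner_single_left] using h g

lemma iso_norm_dl (g : G) : ‖dl g‖ = 1 := by
  rw [lp.norm_single (by simp)]; simp

omit [DecidableEq G] in
lemma iso_mem_iff {x : ltwo G →L[ℂ] ltwo G} : x ∈ (groupVNA G).toStarSubalgebra ↔
    ∀ y : ltwo G →L[ℂ] ltwo G, (∀ g, leftRegular g * y = y * leftRegular g) → y * x = x * y := by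
  change x ∈ ((StarSubalgebra.centralizer ℂ ((StarSubalgebra.centralizer ℂ
    (Set.range (leftRegular (G := G))) : Set (ltwo G →L[ℂ] ltwo G)))) : Set _) ↔ _
  rw [StarSubalgebra.coe_centralizer_centralizer, Set.mem_centralizer_iff]
  refine forall_congr' fun y => imp_congr_left ?_
  rw [← StarSubalgebra.coe_centralizer ℂ, SetLike.mem_coe, StarSubalgebra.mem_centralizer_iff]
  constructor
  · exact fun h g => (h _ ⟨g, rfl⟩).1
  · rintro h _ ⟨g, rfl⟩
    exact ⟨h g, by rw [star_leftRegular]; exact h _⟩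

lemma iso_norm_apply_dl (a : LG G) (h : G) :
    ‖(a : ltwo G →L[ℂ] ltwo G) (dl h)‖ = (gtr G).n2 a := by
  obtain ⟨R, hR, hR1, hR2⟩ := exists_right h
  have e : (a : ltwo G →L[ℂ] ltwo G) (dl h) = R ((a : ltwo G →L[ℂ] ltwo G) (dl 1)) := by
    have := DFunLike.congr_fun (hR2 a a.2) (dl 1)
    simpa [hR1] using this
  rw [e, gtr_n2]
  exact ContinuousLinearMap.norm_map_of_mem_unitary hR _

lemma iso_top {K : Submodule ℂ (ltwo G)} (hK : IsClosed (K : Set (ltwo G)))
    (h : ∀ g, dl g ∈ K) : ⊤ ≤ K := by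
  intro ξ _
  refine hK.mem_of_tendsto (lp.hasSum_single (by simp) ξ) (Eventually.of_forall fun s => ?_)
  refine K.sum_mem fun g _ => ?_
  have e : (lp.single 2 g (ξ g) : ltwo G) = ξ g • dl g := by
    rw [← lp.single_smul]; simp
  rw [e]
  exact K.smul_mem _ (h g)

end aux

lemma iso_mem_span {G A : Type*} [Group G] [Ring A] [StarRing A] [Algebra ℂ A] [StarModule ℂ A]
    (π : G →* A) (hstar : ∀ g, star (π g) = π g⁻¹) {a : A}
    (ha : a ∈ StarAlgebra.adjoin ℂ (Set.range π)) : a ∈ Submodule.span ℂ (Set.range π) := by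
  induction ha using StarAlgebra.adjoin_induction with
  | mem x hx => exact Submodule.subset_span hx
  | algebraMap r =>
    rw [Algebra.algebraMap_eq_smul_one]
    exact Submodule.smul_mem _ _ (Submodule.subset_span ⟨1, map_one π⟩)
  | add x y _ _ hx hy => exact add_mem hx hy
  | mul x y _ _ hx hy =>
    have := Submodule.mul_mem_mul hx hy
    rw [Submodule.span_mul_span] at this
    refine Submodule.span_mono ?_ this
    rintro _ ⟨_, ⟨g, rfl⟩, _, ⟨g', rfl⟩, rfl⟩
    exact ⟨g * g', map_mul π g g'⟩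
  | star x _ hx =>
    clear * - hx hstar
    induction hx using Submodule.span_induction with
    | mem x hx => obtain ⟨g, rfl⟩ := hx; exact Submodule.subset_span ⟨g⁻¹, (hstar g).symm⟩
    | zero => simp
    | add x y _ _ hx hy => rw [star_add]; exact add_mem hx hy
    | smul c x _ hx => rw [star_smul]; exact Submodule.smul_mem _ _ hx

set_option maxHeartbeats 1000000 in
theorem exists_iso {G H : Type*} [Group G] [Group H] [DecidableEq G] [DecidableEq H]
    (π : G →* LG H) (hstar : ∀ g, star (π g) = π g⁻¹) (htr : ∀ g, g ≠ 1 → gtr H (π g) = 0)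
    (hgen : l2cl (gtr H) (StarAlgebra.adjoin ℂ (Set.range π)) = ⊤) :
    ∃ Φ : LG G ≃⋆ₐ[ℂ] LG H, ∀ x : LG G, gtr H (Φ x) = gtr G x := by
  have happ : ∀ (z : LG H) (ε : ℝ), 0 < ε →
      ∃ a ∈ Submodule.span ℂ (Set.range π), (gtr H).n2 (z - a) < ε := by
    intro z ε hε
    have hz : z ∈ l2cl (gtr H) (StarAlgebra.adjoin ℂ (Set.range π)) := by
      rw [hgen]; trivial
    obtain ⟨a, ha, h⟩ := hz ε hε
    exact ⟨a, iso_mem_span π hstar ha, h⟩
  set v : G → ltwo H := fun g => (π g : ltwo H →L[ℂ] ltwo H) (dl 1) with hv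
  have hon : Orthonormal ℂ v := by
    rw [orthonormal_iff_ite]
    intro g g'
    have e : ⟪v g, v g'⟫_ℂ = gtr H (π (g⁻¹ * g')) := by
      rw [map_mul, ← hstar, gtr_apply]
      change _ = ⟪dl (1 : H), (star (π g : ltwo H →L[ℂ] ltwo H))
        ((π g' : ltwo H →L[ℂ] ltwo H) (dl 1))⟫_ℂ
      rw [ContinuousLinearMap.star_eq_adjoint, ContinuousLinearMap.adjoint_inner_right]
    rw [e]
    split_ifs with h
    · subst h; simp
    · exact htr _ fun h' => h (inv_mul_eq_one.mp h')
  have hspan : ∀ a ∈ Submodule.span ℂ (Set.range π),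
      (a : ltwo H →L[ℂ] ltwo H) (dl 1) ∈ Submodule.span ℂ (Set.range v) := by
    intro a ha
    induction ha using Submodule.span_induction with
    | mem x hx => obtain ⟨g, rfl⟩ := hx; exact Submodule.subset_span ⟨g, rfl⟩
    | zero => simp
    | add x y _ _ hx hy => exact add_mem hx hy
    | smul c x _ hx => exact Submodule.smul_mem _ c hx
  have hsp : ⊤ ≤ (Submodule.span ℂ (Set.range v)).topologicalClosure := by
    refine iso_top (Submodule.isClosed_topologicalClosure _) fun h => ?_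
    rw [← SetLike.mem_coe, Submodule.topologicalClosure_coe, Metric.mem_closure_iff]
    intro ε hε
    obtain ⟨a, ha, h1⟩ := happ (lam H h) ε hε
    refine ⟨_, hspan a ha, ?_⟩
    rw [gtr_n2] at h1
    have e : ((lam H h - a : LG H) : ltwo H →L[ℂ] ltwo H) (dl 1) =
        dl h - (a : ltwo H →L[ℂ] ltwo H) (dl 1) := by
      change leftRegular h (dl 1) - _ = _
      rw [leftRegular_dl, mul_one]
      rfl
    rwa [e, ← dist_eq_norm] at h1
  set U : ltwo G ≃ₗᵢ[ℂ] ltwo H := (HilbertBasis.mk hon hsp).repr.symm with hU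
  have hUd : ∀ g, U (dl g) = v g := fun g => by
    rw [hU, HilbertBasis.repr_symm_single, HilbertBasis.coe_mk]
  set Ψ := U.conjStarAlgEquiv with hΨ
  have hΨl : ∀ g, Ψ (leftRegular g) = (π g : ltwo H →L[ℂ] ltwo H) := by
    intro g
    have e : (U : ltwo G →L[ℂ] ltwo H) ∘L leftRegular g =
        (π g : ltwo H →L[ℂ] ltwo H) ∘L (U : ltwo G →L[ℂ] ltwo H) := by
      refine iso_clm_ext fun g' => ?_
      change U (leftRegular g (dl g')) = (π g : ltwo H →L[ℂ] ltwo H) (U (dl g'))
      rw [leftRegular_dl, hUd, hUd, hv]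
      simp only [map_mul]
      rfl
    refine ContinuousLinearMap.ext fun y => ?_
    have := DFunLike.congr_fun e (U.symm y)
    change U (leftRegular g (U.symm y)) = (π g : ltwo H →L[ℂ] ltwo H) (U (U.symm y)) at this
    rw [U.apply_symm_apply] at this
    exact this
  have key : ∀ z : ltwo H →L[ℂ] ltwo H, z ∈ (groupVNA H).toStarSubalgebra ↔
      ∀ y : ltwo H →L[ℂ] ltwo H, (∀ g, (π g : ltwo H →L[ℂ] ltwo H) * y = y * π g) →
        y * z = z * y := by
    intro z
    refine ⟨fun hz y hy => ?_, fun h => iso_mem_iff.mpr fun y hy => h y fun g =>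
      (iso_mem_iff.mp (π g).2 y hy).symm⟩
    have hca : ∀ a ∈ Submodule.span ℂ (Set.range π),
        y * (a : ltwo H →L[ℂ] ltwo H) = (a : ltwo H →L[ℂ] ltwo H) * y := by
      intro a ha
      induction ha using Submodule.span_induction with
      | mem x hx => obtain ⟨g, rfl⟩ := hx; exact (hy g).symm
      | zero => simp
      | add x x' _ _ hx hx' =>
        change y * ((x : ltwo H →L[ℂ] ltwo H) + x') = ((x : ltwo H →L[ℂ] ltwo H) + x') * y
        rw [mul_add, add_mul, hx, hx']
      | smul c x _ hx =>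
        change y * (c • (x : ltwo H →L[ℂ] ltwo H)) = (c • (x : ltwo H →L[ℂ] ltwo H)) * y
        rw [mul_smul_comm, smul_mul_assoc, hx]
    refine iso_clm_ext fun h => iso_vec_ext fun h' => ?_
    rw [← sub_eq_zero, ← inner_sub_right, ← norm_le_zero_iff]
    refine le_of_forall_pos_le_add fun ε hε => ?_
    obtain ⟨a, ha, h1⟩ := happ ⟨z, hz⟩ (ε / (2 * (‖y‖ + 1))) (by positivity)
    set w : LG H := ⟨z, hz⟩ - a with hw
    have e : (y * z) (dl h) - (z * y) (dl h) =
        y ((w : ltwo H →L[ℂ] ltwo H) (dl h)) - (w : ltwo H →L[ℂ] ltwo H) (y (dl h)) := by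
      have e1 : y * z - z * y =
          y * (w : ltwo H →L[ℂ] ltwo H) - (w : ltwo H →L[ℂ] ltwo H) * y := by
        change _ = y * (z - a) - (z - a) * y
        rw [mul_sub, sub_mul, hca a ha]; abel
      exact DFunLike.congr_fun e1 (dl h)
    rw [e, inner_sub_right, zero_add]
    have b1 : ‖⟪dl h', y ((w : ltwo H →L[ℂ] ltwo H) (dl h))⟫_ℂ‖ ≤ ‖y‖ * (gtr H).n2 w := by
      refine (norm_inner_le_norm _ _).trans ?_
      rw [iso_norm_dl, one_mul, ← iso_norm_apply_dl w h]
      exact y.le_opNorm _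
    have b2 : ‖⟪dl h', (w : ltwo H →L[ℂ] ltwo H) (y (dl h))⟫_ℂ‖ ≤ ‖y‖ * (gtr H).n2 w := by
      rw [← ContinuousLinearMap.adjoint_inner_left, ← ContinuousLinearMap.star_eq_adjoint]
      refine (norm_inner_le_norm _ _).trans ?_
      have e2 := iso_norm_apply_dl (star w) h'
      rw [Tr.n2_star] at e2
      have e3 : ‖y (dl h)‖ ≤ ‖y‖ := by
        simpa [iso_norm_dl] using y.le_opNorm (dl h)
      rw [mul_comm]
      exact mul_le_mul e3 (le_of_eq e2) (norm_nonneg _) (norm_nonneg _)
    refine (norm_sub_le _ _).trans ?_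
    rw [lt_div_iff₀ (by positivity)] at h1
    have := (gtr H).n2_nonneg w
    nlinarith
  have hmem : ∀ x : ltwo G →L[ℂ] ltwo G,
      x ∈ (groupVNA G).toStarSubalgebra ↔ Ψ x ∈ (groupVNA H).toStarSubalgebra := by
    intro x
    rw [iso_mem_iff, key]
    constructor
    · intro h y hy
      obtain ⟨y, rfl⟩ := EquivLike.surjective Ψ y
      rw [← map_mul, ← map_mul, h y fun g => EquivLike.injective Ψ (by rw [map_mul, map_mul, hΨl, hy])]
    · intro h y hy
      refine EquivLike.injective Ψ ?_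
      rw [map_mul, map_mul]
      exact h _ fun g => by rw [← hΨl, ← map_mul, ← map_mul, hy]
  refine ⟨{ toFun := fun x => ⟨Ψ x, (hmem x).mp x.2⟩
            invFun := fun z => ⟨Ψ.symm z, (hmem _).mpr (by rw [Ψ.apply_symm_apply]; exact z.2)⟩
            left_inv := fun x => Subtype.ext (Ψ.symm_apply_apply _)
            right_inv := fun z => Subtype.ext (Ψ.apply_symm_apply _)
            map_mul' := fun x y => Subtype.ext (map_mul Ψ _ _)
            map_add' := fun x y => Subtype.ext (map_add Ψ _ _)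
            map_star' := fun x => Subtype.ext (map_star Ψ _)
            map_smul' := fun c x => Subtype.ext (map_smul Ψ _ _) }, fun x => ?_⟩
  have h1 : U (dl 1) = dl 1 := by rw [hUd, hv]; simp
  change ⟪dl (1 : H), U ((x : ltwo G →L[ℂ] ltwo G) (U.symm (dl 1)))⟫_ℂ =
    ⟪dl (1 : G), (x : ltwo G →L[ℂ] ltwo G) (dl 1)⟫_ℂ
  rw [← h1, U.symm_apply_apply, U.inner_map_map]

end Crest.Agent.R134
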