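import Crest.Agent.R134.Defs

/-! Row 134: the Schwinger–Dyson equation of a free semicircular element. -/

set_option autoImplicit false

open Filter Topology
open scoped ComplexConjugate

namespace Crest.Agent.R134

open Crest.Agent.R095

variable {A : Type*} [CStarAlgebra A] {τ : Tr A} {P Q : StarSubalgebra ℂ A} {u S c : A}

/-- `x₁ y₁ x₂ y₂ ⋯ xₙ yₙ`. -/
def altp : List (A × A) → A
  | [] => 1
  | z :: l => z.1 * z.2 * altp l

/-- The subalgebras `D` and `Q` are free: alternating products of centred elements are centred. -/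
def FreeAlg (τ : Tr A) (D Q : StarSubalgebra ℂ A) : Prop :=
  ∀ l : List (A × A), l ≠ [] → (∀ z ∈ l, z.1 ∈ D ∧ τ z.1 = 0 ∧ z.2 ∈ Q) →
    (∀ z ∈ l.dropLast, τ z.2 = 0) → τ (altp l) = 0

lemma sdf_approx (hF : Free τ (Q : Set A) c) {d : A}
    (hd : d ∈ l2cl τ (StarAlgebra.adjoin ℂ {c})) (hd0 : τ d = 0) {ε : ℝ} (hε : 0 < ε) :
    ∃ r ∈ Submodule.span ℂ {w | ∃ e, Red τ ((⊥ : StarSubalgebra ℂ A) : Set A) c e w},
      τ.n2 (d - r) < ε := by
  obtain ⟨y, hy, h1⟩ := hd (ε / 2) (by positivity)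
  have hy' : y ∈ StarAlgebra.adjoin ℂ (((⊥ : StarSubalgebra ℂ A) : Set A) ∪ {c}) :=
    StarAlgebra.adjoin_mono Set.subset_union_right hy
  obtain ⟨s, hs, r, hr, rfl⟩ := adjoin_decomp τ ⊥ hF.1 hy'
  have hbot : ((⊥ : StarSubalgebra ℂ A) : Set A) ⊆ Q := fun x hx => (bot_le : ⊥ ≤ Q) hx
  have hr0 : τ r = 0 := by
    refine tr_span_eq_zero τ ?_ r hr
    rintro z ⟨y, hy, e, w, hw, rfl⟩
    exact (hF.mono hbot).tr_mul hw hy
  obtain ⟨a, rfl⟩ := StarSubalgebra.mem_bot.1 hs
  refine ⟨r, ?_, ?_⟩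
  · refine Submodule.span_le.2 ?_ hr
    rintro z ⟨y, hy, e, w, hw, rfl⟩
    obtain ⟨b, rfl⟩ := StarSubalgebra.mem_bot.1 hy
    rw [← Algebra.smul_def]
    exact Submodule.smul_mem _ _ (Submodule.subset_span ⟨e, hw⟩)
  · have h2 := τ.norm_le_n2 (d - (algebraMap ℂ A a + r))
    rw [τ.map_sub, τ.map_add, hd0, hr0, τ.map_algebraMap, add_zero, zero_sub, norm_neg] at h2
    have h3 := τ.n2_add_le (d - (algebraMap ℂ A a + r)) (algebraMap ℂ A a)
    rw [show d - (algebraMap ℂ A a + r) + algebraMap ℂ A a = d - r by abel,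
      Algebra.algebraMap_eq_smul_one, τ.n2_smul, τ.n2_one, mul_one,
      ← Algebra.algebraMap_eq_smul_one] at h3
    linarith

theorem freeAlg_of_free (hF : Free τ (Q : Set A) c) :
    FreeAlg τ (l2cl τ (StarAlgebra.adjoin ℂ {c})) Q := by
  have hbot : ((⊥ : StarSubalgebra ℂ A) : Set A) ⊆ Q := fun x hx => (bot_le : ⊥ ≤ Q) hx
  set R : Submodule ℂ A := Submodule.span ℂ {w | ∃ e, Red τ (Q : Set A) c e w} with hR
  have hR0 : ∀ r ∈ R, τ r = 0 := by
    refine tr_span_eq_zero τ ?_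
    rintro z ⟨e, hz⟩
    exact hF.2 e z hz
  have key : ∀ l : List (A × A), l ≠ [] →
      (∀ z ∈ l, z.1 ∈ l2cl τ (StarAlgebra.adjoin ℂ {c}) ∧ τ z.1 = 0 ∧ z.2 ∈ Q) →
      (∀ z ∈ l.dropLast, τ z.2 = 0) → ∀ ε : ℝ, 0 < ε → ∃ r ∈ R, τ.n2 (altp l - r) < ε := by
    intro l
    induction l with
    | nil => intro h; exact absurd rfl h
    | cons z l ih =>
      intro _ h1 h2 ε hε
      obtain ⟨hd, hd0, hq⟩ := h1 z List.mem_cons_self
      obtain ⟨d', hd', h3⟩ := sdf_approx hF hd hd0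
        (ε := ε / (2 * (‖z.2 * altp l‖ + 1))) (by positivity)
      have h4 : τ.n2 ((z.1 - d') * (z.2 * altp l)) < ε / 2 := by
        have h5 := τ.n2_mul_le' (z.1 - d') (z.2 * altp l)
        rw [lt_div_iff₀ (by positivity)] at h3
        have := τ.n2_nonneg (z.1 - d')
        nlinarith
      by_cases hl : l = []
      · subst hl
        refine ⟨d' * z.2, ?_, ?_⟩
        · clear h3 h4
          induction hd' using Submodule.span_induction with
          | mem w hw =>
            obtain ⟨e, hw⟩ := hw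
            exact Submodule.subset_span ⟨e, hw.mul_right' hbot hq⟩
          | zero => simp
          | add x y _ _ hx hy => rw [add_mul]; exact add_mem hx hy
          | smul a x _ hx => rw [smul_mul_assoc]; exact Submodule.smul_mem _ a hx
        · simp only [altp, mul_one] at h4 ⊢
          rw [← sub_mul]
          linarith
      · have hq0 : τ z.2 = 0 := h2 z (by
          rw [List.dropLast_cons_of_ne_nil hl]; exact List.mem_cons_self)
        obtain ⟨r, hr, h5⟩ := ih hl (fun y hy => h1 y (List.mem_cons_of_mem _ hy))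
          (fun y hy => h2 y (by
            rw [List.dropLast_cons_of_ne_nil hl]; exact List.mem_cons_of_mem _ hy))
          (ε / (2 * (‖d' * z.2‖ + 1))) (by positivity)
        refine ⟨d' * z.2 * r, ?_, ?_⟩
        · clear h3 h4 h5
          induction hd' using Submodule.span_induction with
          | mem w hw =>
            obtain ⟨e, hw⟩ := hw
            refine span_mul_mem ?_ r hr
            rintro w' ⟨e', hw'⟩
            refine Submodule.subset_span ⟨e, hw.concat hbot hq (fun x hx => ?_) hw'⟩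
            obtain ⟨a, rfl⟩ := StarSubalgebra.mem_bot.1 hx
            rw [← Algebra.smul_def, τ.map_smul, hq0, mul_zero]
          | zero => simp
          | add x y _ _ hx hy => rw [add_mul, add_mul]; exact add_mem hx hy
          | smul a x _ hx =>
            rw [smul_mul_assoc, smul_mul_assoc]; exact Submodule.smul_mem _ a hx
        · have h6 : τ.n2 (d' * z.2 * (altp l - r)) < ε / 2 := by
            have h7 := τ.n2_mul_le (d' * z.2) (altp l - r)
            rw [lt_div_iff₀ (by positivity)] at h5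
            have := τ.n2_nonneg (altp l - r)
            nlinarith
          have h7 := τ.n2_add_le ((z.1 - d') * (z.2 * altp l)) (d' * z.2 * (altp l - r))
          have e : altp (z :: l) - d' * z.2 * r =
              (z.1 - d') * (z.2 * altp l) + d' * z.2 * (altp l - r) := by
            simp only [altp]
            noncomm_ring
          rw [e]
          linarith
  intro l hl h1 h2
  rw [← norm_le_zero_iff]
  refine le_of_forall_pos_le_add fun ε hε => ?_
  obtain ⟨r, hr, h3⟩ := key l hl h1 h2 ε hε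
  have h4 := τ.norm_le_n2 (altp l - r)
  rw [τ.map_sub, hR0 r hr, sub_zero] at h4
  linarith

/-- Alternating words. -/
inductive SdfAlt (τ : Tr A) (D Q : StarSubalgebra ℂ A) : A → Prop
  | last (d x : A) (hd : d ∈ D) (hd0 : τ d = 0) (hx : x ∈ Q) : SdfAlt τ D Q (d * x)
  | cons (d x w : A) (hd : d ∈ D) (hd0 : τ d = 0) (hx : x ∈ Q) (hx0 : τ x = 0)
      (hw : SdfAlt τ D Q w) : SdfAlt τ D Q (d * x * w)

section sd

variable {D : StarSubalgebra ℂ A}

lemma SdfAlt.tr (hF : FreeAlg τ D Q) {w : A} (h : SdfAlt τ D Q w) : τ w = 0 := by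
  have : ∃ l : List (A × A), l ≠ [] ∧ (∀ z ∈ l, z.1 ∈ D ∧ τ z.1 = 0 ∧ z.2 ∈ Q) ∧
      (∀ z ∈ l.dropLast, τ z.2 = 0) ∧ w = altp l := by
    induction h with
    | last d x hd hd0 hx => exact ⟨[(d, x)], by simp, by simp [hd, hd0, hx], by simp, by simp [altp]⟩
    | cons d x w hd hd0 hx hx0 _ ih =>
      obtain ⟨l, hl, h1, h2, rfl⟩ := ih
      refine ⟨(d, x) :: l, by simp, ?_, ?_, rfl⟩
      · intro z hz
        rcases List.mem_cons.1 hz with rfl | hz
        · exact ⟨hd, hd0, hx⟩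
        · exact h1 z hz
      · intro z hz
        rw [List.dropLast_cons_of_ne_nil hl] at hz
        rcases List.mem_cons.1 hz with rfl | hz
        · exact hx0
        · exact h2 z hz
  obtain ⟨l, hl, h1, h2, rfl⟩ := this
  exact hF l hl h1 h2

lemma SdfAlt.mul_right {w : A} (h : SdfAlt τ D Q w) {y : A} (hy : y ∈ Q) :
    SdfAlt τ D Q (w * y) := by
  induction h with
  | last d x hd hd0 hx => rw [mul_assoc]; exact .last d _ hd hd0 (mul_mem hx hy)
  | cons d x w hd hd0 hx hx0 _ ih => rw [mul_assoc]; exact .cons d x _ hd hd0 hx hx0 ih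

lemma SdfAlt.tr_mul (hF : FreeAlg τ D Q) {w : A} (h : SdfAlt τ D Q w) {y : A} (hy : y ∈ Q) :
    τ (y * w) = 0 := by
  rw [τ.comm]; exact (h.mul_right hy).tr hF

lemma sdf_split (τ : Tr A) (d w : A) : τ (d * w) = τ ((d - τ d • (1 : A)) * w) + τ d * τ w := by
  simp [sub_mul]

lemma sdf_tr_mul (hF : FreeAlg τ D Q) {d x : A} (hd : d ∈ D) (hx : x ∈ Q) :
    τ (d * x) = τ d * τ x := by
  rw [sdf_split, (SdfAlt.last _ x (center_mem hd) (tr_center τ d) hx).tr hF, zero_add]

/-- Jets. -/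
abbrev SdfJ (A : Type*) [CStarAlgebra A] : Type _ :=
  TrivSqZeroExt (Module.End ℂ A) (Module.End ℂ A)

/-- A constant jet. -/
noncomputable def sdfj (x : A) : SdfJ A := TrivSqZeroExt.inl (Lm x)

/-- The jet of the letter `s`. -/
noncomputable def sdfS (τ : Tr A) (S : A) : SdfJ A :=
  TrivSqZeroExt.inl (Lm S) + TrivSqZeroExt.inr (eT τ)

/-- The centred powers. -/
noncomputable def sdfY (τ : Tr A) (S : A) (n : ℕ) : SdfJ A := sdfS τ S ^ n - τ (S ^ n) • 1

lemma sdf_snd_mul (z w : SdfJ A) : (z * w).snd = z.snd * w.fst + z.fst * w.snd := by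
  rw [TrivSqZeroExt.snd_mul, add_comm]
  rfl

lemma sdfj_fst (x : A) : (sdfj x).fst = Lm x := rfl
lemma sdfj_snd (x : A) : (sdfj x).snd = 0 := rfl
lemma sdfj_mul (x y : A) : sdfj (x * y) = sdfj x * sdfj y := by
  simp only [sdfj, Lm_mul, TrivSqZeroExt.inl_mul]
lemma sdfj_one : sdfj (1 : A) = 1 := by simp only [sdfj, Lm_one, TrivSqZeroExt.inl_one]
lemma sdfj_center (τ : Tr A) (x : A) : sdfj x = sdfj (x - τ x • (1 : A)) + τ x • 1 := by
  ext1
  · ext y
    simp [sdfj, sub_mul]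
  · simp [sdfj]

lemma sdfS_fst : (sdfS τ S).fst = Lm S := by simp [sdfS]
lemma sdfS_snd : (sdfS τ S).snd = eT τ := by simp [sdfS]

lemma sdfS_pow_fst (n : ℕ) : (sdfS τ S ^ n).fst = Lm (S ^ n) := by
  induction n with
  | zero => simp [Lm_one]
  | succ n ih => rw [pow_succ, TrivSqZeroExt.fst_mul, ih, sdfS_fst, pow_succ, Lm_mul]

lemma sdfS_pow_snd (n : ℕ) (R : A) :
    (sdfS τ S ^ (n + 1)).snd R = ∑ i ∈ Finset.range (n + 1), τ (S ^ (n - i) * R) • S ^ i := by
  induction n generalizing R with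
  | zero => simp [sdfS_snd]
  | succ n ih =>
    rw [pow_succ, sdf_snd_mul, sdfS_fst, sdfS_snd, sdfS_pow_fst, LinearMap.add_apply,
      Module.End.mul_apply, Module.End.mul_apply, ih, Finset.sum_range_succ _ (n + 1)]
    congr 1
    · refine Finset.sum_congr rfl fun i hi => ?_
      have : n + 1 - i = n - i + 1 := by
        have := Finset.mem_range.1 hi
        omega
      rw [this, pow_succ, Lm_apply, mul_assoc]
    · simp

lemma sdfY_fst (n : ℕ) : (sdfY τ S n).fst = Lm (S ^ n - τ (S ^ n) • 1) := by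
  ext y
  simp [sdfY, sdfS_pow_fst, sub_mul, -TrivSqZeroExt.fst_pow]

lemma sdfY_snd (n : ℕ) (R : A) :
    (sdfY τ S (n + 1)).snd R = ∑ i ∈ Finset.range (n + 1), τ (S ^ (n - i) * R) • S ^ i := by
  rw [← sdfS_pow_snd, sdfY, TrivSqZeroExt.snd_sub, TrivSqZeroExt.snd_smul, TrivSqZeroExt.snd_one,
    smul_zero, sub_zero]

/-- Alternating jets. -/
inductive SdfAltJ (τ : Tr A) (Q : StarSubalgebra ℂ A) (S : A) : SdfJ A → Prop
  | last (n : ℕ) (x : A) (hx : x ∈ Q) : SdfAltJ τ Q S (sdfY τ S (n + 1) * sdfj x)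
  | cons (n : ℕ) (x : A) (w : SdfJ A) (hx : x ∈ Q) (hx0 : τ x = 0) (hw : SdfAltJ τ Q S w) :
      SdfAltJ τ Q S (sdfY τ S (n + 1) * sdfj x * w)

lemma SdfAltJ.fst (hS : S ∈ D) {w : SdfJ A} (h : SdfAltJ τ Q S w) :
    SdfAlt τ D Q (w.fst 1) := by
  induction h with
  | last n x hx =>
    simp only [TrivSqZeroExt.fst_mul, sdfY_fst, sdfj_fst, Module.End.mul_apply, Lm_apply, mul_one]
    exact .last _ x (center_mem (pow_mem hS _)) (tr_center τ _) hx
  | cons n x w hx hx0 _ ih =>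
    simp only [TrivSqZeroExt.fst_mul, sdfY_fst, sdfj_fst, Module.End.mul_apply, Lm_apply,
      ← mul_assoc]
    exact .cons _ x _ (center_mem (pow_mem hS _)) (tr_center τ _) hx hx0 ih

lemma sdf_snd_apply (n : ℕ) (x : A) (w : SdfJ A) :
    (sdfY τ S (n + 1) * sdfj x * w).snd 1 =
      ∑ i ∈ Finset.range (n + 1), τ (S ^ (n - i) * (x * w.fst 1)) • S ^ i +
        (S ^ (n + 1) - τ (S ^ (n + 1)) • 1) * x * w.snd 1 := by
  simp only [sdf_snd_mul, TrivSqZeroExt.fst_mul, sdfY_fst, sdfj_fst, sdfj_snd, mul_zero, add_zero,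
    LinearMap.add_apply, Module.End.mul_apply, Lm_apply, sdfY_snd, mul_assoc,
    LinearMap.zero_apply, zero_add]

lemma SdfAltJ.snd_pre (hF : FreeAlg τ D Q) (hS : S ∈ D) {w : SdfJ A} (h : SdfAltJ τ Q S w) :
    ∀ p : A, SdfAlt τ D Q p → (∀ v, SdfAlt τ D Q v → SdfAlt τ D Q (p * v)) →
      ∀ y ∈ Q, τ (y * (p * w.snd 1)) = 0 := by
  have h0 : ∀ p : A, SdfAlt τ D Q p → (∀ v, SdfAlt τ D Q v → SdfAlt τ D Q (p * v)) →
      ∀ y ∈ Q, ∀ i : ℕ, τ (y * (p * S ^ i)) = 0 := by
    intro p hp hp' y hy i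
    have h1 := (hp' _ (SdfAlt.last _ 1 (center_mem (τ := τ) (pow_mem hS i)) (tr_center τ _)
      (one_mem Q))).tr_mul hF hy
    have h2 := hp.tr_mul hF hy
    simpa [mul_sub, h2] using h1
  induction h with
  | last n x hx =>
    intro p hp hp' y hy
    have := sdf_snd_apply (τ := τ) (S := S) n x 1
    rw [mul_one] at this
    rw [this]
    simp [Finset.mul_sum, τ.map_sum, h0 p hp hp' y hy]
  | cons n x w hx hx0 _ ih =>
    intro p hp hp' y hy
    have hd : S ^ (n + 1) - τ (S ^ (n + 1)) • (1 : A) ∈ D := center_mem (pow_mem hS _)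
    have h1 := ih (p * ((S ^ (n + 1) - τ (S ^ (n + 1)) • 1) * x))
      (hp' _ (.last _ x hd (tr_center τ _) hx))
      (fun v hv => by
        rw [mul_assoc]
        exact hp' _ (.cons _ x v hd (tr_center τ _) hx hx0 hv)) y hy
    rw [sdf_snd_apply, mul_add, mul_add, τ.map_add, ← mul_assoc p, h1]
    simp [Finset.mul_sum, τ.map_sum, h0 p hp hp' y hy]

lemma sdf_main (hF : FreeAlg τ D Q) (hS : S ∈ D) (h1 : τ S = 0)
    (hm : ∀ n : ℕ, τ (S ^ (n + 2)) = ∑ i ∈ Finset.range (n + 1), τ (S ^ i) * τ (S ^ (n - i)))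
    (n : ℕ) {x y a : A} (hy : y ∈ Q) (h2 : ∀ d ∈ D, τ d = 0 → SdfAlt τ D Q (d * (x * a))) :
    τ (S * (y * ((S ^ (n + 1) - τ (S ^ (n + 1)) • 1) * (x * a)))) =
      τ (y * ∑ i ∈ Finset.range (n + 1), τ (S ^ (n - i) * (x * a)) • S ^ i) := by
  have h3 : ∀ d ∈ D, τ (d * (x * a)) = τ d * τ (x * a) := by
    intro d hd
    rw [sdf_split, (h2 _ (center_mem hd) (tr_center τ d)).tr hF, zero_add]
  have hd : S ^ (n + 1) - τ (S ^ (n + 1)) • (1 : A) ∈ D := center_mem (pow_mem hS _)
  have h4 := (SdfAlt.cons S _ _ hS h1 (center_mem (τ := τ) hy) (tr_center τ y)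
    (h2 _ hd (tr_center τ _))).tr hF
  have h5 := h3 _ (mul_mem hS hd)
  have h6 : τ (S * (S ^ (n + 1) - τ (S ^ (n + 1)) • (1 : A))) = τ (S ^ (n + 2)) := by
    rw [mul_sub, ← pow_succ', mul_smul_comm, mul_one, τ.map_sub, τ.map_smul, h1, mul_zero,
      sub_zero]
  rw [h6, hm, mul_assoc] at h5
  rw [mul_sub, mul_smul_comm, mul_one, sub_mul, smul_mul_assoc, τ.map_sub, τ.map_smul, h5,
    mul_assoc, sub_eq_zero] at h4
  rw [h4, Finset.mul_sum, τ.map_sum, Finset.sum_mul, Finset.mul_sum]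
  refine Finset.sum_congr rfl fun i _ => ?_
  rw [mul_smul_comm, τ.map_smul, h3 _ (pow_mem hS _), τ.comm y, sdf_tr_mul hF (pow_mem hS _) hy]
  ring

end sd

theorem sd_of_freeAlg {D : StarSubalgebra ℂ A} (hF : FreeAlg τ D Q) (hP : P ≤ Q) (hu : u ∈ Q)
    (hS : S ∈ D) (h1 : τ S = 0)
    (hm : ∀ n : ℕ, τ (S ^ (n + 2)) = ∑ i ∈ Finset.range (n + 1), τ (S ^ i) * τ (S ^ (n - i))) :
    SD τ P u S := by
  set V : Submodule ℂ (SdfJ A) := Submodule.span ℂ
    ({z | ∃ x ∈ Q, z = sdfj x} ∪ {z | ∃ x ∈ Q, ∃ w, SdfAltJ τ Q S w ∧ z = sdfj x * w}) with hV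
  have hQ : ∀ x ∈ Q, sdfj x ∈ V := fun x hx => Submodule.subset_span (Or.inl ⟨x, hx, rfl⟩)
  have hW : ∀ x ∈ Q, ∀ w, SdfAltJ τ Q S w → sdfj x * w ∈ V :=
    fun x hx w hw => Submodule.subset_span (Or.inr ⟨x, hx, w, hw, rfl⟩)
  have hR : ∀ w, SdfAltJ τ Q S w → w ∈ V := fun w hw => by
    simpa [sdfj_one] using hW 1 (one_mem Q) w hw
  have hspan : ∀ g : SdfJ A, (∀ x ∈ Q, g * sdfj x ∈ V) →
      (∀ x ∈ Q, ∀ w, SdfAltJ τ Q S w → g * (sdfj x * w) ∈ V) → ∀ z ∈ V, g * z ∈ V := by
    intro g ha hb z hz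
    induction hz using Submodule.span_induction with
    | mem z hz =>
      rcases hz with ⟨x, hx, rfl⟩ | ⟨x, hx, w, hw, rfl⟩
      · exact ha x hx
      · exact hb x hx w hw
    | zero => simp
    | add x y _ _ hx hy => rw [mul_add]; exact V.add_mem hx hy
    | smul c x _ hx => rw [mul_smul_comm]; exact V.smul_mem c hx
  have hj : ∀ g ∈ Q, ∀ z ∈ V, sdfj g * z ∈ V := by
    intro g hg
    refine hspan _ (fun x hx => ?_) fun x hx w hw => ?_
    · rw [← sdfj_mul]; exact hQ _ (mul_mem hg hx)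
    · rw [← mul_assoc, ← sdfj_mul]; exact hW _ (mul_mem hg hx) w hw
  have hY1 : sdfS τ S = sdfY τ S (0 + 1) := by simp [sdfY, h1]
  have hSY : ∀ n, sdfS τ S * sdfY τ S n =
      sdfY τ S (n + 1) + τ (S ^ (n + 1)) • 1 - τ (S ^ n) • sdfY τ S (0 + 1) := by
    intro n
    rw [← hY1, sdfY, sdfY, mul_sub, ← pow_succ', mul_smul_comm, mul_one, sub_add_cancel]
  have hs : ∀ z ∈ V, sdfS τ S * z ∈ V := by
    refine hspan _ (fun x hx => ?_) fun x hx w hw => ?_
    · rw [hY1]; exact hR _ (.last 0 x hx)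
    · rw [sdfj_center τ x, add_mul, mul_add, smul_mul_assoc, one_mul, mul_smul_comm]
      refine V.add_mem ?_ (V.smul_mem _ ?_)
      · rw [← mul_assoc, hY1]
        exact hR _ (.cons 0 _ w (center_mem hx) (tr_center τ x) hw)
      · cases hw with
        | last n y hy =>
          rw [← mul_assoc, hSY, sub_mul, add_mul, smul_mul_assoc, smul_mul_assoc, one_mul]
          exact V.sub_mem (V.add_mem (hR _ (.last _ y hy)) (V.smul_mem _ (hQ y hy)))
            (V.smul_mem _ (hR _ (.last _ y hy)))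
        | cons n y w hy hy0 hw =>
          rw [← mul_assoc, ← mul_assoc, hSY, sub_mul, add_mul, smul_mul_assoc, smul_mul_assoc,
            one_mul, sub_mul, add_mul, smul_mul_assoc, smul_mul_assoc]
          exact V.sub_mem (V.add_mem (hR _ (.cons _ y w hy hy0 hw)) (V.smul_mem _ (hW y hy w hw)))
            (V.smul_mem _ (hR _ (.cons _ y w hy hy0 hw)))
  have hker : ∀ z ∈ V, τ (S * z.fst 1) = τ (z.snd 1) := by
    intro z hz
    induction hz using Submodule.span_induction with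
    | mem z hz =>
      rcases hz with ⟨x, hx, rfl⟩ | ⟨y, hy, w, hw, rfl⟩
      · simp [sdfj_fst, sdfj_snd, sdf_tr_mul hF hS hx, h1]
      · have e1 : (sdfj y * w).snd 1 = y * w.snd 1 := by
          simp [sdf_snd_mul, sdfj_fst, sdfj_snd, -TrivSqZeroExt.snd_mul]
        rw [e1]
        cases hw with
        | last n x hx =>
          have e2 := sdf_snd_apply (τ := τ) (S := S) n x 1
          rw [mul_one] at e2
          rw [e2]
          have := sdf_main hF hS h1 hm n (x := x) (a := 1) hy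
            (fun d hd hd0 => by rw [mul_one]; exact .last d x hd hd0 hx)
          simpa only [TrivSqZeroExt.fst_mul, sdfY_fst, sdfj_fst, Module.End.mul_apply, Lm_apply,
            TrivSqZeroExt.fst_one, TrivSqZeroExt.snd_one, Module.End.one_apply,
            LinearMap.zero_apply, mul_zero, add_zero] using this
        | cons n x w hx hx0 hw =>
          have hd : S ^ (n + 1) - τ (S ^ (n + 1)) • (1 : A) ∈ D := center_mem (pow_mem hS _)
          have e3 := hw.snd_pre hF hS _ (.last _ x hd (tr_center τ _) hx)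
            (fun v hv => .cons _ x v hd (tr_center τ _) hx hx0 hv) y hy
          rw [sdf_snd_apply, mul_add, τ.map_add, e3, add_zero]
          have := sdf_main hF hS h1 hm n (x := x) (a := w.fst 1) hy
            (fun d hd hd0 => by
              rw [← mul_assoc]; exact .cons d x _ hd hd0 hx hx0 (hw.fst hS))
          simpa only [TrivSqZeroExt.fst_mul, sdfY_fst, sdfj_fst, Module.End.mul_apply,
            Lm_apply] using this
    | zero => simp
    | add x y _ _ hx hy => simp [mul_add, hx, hy]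
    | smul c x _ hx => simp [hx]
  intro f
  have hall : ∀ f : Pol P, ∀ z ∈ V, Pol.lift (R := SdfJ A) (fun l =>
      TrivSqZeroExt.inl (Lm (evL P u S l)) + TrivSqZeroExt.inr (dsL τ P l)) f * z ∈ V := by
    intro f
    induction f using Pol.induction with
    | halg r =>
      intro z hz
      rw [AlgHom.commutes, ← Algebra.smul_def]
      exact V.smul_mem r hz
    | hof l =>
      rw [Pol.lift_of]
      cases l with
      | c x => simpa [evL, dsL, sdfj] using hj x (hP x.2)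
      | u => simpa [evL, dsL, sdfj] using hj u hu
      | us => simpa [evL, dsL, sdfj] using hj (star u) (star_mem hu)
      | s => exact hs
    | hmul f g hf hg => intro z hz; rw [map_mul, mul_assoc]; exact hf _ (hg z hz)
    | hadd f g hf hg => intro z hz; rw [map_add, add_mul]; exact V.add_mem (hf z hz) (hg z hz)
  have h2 := hker _ (hall f 1 (by simpa [sdfj_one] using hQ 1 (one_mem Q)))
  rw [mul_one, dlift_fst, lift_Lm, ← dlift_def, Lm_apply, mul_one] at h2
  exact h2

end Crest.Agent.R134
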