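import Crest.Agent.R134.Borel

/-! Row 134: a semicircular generator and equal-trace partitions of unity from a Haar unitary. -/

set_option autoImplicit false

open Filter Topology
open scoped ComplexConjugate

namespace Crest.Agent.R134

open Crest.Agent.R095

variable {A : Type*} [CStarAlgebra A] {τ : Tr A} {c : A} {Φ : (ℝ → ℂ) → A}

namespace SemiAux

open Real MeasureTheory Set

lemma bm_add {f g : ℝ → ℂ} (hf : BM f) (hg : BM g) : BM (f + g) := by
  obtain ⟨h1, R, hR⟩ := hf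
  obtain ⟨h2, R', hR'⟩ := hg
  exact ⟨h1.add h2, R + R', fun x => (norm_add_le _ _).trans (add_le_add (hR x) (hR' x))⟩

lemma bm_mul {f g : ℝ → ℂ} (hf : BM f) (hg : BM g) : BM (f * g) := by
  obtain ⟨h1, R, hR⟩ := hf
  obtain ⟨h2, R', hR'⟩ := hg
  exact ⟨h1.mul h2, R * R', fun x => (norm_mul_le _ _).trans
    (mul_le_mul (hR x) (hR' x) (norm_nonneg _) ((norm_nonneg _).trans (hR x)))⟩

lemma bm_const (z : ℂ) : BM fun _ => z := ⟨measurable_const, ‖z‖, fun _ => le_rfl⟩

lemma bm_smul (z : ℂ) {f : ℝ → ℂ} (hf : BM f) : BM (z • f) := bm_mul (bm_const z) hf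

lemma bm_star {f : ℝ → ℂ} (hf : BM f) : BM (star f) := by
  obtain ⟨h1, R, hR⟩ := hf
  exact ⟨continuous_star.measurable.comp h1, R, fun x => by simpa using hR x⟩

lemma bm_pow {f : ℝ → ℂ} (hf : BM f) (n : ℕ) : BM (f ^ n) := by
  induction n with
  | zero => exact bm_const 1
  | succ n ih => rw [pow_succ]; exact bm_mul ih hf

lemma bm_sub {f g : ℝ → ℂ} (hf : BM f) (hg : BM g) : BM (f - g) := by
  rw [sub_eq_add_neg, ← neg_one_smul ℂ g]
  exact bm_add hf (bm_smul _ hg)

lemma bm_ind {s : Set ℝ} (hs : MeasurableSet s) : BM (s.indicator 1) :=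
  ⟨measurable_one.indicator hs, 1, fun x => by by_cases h : x ∈ s <;> simp [h]⟩

lemma map_sub (h : BorelCalc τ c Φ) {f g : ℝ → ℂ} (hf : BM f) (hg : BM g) :
    Φ (f - g) = Φ f - Φ g := by
  rw [sub_eq_add_neg, ← neg_one_smul ℂ g, h.add _ _ hf (bm_smul _ hg), h.smul _ _ hg,
    neg_one_smul, sub_eq_add_neg]

lemma map_zero (h : BorelCalc τ c Φ) : Φ 0 = 0 := by
  simpa using h.smul 0 1 (bm_const 1)

lemma map_pow (h : BorelCalc τ c Φ) {f : ℝ → ℂ} (hf : BM f) (n : ℕ) : Φ (f ^ n) = Φ f ^ n := by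
  induction n with
  | zero => simpa using h.one
  | succ n ih => rw [pow_succ, h.mul _ _ (bm_pow hf n) hf, ih, pow_succ]

lemma map_sum (h : BorelCalc τ c Φ) {ι : Type*} (s : Finset ι) {f : ι → ℝ → ℂ}
    (hf : ∀ i, BM (f i)) : BM (∑ i ∈ s, f i) ∧ Φ (∑ i ∈ s, f i) = ∑ i ∈ s, Φ (f i) := by
  classical
  induction s using Finset.induction_on with
  | empty => exact ⟨bm_const 0, by simpa using map_zero h⟩
  | insert i s hi ih =>
    simp only [Finset.sum_insert hi]
    exact ⟨bm_add (hf i) ih.1, by rw [h.add _ _ (hf i) ih.1, ih.2]⟩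

lemma n2_le (h : BorelCalc τ c Φ) {f g : ℝ → ℂ} (hf : BM f) (hg : BM g) {ε : ℝ} (hε : 0 ≤ ε)
    (hfg : ∀ x ∈ Ioc (0 : ℝ) 1, ‖f x - g x‖ ≤ ε) : τ.n2 (Φ f - Φ g) ≤ ε := by
  have hd := bm_sub hf hg
  refine le_of_sq_le_sq ?_ hε
  rw [← map_sub h hf hg, τ.n2_sq, ← h.star _ hd, ← h.mul _ _ (bm_star hd) hd,
    h.tr _ (bm_mul (bm_star hd) hd)]
  refine (Complex.re_le_norm _).trans ((intervalIntegral.norm_integral_le_of_norm_le_const
    (C := ε ^ 2) fun x hx => ?_).trans_eq (by simp))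
  rw [uIoc_of_le zero_le_one] at hx
  rw [Pi.mul_apply, Pi.star_apply, norm_mul, norm_star, ← sq]
  exact pow_le_pow_left₀ (norm_nonneg _) (hfg x hx) 2

lemma poly_mem (h : BorelCalc τ c Φ) {g : ℝ → ℝ} (hg : BM fun x => (g x : ℂ))
    (p : Polynomial ℝ) : BM (fun x => ((p.eval (g x) : ℝ) : ℂ)) ∧
      Φ (fun x => ((p.eval (g x) : ℝ) : ℂ)) ∈ StarAlgebra.adjoin ℂ {Φ fun x => (g x : ℂ)} := by
  induction p using Polynomial.induction_on' with
  | add p q hp hq =>
    have e : (fun x => (((p + q).eval (g x) : ℝ) : ℂ)) =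
        (fun x => ((p.eval (g x) : ℝ) : ℂ)) + fun x => ((q.eval (g x) : ℝ) : ℂ) := by
      ext x; simp
    rw [e, h.add _ _ hp.1 hq.1]
    exact ⟨bm_add hp.1 hq.1, add_mem hp.2 hq.2⟩
  | monomial n a =>
    have e : (fun x => (((Polynomial.monomial n a).eval (g x) : ℝ) : ℂ)) =
        (a : ℂ) • (fun x => (g x : ℂ)) ^ n := by
      ext x; simp
    rw [e, h.smul _ _ (bm_pow hg n), map_pow h hg]
    exact ⟨bm_smul _ (bm_pow hg n), StarSubalgebra.smul_mem _
      (pow_mem (StarAlgebra.self_mem_adjoin_singleton ℂ _) n) _⟩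

/-- The distribution function of the semicircle law in the angle variable. -/
noncomputable def Th (φ : ℝ) : ℝ := (2 * φ - sin (2 * φ)) / (2 * π)

lemma Th_deriv (φ : ℝ) : HasDerivAt Th (2 / π * sin φ ^ 2) φ := by
  have h1 : HasDerivAt (fun φ : ℝ => 2 * φ) 2 φ := by simpa using (hasDerivAt_id φ).const_mul 2
  refine ((h1.sub h1.sin).div_const (2 * π)).congr_deriv ?_
  rw [cos_two_mul, cos_sq']
  field_simp
  ring

lemma Th_cont : Continuous Th := continuous_iff_continuousAt.2 fun φ => (Th_deriv φ).continuousAt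

lemma Th_mono : StrictMono Th := by
  intro a b hab
  refine div_lt_div_of_pos_right ?_ two_pi_pos
  have h1 := sin_sub_sin (2 * b) (2 * a)
  have h2 : |sin ((2 * b - 2 * a) / 2)| < |(2 * b - 2 * a) / 2| := abs_sin_lt_abs (by linarith)
  rw [abs_of_pos (a := (2 * b - 2 * a) / 2) (by linarith)] at h2
  have h3 : sin ((2 * b - 2 * a) / 2) * cos ((2 * b + 2 * a) / 2) ≤ |sin ((2 * b - 2 * a) / 2)| := by
    refine (le_abs_self _).trans ?_
    rw [abs_mul]
    exact mul_le_of_le_one_right (abs_nonneg _) (abs_cos_le_one _)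
  linarith

lemma Th_int (k : ℤ) : Th (k * π) = k := by
  have : sin (2 * (k * π)) = 0 := by
    rw [← mul_assoc]
    exact_mod_cast sin_int_mul_pi (2 * k)
  rw [Th, this]
  field_simp
  ring

lemma Th_surj : Function.Surjective Th := fun x =>
  mem_range_of_exists_le_of_exists_ge Th_cont ⟨⌊x⌋ * π, by rw [Th_int]; exact Int.floor_le x⟩
    ⟨⌈x⌉ * π, by rw [Th_int]; exact Int.le_ceil x⟩

lemma Th_zero : Th 0 = 0 := by simpa using Th_int 0

lemma Th_pi : Th π = 1 := by simpa using Th_int 1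

/-- The moments of the semicircle law. -/
noncomputable def mom (n : ℕ) : ℝ := ∫ φ in (0 : ℝ)..π, (2 * cos φ) ^ n * (2 / π * sin φ ^ 2)

lemma mom_zero : mom 0 = 1 := by
  simp only [mom, pow_zero, one_mul, intervalIntegral.integral_const_mul, integral_sin_sq]
  simp

lemma mom_one : mom 1 = 0 := by
  have : ∀ φ, (2 * cos φ) ^ 1 * (2 / π * sin φ ^ 2) = 4 / π * (sin φ ^ 2 * cos φ) := fun φ => by
    ring
  simp only [mom, this, intervalIntegral.integral_const_mul, integral_sin_sq_mul_cos]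
  simp

lemma mom_rec (n : ℕ) : (n + 4) * mom (n + 2) = 4 * (n + 1) * mom n := by
  have h1 : ∀ φ, HasDerivAt (fun φ => 2 / π * 4 * 2 ^ n * (cos φ ^ (n + 1) * sin φ ^ 3))
      ((n + 4) * ((2 * cos φ) ^ (n + 2) * (2 / π * sin φ ^ 2)) -
        4 * (n + 1) * ((2 * cos φ) ^ n * (2 / π * sin φ ^ 2))) φ := by
    intro φ
    refine ((((hasDerivAt_cos φ).fun_pow (n + 1)).fun_mul
      ((hasDerivAt_sin φ).fun_pow 3)).const_mul _).congr_deriv ?_
    simp only [mul_pow, Nat.add_sub_cancel]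
    push_cast
    linear_combination (-(2 / π * 4 * 2 ^ n * (n + 1) * cos φ ^ n * sin φ ^ 2)) *
      sin_sq_add_cos_sq φ
  have h2 := intervalIntegral.integral_eq_sub_of_hasDerivAt (a := 0) (b := π) (fun φ _ => h1 φ)
    (Continuous.intervalIntegrable (by fun_prop) _ _)
  rw [intervalIntegral.integral_sub (Continuous.intervalIntegrable (by fun_prop) _ _)
    (Continuous.intervalIntegrable (by fun_prop) _ _), intervalIntegral.integral_const_mul,
    intervalIntegral.integral_const_mul] at h2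
  simp only [sin_pi, sin_zero, ne_eq, OfNat.ofNat_ne_zero, not_false_eq_true, zero_pow, mul_zero,
    sub_self] at h2
  exact sub_eq_zero.1 h2

lemma mom_odd (k : ℕ) : mom (2 * k + 1) = 0 := by
  induction k with
  | zero => exact mom_one
  | succ k ih =>
    have := mom_rec (2 * k + 1)
    rw [ih, mul_zero] at this
    exact (mul_eq_zero.1 this).resolve_left (by positivity)

lemma mom_even (k : ℕ) : mom (2 * k) = catalan k := by
  induction k with
  | zero => simpa using mom_zero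
  | succ k ih =>
    have h1 := mom_rec (2 * k)
    have h2 := Nat.succ_mul_centralBinom_succ k
    rw [← succ_mul_catalan_eq_centralBinom, ← succ_mul_catalan_eq_centralBinom] at h2
    have h3 : ((k : ℝ) + 1) * ((k + 1 + 1) * catalan (k + 1)) =
        2 * (2 * k + 1) * ((k + 1) * catalan k) := by exact_mod_cast h2
    rw [ih] at h1
    push_cast at h1
    refine mul_left_cancel₀ (a := ((k : ℝ) + 1) * (2 * k + 4)) (by positivity) ?_
    change _ * mom (2 * k + 2) = _
    linear_combination (k + 1) * h1 - 2 * h3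

lemma sum_even (f : ℕ → ℝ) (hf : ∀ j, f (2 * j + 1) = 0) (k : ℕ) :
    ∑ i ∈ Finset.range (2 * k + 1), f i = ∑ j ∈ Finset.range (k + 1), f (2 * j) := by
  induction k with
  | zero => simp
  | succ k ih =>
    rw [Finset.sum_range_succ _ (k + 1), ← ih, mul_add_one, Finset.sum_range_succ,
      Finset.sum_range_succ, hf, add_zero]

lemma mom_conv (n : ℕ) : mom (n + 2) = ∑ i ∈ Finset.range (n + 1), mom i * mom (n - i) := by
  obtain ⟨k, rfl | rfl⟩ := n.even_or_odd'
  · rw [sum_even _ fun j => by rw [mom_odd, zero_mul], ← mul_add_one, mom_even, catalan_succ',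
      Finset.Nat.sum_antidiagonal_eq_sum_range_succ fun x y => catalan x * catalan y]
    push_cast
    refine Finset.sum_congr rfl fun j _ => ?_
    rw [← Nat.mul_sub, mom_even, mom_even]
  · rw [show 2 * k + 1 + 2 = 2 * (k + 1) + 1 by ring, mom_odd]
    refine (Finset.sum_eq_zero fun i hi => ?_).symm
    obtain ⟨j, rfl | rfl⟩ := i.even_or_odd'
    · rw [show 2 * k + 1 - 2 * j = 2 * (k - j) + 1 by
        have := Finset.mem_range.1 hi; omega, mom_odd, mul_zero]
    · rw [mom_odd, zero_mul]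

end SemiAux

open SemiAux Real Set in
theorem BorelCalc.semicirc (hf : τ.Faithful) (h : BorelCalc τ c Φ) :
    ∃ S : A, IsSelfAdjoint S ∧ S ∈ l2cl τ (StarAlgebra.adjoin ℂ {c}) ∧
      c ∈ l2cl τ (StarAlgebra.adjoin ℂ {S}) ∧ τ S = 0 ∧
      ∀ n : ℕ, τ (S ^ (n + 2)) = ∑ i ∈ Finset.range (n + 1), τ (S ^ i) * τ (S ^ (n - i)) := by
  set e := Th_mono.orderIsoOfSurjective Th Th_surj with he
  have h1 : ∀ φ, e.symm (Th φ) = φ := fun φ => e.symm_apply_apply φ
  have h2 : ∀ x, Th (e.symm x) = x := fun x => e.apply_symm_apply x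
  set g : ℝ → ℝ := fun x => 2 * cos (e.symm x) with hg
  have hgc : Continuous g := by
    have := e.symm.continuous
    fun_prop
  have hg2 : ∀ x, g x ∈ Icc (-2 : ℝ) 2 := fun x =>
    ⟨by linarith [neg_one_le_cos (e.symm x)], by linarith [cos_le_one (e.symm x)]⟩
  have hG : BM fun x => (g x : ℂ) := ⟨by fun_prop, 2, fun x => by
    rw [Complex.norm_real, Real.norm_eq_abs]; exact abs_le.2 (hg2 x)⟩
  have hm : ∀ n : ℕ, τ (Φ (fun x => (g x : ℂ)) ^ n) = mom n := by
    intro n
    have h3 := intervalIntegral.integral_comp_mul_deriv (a := 0) (b := π) (g := fun x => g x ^ n)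
      (fun φ _ => Th_deriv φ) (by fun_prop) (by fun_prop)
    rw [Th_zero, Th_pi] at h3
    simp only [Function.comp_apply, hg, h1] at h3
    rw [← SemiAux.map_pow h hG, h.tr _ (bm_pow hG n), mom, h3, ← intervalIntegral.integral_ofReal]
    simp [hg]
  refine ⟨Φ fun x => (g x : ℂ), ?_, h.mem _ hG, fun ε hε => ?_, ?_, fun n => ?_⟩
  · rw [IsSelfAdjoint, ← h.star _ hG]
    congr 1
    ext x
    simp
  · set u : ℝ → ℂ := fun y => Complex.exp (2 * π * Complex.I * Th (arccos (y / 2))) with hu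
    have huc : Continuous u := by
      have := Th_cont
      have := continuous_arccos
      fun_prop
    obtain ⟨p, hp⟩ := exists_polynomial_near_of_continuousOn (-2) 2 (fun y => (u y).re)
      (by fun_prop) (ε / 3) (by positivity)
    obtain ⟨q, hq⟩ := exists_polynomial_near_of_continuousOn (-2) 2 (fun y => (u y).im)
      (by fun_prop) (ε / 3) (by positivity)
    obtain ⟨p1, p2⟩ := poly_mem h hG p
    obtain ⟨q1, q2⟩ := poly_mem h hG q
    refine ⟨_, add_mem p2 (StarSubalgebra.smul_mem _ q2 Complex.I), ?_⟩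
    rw [← h.smul _ _ q1, ← h.add _ _ p1 (bm_smul _ q1)]
    nth_rewrite 1 [← h.gen]
    refine (n2_le h ⟨by fun_prop, 1, fun x => ?_⟩ (bm_add p1 (bm_smul _ q1))
      (ε := ε / 3 + ε / 3) (by positivity) fun x hx => ?_).trans_lt (by linarith)
    · rw [Complex.norm_exp]; simp
    · have h3 : 0 ≤ e.symm x := by
        rw [← h1 0, Th_zero]; exact e.symm.monotone hx.1.le
      have h4 : e.symm x ≤ π := by
        rw [← h1 π, Th_pi]; exact e.symm.monotone hx.2
      have h5 : u (g x) = Complex.exp (2 * π * Complex.I * x) := by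
        simp only [hu, hg, mul_div_cancel_left₀ _ (two_ne_zero' ℝ), arccos_cos h3 h4, h2]
      rw [← h5]
      refine (Complex.norm_le_abs_re_add_abs_im _).trans (add_le_add ?_ ?_)
      · simpa [abs_sub_comm] using (hp _ (hg2 x)).le
      · simpa [abs_sub_comm] using (hq _ (hg2 x)).le
  · simpa [mom_one] using hm 1
  · simp only [hm]
    exact_mod_cast mom_conv n

open SemiAux Set in
theorem BorelCalc.partition (hf : τ.Faithful) (h : BorelCalc τ c Φ) {N : ℕ} (hN : 0 < N) :
    ∃ p : Fin N → A, (∀ i, p i ∈ l2cl τ (StarAlgebra.adjoin ℂ {c})) ∧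
      (∀ i, IsStarProjection (p i)) ∧ (∀ i j, i ≠ j → p i * p j = 0) ∧ ∑ i, p i = 1 ∧
      ∀ i, τ (p i) = ((N : ℝ)⁻¹ : ℝ) := by
  have hN' : (0 : ℝ) < N := by exact_mod_cast hN
  set s : Fin N → Set ℝ := fun i => Ioc ((i : ℝ) / N) ((i + 1) / N) with hs
  have hb : ∀ i, BM ((s i).indicator 1) := fun i => bm_ind measurableSet_Ioc
  have hmem : ∀ (i : Fin N) (x : ℝ), x ∈ s i ↔ ⌈x * N⌉ = (i : ℕ) + 1 := by
    intro i x
    rw [Int.ceil_eq_iff, hs, mem_Ioc, div_lt_iff₀ hN', le_div_iff₀ hN']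
    simp
  refine ⟨fun i => Φ ((s i).indicator 1), fun i => h.mem _ (hb i), fun i => ⟨?_, ?_⟩,
    fun i j hij => ?_, ?_, fun i => ?_⟩
  · rw [IsIdempotentElem, ← h.mul _ _ (hb i) (hb i), ← inter_indicator_one, inter_self]
  · rw [IsSelfAdjoint, ← h.star _ (hb i)]
    congr 1
    ext x
    by_cases hx : x ∈ s i <;> simp [hx]
  · rw [← h.mul _ _ (hb i) (hb j), ← inter_indicator_one, ← SemiAux.map_zero h]
    congr 1
    refine indicator_eq_zero.2 (Set.disjoint_left.2 fun x _ hx => hij (Fin.ext ?_))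
    have h1 := (hmem i x).1 hx.1
    have h2 := (hmem j x).1 hx.2
    omega
  · obtain ⟨h1, h2⟩ := SemiAux.map_sum h Finset.univ hb
    rw [← h2, ← h.one, ← sub_eq_zero]
    refine hf _ (le_antisymm (n2_le h h1 (bm_const 1) le_rfl fun x hx => ?_) (τ.n2_nonneg _))
    have h3 : 0 < ⌈x * N⌉ := Int.ceil_pos.2 (mul_pos hx.1 hN')
    have h4 : ⌈x * N⌉ ≤ N := Int.ceil_le.2 (by simpa using mul_le_of_le_one_left hN'.le hx.2)
    set k : Fin N := ⟨(⌈x * N⌉ - 1).toNat, by omega⟩ with hk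
    have h5 : x ∈ s k := (hmem k x).2 (by simp only [hk]; omega)
    rw [Finset.sum_apply, Finset.sum_eq_single k (fun j _ hj => indicator_of_notMem (fun hx =>
      hj (Fin.ext (by have := (hmem j x).1 hx; simp only [hk]; omega))) _) (by simp)]
    simp [h5]
  · have h1 : s i ⊆ Ioc 0 1 := Ioc_subset_Ioc (by positivity) (by
      rw [div_le_one hN']; exact_mod_cast i.2)
    rw [h.tr _ (hb i), intervalIntegral.integral_of_le zero_le_one,
      MeasureTheory.setIntegral_indicator measurableSet_Ioc, inter_eq_right.2 h1]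
    simp only [Pi.one_apply, MeasureTheory.setIntegral_const, hs, Real.volume_real_Ioc]
    rw [← sub_div, add_sub_cancel_left, max_eq_left (by positivity)]
    simp

end Crest.Agent.R134
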