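import Crest.Agent.R134.Absorb
import Crest.Agent.R134.HSD
import Crest.Agent.R134.SDfree
import Crest.Agent.R134.Semi
import Crest.Agent.R134.FreeGrp
import Crest.Agent.R134.Iso

/-! Row 134: `L(F_n) ≅ L(F_{n+1})` for `n ≥ 2`. -/

set_option autoImplicit false

open Filter Topology
open scoped ComplexConjugate

namespace Crest.Agent.R134

open Crest.Agent.R095

section abstract

variable {A : Type*} [CStarAlgebra A] {τ : Tr A}

lemma unitary_of_hom {G : Type*} [Group G] (π : G →* A) (hstar : ∀ g, star (π g) = π g⁻¹)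
    (g : G) : π g ∈ unitary A := by
  rw [Unitary.mem_iff, hstar, ← map_mul, ← map_mul]
  simp

/-- The representation of the free group with `x₀ ↦ w`, `x_j ↦ y j`. -/
noncomputable def rep {n : ℕ} (w : unitary A) (y : Fin (n + 1) → unitary A) :
    FreeGroup (Fin (n + 1)) →* A :=
  (unitary A).subtype.comp (FreeGroup.lift fun j => if j = 0 then w else y j)

lemma rep_star {n : ℕ} (w : unitary A) (y : Fin (n + 1) → unitary A)
    (g : FreeGroup (Fin (n + 1))) : star (rep w y g) = rep w y g⁻¹ := by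
  simp only [rep, MonoidHom.comp_apply, map_inv, Submonoid.subtype_apply]
  rfl

lemma rep_of {n : ℕ} (w : unitary A) (y : Fin (n + 1) → unitary A) (j : Fin (n + 1)) :
    rep w y (FreeGroup.of j) = if j = 0 then (w : A) else y j := by
  simp only [rep, MonoidHom.comp_apply, FreeGroup.lift_apply_of, Submonoid.subtype_apply]
  split_ifs <;> rfl

lemma rep_eq_ev {n : ℕ} (P : StarSubalgebra ℂ A) (y : Fin (n + 1) → unitary A)
    (hy : ∀ j, j ≠ 0 → (y j : A) ∈ P) (g : FreeGroup (Fin (n + 1))) :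
    ∃ f ∈ SF P, ∀ w : unitary A, rep w y g = ev P w 0 f := by
  induction g using FreeGroup.induction_on with
  | C1 => exact ⟨1, one_mem _, fun w => by simp⟩
  | of j =>
    by_cases hj : j = 0
    · exact ⟨pu, pu_mem_SF, fun w => by rw [rep_of, if_pos hj, ev_pu]⟩
    · exact ⟨pc ⟨y j, hy j hj⟩, pc_mem_SF _, fun w => by rw [rep_of, if_neg hj, ev_pc]⟩
  | inv_of j h =>
    obtain ⟨f, hf, h⟩ := h
    exact ⟨star f, star_mem_SF hf, fun w => by rw [← rep_star, h, ev_star_SF hf]⟩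
  | mul g g' h h' =>
    obtain ⟨f, hf, h⟩ := h
    obtain ⟨f', hf', h'⟩ := h'
    exact ⟨f * f', mul_mem hf hf', fun w => by rw [map_mul, map_mul, h, h']⟩

/-- The abstract form: a representation of `F_{n+2}` generating `A` can be replaced by one of
`F_{n+1}`. -/
theorem drop_generator (hf : τ.Faithful) (hc : τ.Complete) {n : ℕ} (hn : 1 ≤ n)
    (π : FreeGroup (Fin (n + 2)) →* A) (hstar : ∀ g, star (π g) = π g⁻¹)
    (htr : ∀ g, g ≠ 1 → τ (π g) = 0)
    (hgen : l2cl τ (StarAlgebra.adjoin ℂ (Set.range π)) = ⊤) :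
    ∃ π' : FreeGroup (Fin (n + 1)) →* A, (∀ g, star (π' g) = π' g⁻¹) ∧
      (∀ g, g ≠ 1 → τ (π' g) = 0) ∧ l2cl τ (StarAlgebra.adjoin ℂ (Set.range π')) = ⊤ := by
  set x : Fin (n + 2) → A := fun j => π (FreeGroup.of j) with hx
  have hxu : ∀ j, x j ∈ unitary A := fun j => unitary_of_hom π hstar _
  have hpow : ∀ j (k : ℕ), 0 < k → τ (x j ^ k) = 0 := by
    intro j k hk
    rw [hx, ← map_pow]
    refine htr _ fun h => hk.ne' ?_
    exact injective_pow_iff_not_isOfFinOrder.mpr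
      (not_isOfFinOrder_of_isMulTorsionFree (FreeGroup.of_ne_one j)) (h.trans (pow_zero _).symm)
  set P := l2cl τ (StarAlgebra.adjoin ℂ {z | ∃ j, j ≠ 0 ∧ j ≠ Fin.last (n + 1) ∧ z = x j})
    with hP
  have hxP : ∀ j, j ≠ 0 → j ≠ Fin.last (n + 1) → x j ∈ P := fun j h0 h1 =>
    le_l2cl (StarAlgebra.subset_adjoin ℂ _ ⟨j, h0, h1, rfl⟩)
  have h0l : (0 : Fin (n + 2)) ≠ Fin.last (n + 1) := by simp [Fin.ext_iff]
  have h10 : (1 : Fin (n + 2)) ≠ 0 := by simp
  have h1l : (1 : Fin (n + 2)) ≠ Fin.last (n + 1) := by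
    simp only [ne_eq, Fin.ext_iff, Fin.val_one, Fin.val_last]; omega
  -- the semicircular element
  obtain ⟨Φ, hΦ⟩ := exists_borelCalc hf hc (hxu (Fin.last (n + 1))) (hpow _)
  obtain ⟨S₀, hS, hSc, hcS, hS1, hSm⟩ := hΦ.semicirc hf
  have hF0 := free_l2cl (free_of_freeGroup (τ := τ) π hstar htr 0)
  have hFl := free_l2cl (free_of_freeGroup (τ := τ) π hstar htr (Fin.last (n + 1)))
  have hP0 : P ≤ l2cl τ (StarAlgebra.adjoin ℂ {z | ∃ j, j ≠ 0 ∧ z = π (FreeGroup.of j)}) :=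
    l2cl_mono (StarAlgebra.adjoin_mono fun z ⟨j, h0, _, hz⟩ => ⟨j, h0, hz⟩)
  have hPl : P ≤ l2cl τ (StarAlgebra.adjoin ℂ
      {z | ∃ j, j ≠ Fin.last (n + 1) ∧ z = π (FreeGroup.of j)}) :=
    l2cl_mono (StarAlgebra.adjoin_mono fun z ⟨j, _, h1, hz⟩ => ⟨j, h1, hz⟩)
  have hH : HSD τ P (x 0) S₀ := hsd_of_free hF0 hP0
    (l2cl_mono (StarAlgebra.adjoin_mono (by
      rintro _ rfl; exact ⟨Fin.last (n + 1), h0l.symm, rfl⟩)) hSc)
  have hSD : SD τ P (x 0) S₀ := sd_of_freeAlg (freeAlg_of_free hFl) hPl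
    (le_l2cl (StarAlgebra.subset_adjoin ℂ _ ⟨0, h0l, rfl⟩)) hSc hS1 hSm
  have ha : ONU τ P fun i => ⟨x 1 ^ i, pow_mem (hxP 1 h10 h1l) i⟩ := by
    refine ⟨fun i => pow_mem (hxu 1) i, fun i j hij => ?_⟩
    change τ (star (x 1 ^ i) * x 1 ^ j) = 0
    rw [hx, ← map_pow, ← map_pow, hstar, ← map_mul]
    refine htr _ fun h => hij ?_
    rw [inv_mul_eq_one] at h
    exact injective_pow_iff_not_isOfFinOrder.mpr
      (not_isOfFinOrder_of_isMulTorsionFree (FreeGroup.of_ne_one _)) h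
  have hparts : Parts τ P := by
    intro N hN
    obtain ⟨Ψ, hΨ⟩ := exists_borelCalc hf hc (hxu 1) (hpow _)
    obtain ⟨p, hp1, hp2, hp3, hp4, hp5⟩ := hΨ.partition hf hN
    have hle : l2cl τ (StarAlgebra.adjoin ℂ {x 1}) ≤ P :=
      l2cl_mono (StarAlgebra.adjoin_mono (Set.singleton_subset_iff.mpr ⟨1, h10, h1l, rfl⟩))
    exact ⟨fun i => ⟨p i, hle (hp1 i)⟩, hp2, hp3, hp4, hp5⟩
  have hmem : ∀ (B : StarSubalgebra ℂ A) {m : ℕ} (ρ : FreeGroup (Fin m) →* A),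
      (∀ g, star (ρ g) = ρ g⁻¹) → (∀ j, ρ (FreeGroup.of j) ∈ B) →
      StarAlgebra.adjoin ℂ (Set.range ρ) ≤ B := by
    intro B m ρ hρ hB
    refine StarAlgebra.adjoin_le ?_
    rintro _ ⟨g, rfl⟩
    induction g using FreeGroup.induction_on with
    | C1 => rw [map_one]; exact one_mem B
    | of j => exact hB j
    | inv_of j h => rw [← hρ]; exact star_mem h
    | mul g g' h h' => rw [map_mul]; exact mul_mem h h'
  have hgen0 : l2cl τ (adj1 (adj1 P (x 0)) S₀) = ⊤ := by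
    rw [eq_top_iff, ← hgen]
    refine l2cl_le (hmem _ π hstar fun j => ?_)
    by_cases h0 : j = 0
    · subst h0; exact le_l2cl (le_adj1 self_mem_adj1)
    by_cases h1 : j = Fin.last (n + 1)
    · subst h1
      exact l2cl_mono (StarAlgebra.adjoin_le (Set.singleton_subset_iff.mpr self_mem_adj1)) hcS
    · exact le_l2cl (le_adj1 (le_adj1 (hxP j h0 h1)))
  obtain ⟨u, hu, hlaw, hgen1⟩ := absorb hf hc (hF0.mono hP0) hS hSD hH ha hparts hgen0
  set y : Fin (n + 1) → unitary A := fun j => ⟨x j.castSucc, hxu _⟩ with hy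
  have hyP : ∀ j, j ≠ 0 → (y j : A) ∈ P := fun j hj =>
    hxP _ (by simpa using hj) (Fin.castSucc_lt_last j).ne
  refine ⟨rep ⟨u, hu⟩ y, rep_star _ _, fun g hg => ?_, ?_⟩
  · obtain ⟨f, hf, h⟩ := rep_eq_ev P y hyP g
    have e : rep ⟨x 0, hxu 0⟩ y = π.comp (FreeGroup.map Fin.castSucc) := by
      refine FreeGroup.ext_hom _ _ fun j => ?_
      rw [rep_of]
      split_ifs with hj
      · subst hj; simp [hx]
      · simp [hx, hy]
    rw [h, hlaw f hf, ← h ⟨x 0, hxu 0⟩, e]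
    refine htr _ fun h1 => hg ?_
    exact FreeGroup.map_injective (Fin.castSucc_injective _) (by simpa using h1)
  · rw [eq_top_iff, ← hgen1]
    refine l2cl_le (adj1_le (l2cl_mono (StarAlgebra.adjoin_le ?_)) (le_l2cl ?_))
    · rintro _ ⟨j, h0, h1, rfl⟩
      obtain ⟨j', rfl⟩ := Fin.exists_castSucc_eq.mpr h1
      refine StarAlgebra.subset_adjoin ℂ _ ⟨FreeGroup.of j', ?_⟩
      rw [rep_of, if_neg (by simpa using h0)]
    · exact StarAlgebra.subset_adjoin ℂ _ ⟨FreeGroup.of 0, by rw [rep_of, if_pos rfl]⟩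

end abstract

theorem iso_succ (n : ℕ) (hn : 2 ≤ n) :
    ∃ Φ : LG (FreeGroup (Fin n)) ≃⋆ₐ[ℂ] LG (FreeGroup (Fin (n + 1))),
      ∀ x, gtr (FreeGroup (Fin (n + 1))) (Φ x) = gtr (FreeGroup (Fin n)) x := by
  obtain ⟨k, rfl⟩ : ∃ k, n = k + 1 := ⟨n - 1, by omega⟩
  obtain ⟨π, h1, h2, h3⟩ := drop_generator (τ := gtr (FreeGroup (Fin (k + 2)))) gtr_faithful
    gtr_complete (by omega : 1 ≤ k) (lam _) star_lam (fun _ => gtr_lam) gtr_dense
  exact exists_iso π h1 h2 h3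

end Crest.Agent.R134
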