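import Crest.Agent.R134.Defs

/-! Row 134: orthogonality relations between words in a free Haar unitary. -/

set_option autoImplicit false

open Filter Topology
open scoped ComplexConjugate

namespace Crest.Agent.R134

open Crest.Agent.R095

variable {A : Type*} [CStarAlgebra A] {τ : Tr A} {P : StarSubalgebra ℂ A} {u S : A}

/-- An orthonormal sequence of unitaries of `P`. -/
structure ONU (τ : Tr A) (P : StarSubalgebra ℂ A) (a : ℕ → P) : Prop where
  uni : ∀ i, (a i : A) ∈ unitary A
  orth : ∀ i j, i ≠ j → τ (star (a i : A) * a j) = 0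

theorem seg_unitary (hu : u ∈ unitary A) {a : ℕ → P} (ha : ONU τ P a) (i n : ℕ) :
    ev P u S (seg a i n) ∈ unitary A := by
  induction n with
  | zero => rw [seg_zero, map_one]; exact one_mem _
  | succ n ih =>
    rw [seg_succ, map_mul, map_mul, ev_pu, ev_pc]
    exact mul_mem ih (mul_mem hu (ha.uni _))

namespace Orth

/-- The value of a segment. -/
noncomputable def sv (u : A) (a : ℕ → P) (i n : ℕ) : A := ev P u 0 (seg a i n)

lemma ev_seg (a : ℕ → P) (i n : ℕ) : ev P u S (seg a i n) = sv u a i n :=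
  ev_SF (seg_mem_SF a i n) S 0

variable {a : ℕ → P}

@[simp] lemma sv_zero (i : ℕ) : sv u a i 0 = 1 := by rw [sv, seg_zero, map_one]

lemma sv_succ (i n : ℕ) : sv u a i (n + 1) = sv u a i n * (u * a (i + n)) := by
  rw [sv, seg_succ, map_mul, map_mul, ev_pu, ev_pc, sv]

lemma sv_succ' (i n : ℕ) : sv u a i (n + 1) = u * a i * sv u a (i + 1) n := by
  rw [sv, seg_succ', map_mul, map_mul, ev_pu, ev_pc, sv]

lemma sv_add (i n n' : ℕ) : sv u a i (n + n') = sv u a i n * sv u a (i + n) n' := by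
  rw [sv, seg_add, map_mul, sv, sv]

lemma sv_unitary (hu : u ∈ unitary A) (ha : ONU τ P a) (i n : ℕ) : sv u a i n ∈ unitary A :=
  seg_unitary hu ha i n

lemma star_cancel {b : A} (hb : b ∈ unitary A) (w : A) : star b * (b * w) = w := by
  rw [← mul_assoc, Unitary.star_mul_self_of_mem hb, one_mul]

lemma cancel_star {b : A} (hb : b ∈ unitary A) (w : A) : b * (star b * w) = w := by
  rw [← mul_assoc, Unitary.mul_star_self_of_mem hb, one_mul]

lemma red_tt {w x : A} (hx : x ∈ P) (h : Red τ (P : Set A) u true w) :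
    Red τ (P : Set A) u true (u * (x * w)) := by
  rw [← mul_assoc]; exact Red.cons true true x w hx (fun h => absurd rfl h) h

lemma red_ff {w x : A} (hx : x ∈ P) (h : Red τ (P : Set A) u false w) :
    Red τ (P : Set A) u false (star u * (x * w)) := by
  rw [← mul_assoc]; exact Red.cons false false x w hx (fun h => absurd rfl h) h

lemma red_tf {w x : A} (hx : x ∈ P) (h0 : τ x = 0) (h : Red τ (P : Set A) u false w) :
    Red τ (P : Set A) u true (u * (x * w)) := by
  rw [← mul_assoc]; exact Red.cons true false x w hx (fun _ => h0) h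

lemma red_ft {w x : A} (hx : x ∈ P) (h0 : τ x = 0) (h : Red τ (P : Set A) u true w) :
    Red τ (P : Set A) u false (star u * (x * w)) := by
  rw [← mul_assoc]; exact Red.cons false true x w hx (fun _ => h0) h

lemma red_t {x : A} (hx : x ∈ P) : Red τ (P : Set A) u true (u * x) := Red.last true x hx
lemma red_f {x : A} (hx : x ∈ P) : Red τ (P : Set A) u false (star u * x) := Red.last false x hx

lemma red_sv {w : A} (h : Red τ (P : Set A) u true w) (i n : ℕ) :
    Red τ (P : Set A) u true (sv u a i n * w) := by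
  induction n generalizing i with
  | zero => simpa using h
  | succ n ih => rw [sv_succ', mul_assoc, mul_assoc]; exact red_tt (a i).2 (ih _)

lemma red_sv_mem {y : A} (hy : y ∈ P) (i n : ℕ) :
    Red τ (P : Set A) u true (sv u a i (n + 1) * y) := by
  rw [sv_succ, mul_assoc, mul_assoc]
  exact red_sv (red_t (mul_mem (a _).2 hy)) i n

lemma red_sv_mul {x w : A} (hx : x ∈ P) (h : Red τ (P : Set A) u true w) (i n : ℕ) :
    Red τ (P : Set A) u true (sv u a i (n + 1) * (x * w)) := by
  rw [sv_succ, mul_assoc, mul_assoc, ← mul_assoc (a _ : A)]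
  exact red_sv (red_tt (mul_mem (a _).2 hx) h) i n

/-- Words starting with `a_l⋆ u⋆`. -/
def V (τ : Tr A) (u : A) (a : ℕ → P) (l : ℕ) (w : A) : Prop :=
  ∃ r, Red τ (P : Set A) u false r ∧ w = star (a l : A) * r

lemma V.tl {l : ℕ} {w : A} (h : V τ u a l w) {x : A} (hx : x ∈ P) :
    Red τ (P : Set A) u false (star u * (x * w)) := by
  obtain ⟨r, hr, rfl⟩ := h
  rw [← mul_assoc x]
  exact red_ff (mul_mem hx (star_mem (a l).2)) hr

lemma V.tl1 {l : ℕ} {w : A} (h : V τ u a l w) : Red τ (P : Set A) u false (star u * w) := by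
  simpa using h.tl (one_mem P)

lemma V_sv {w : A} (h : Red τ (P : Set A) u false (star u * w)) (i n : ℕ) :
    V τ u a (i + n) (star (sv u a i (n + 1)) * w) := by
  induction n with
  | zero => exact ⟨_, h, by simp [sv_succ, mul_assoc]⟩
  | succ n ih =>
    refine ⟨_, ih.tl1, ?_⟩
    rw [sv_succ i (n + 1)]
    simp only [star_mul, mul_assoc]

lemma tl_sv {w : A} (h : Red τ (P : Set A) u false (star u * w)) (i n : ℕ) :
    Red τ (P : Set A) u false (star u * (star (sv u a i n) * w)) := by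
  cases n with
  | zero => simpa using h
  | succ n => exact (V_sv h i n).tl1

lemma V.tr (hF : Free τ (P : Set A) u) {l : ℕ} {w : A} (h : V τ u a l w) {x : A} (hx : x ∈ P) :
    τ (x * w) = 0 := by
  obtain ⟨r, hr, rfl⟩ := h
  rw [← mul_assoc]
  exact hF.tr_mul hr (mul_mem hx (star_mem (a l).2))

lemma V.tr1 (hF : Free τ (P : Set A) u) {l : ℕ} {w : A} (h : V τ u a l w) : τ w = 0 := by
  simpa using h.tr hF (one_mem P)

lemma V.red (ha : ONU τ P a) {l : ℕ} {w : A} (h : V τ u a l w) {i n : ℕ} (hne : i + n ≠ l) :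
    Red τ (P : Set A) u true (sv u a i (n + 1) * w) := by
  obtain ⟨r, hr, rfl⟩ := h
  rw [sv_succ, mul_assoc, mul_assoc, ← mul_assoc (a _ : A)]
  refine red_sv (red_tf (mul_mem (a _).2 (star_mem (a l).2)) ?_ hr) i n
  rw [τ.comm]; exact ha.orth _ _ hne.symm

lemma V.tr_sv (hF : Free τ (P : Set A) u) (ha : ONU τ P a) {l : ℕ} {w : A} (h : V τ u a l w)
    {n : ℕ} (hne : n ≠ l + 1) {x : A} (hx : x ∈ P) : τ (x * (sv u a 0 n * w)) = 0 := by
  cases n with
  | zero => simpa using h.tr hF hx
  | succ n => exact hF.tr_mul (h.red ha (by omega)) hx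

lemma red_tail (ha : ONU τ P a) {i n k : ℕ} (hne : i + n + 1 ≠ k) {y : A} (hy : y ∈ P) :
    Red τ (P : Set A) u true (sv u a i (n + 1) * (star (sv u a 0 k) * y)) := by
  cases k with
  | zero => simpa using red_sv_mem hy i n
  | succ k => exact (V_sv (red_f hy) 0 k).red ha (by omega)

lemma one' (hF : Free τ (P : Set A) u) (ha : ONU τ P a) {j k : ℕ} (hjk : j ≠ k) {x y : A}
    (hx : x ∈ P) (hy : y ∈ P) : τ (x * (sv u a 0 j * (star (sv u a 0 k) * y))) = 0 := by
  cases k with
  | zero =>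
    obtain ⟨j, rfl⟩ := Nat.exists_eq_succ_of_ne_zero hjk
    simpa using hF.tr_mul (red_sv_mem hy 0 j) hx
  | succ k => exact (V_sv (red_f hy) 0 k).tr_sv hF ha (by omega) hx

lemma one'' (hF : Free τ (P : Set A) u) (ha : ONU τ P a) (j k : ℕ) {y : A} (hy : y ∈ P) :
    τ (sv u a 0 j * (star (sv u a 0 k) * y)) = if j = k then τ y else 0 := by
  split_ifs with h
  · rw [h, cancel_star (sv_unitary hF.1 ha _ _)]
  · simpa using one' hF ha h (one_mem P) hy

lemma split (τ : Tr A) (L x R : A) :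
    τ (L * (x * R)) = τ (L * ((x - τ x • (1 : A)) * R)) + τ x * τ (L * R) := by
  simp [sub_mul, mul_sub]

lemma two_zero (hF : Free τ (P : Set A) u) (ha : ONU τ P a) {j k j' k' : ℕ} (hjk : j ≠ k)
    (hjk' : j' ≠ k') {x y : A} (hx : x ∈ P) (hx0 : τ x = 0) (hy : y ∈ P) :
    τ (sv u a 0 k' * (star (sv u a 0 j') * (x * (sv u a 0 j * (star (sv u a 0 k) * y))))) = 0 := by
  cases j' with
  | succ j' =>
    have h : Red τ (P : Set A) u false (star u * (x * (sv u a 0 j * (star (sv u a 0 k) * y)))) := by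
      cases j with
      | zero =>
        obtain ⟨k, rfl⟩ := Nat.exists_eq_succ_of_ne_zero hjk.symm
        simpa using (V_sv (red_f hy) 0 k).tl hx
      | succ j => exact red_ft hx hx0 (red_tail ha (by omega) hy)
    simpa using (V_sv h 0 j').tr_sv hF ha (n := k') (by omega) (one_mem P)
  | zero =>
    obtain ⟨k', rfl⟩ := Nat.exists_eq_succ_of_ne_zero hjk'.symm
    cases j with
    | succ j =>
      simpa using hF.2 _ _ (red_sv_mul hx (red_tail ha (i := 0) (n := j) (k := k) (by omega) hy) 0 k')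
    | zero =>
      obtain ⟨k, rfl⟩ := Nat.exists_eq_succ_of_ne_zero hjk.symm
      have e : sv u a 0 (k' + 1) * (star (sv u a 0 0) * (x * (sv u a 0 0 * (star (sv u a 0 (k + 1)) * y))))
          = sv u a 0 k' * u * (((a k' : A) * x * star (a k : A)) *
            (star u * (star (sv u a 0 k) * y))) := by
        simp [sv_succ, mul_assoc]
      rw [Nat.succ_eq_add_one, Nat.succ_eq_add_one, e, split, mul_assoc, mul_assoc (sv u a 0 k'),
        cancel_star hF.1, one'' hF ha _ _ hy,
        hF.2 _ _ (red_sv (red_tf (center_mem (mul_mem (mul_mem (a k').2 hx) (star_mem (a k).2)))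
          (tr_center τ _) (tl_sv (red_f hy) 0 k)) 0 k'), zero_add]
      split_ifs with h
      · rw [h, τ.conj_unitary (ha.uni k), hx0, zero_mul]
      · rw [mul_zero]

lemma two_one (hF : Free τ (P : Set A) u) (ha : ONU τ P a) {j k j' k' : ℕ} (hjk : j ≠ k)
    (hjk' : j' ≠ k') {y : A} (hy : y ∈ P) :
    τ (sv u a 0 k' * (star (sv u a 0 j') * (sv u a 0 j * (star (sv u a 0 k) * y)))) =
      if (j, k) = (j', k') then τ y else 0 := by
  rcases lt_trichotomy j j' with h | rfl | h
  · obtain ⟨n, rfl⟩ := Nat.exists_eq_add_of_lt h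
    rw [if_neg (by simp; omega), add_assoc, sv_add, star_mul, mul_assoc,
      star_cancel (sv_unitary hF.1 ha _ _)]
    simpa using (V_sv (tl_sv (red_f hy) 0 k) (0 + j) n).tr_sv hF ha (n := k') (by omega) (one_mem P)
  · rw [star_cancel (sv_unitary hF.1 ha _ _), one'' hF ha _ _ hy]
    simp [eq_comm]
  · obtain ⟨n, rfl⟩ := Nat.exists_eq_add_of_lt h
    rw [if_neg (by simp; omega), add_assoc, sv_add, mul_assoc, star_cancel (sv_unitary hF.1 ha _ _)]
    exact hF.2 _ _ (red_sv (red_tail ha (by omega) hy) 0 k')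

lemma tl_center {c y : A} (hc : c ∈ P) (hc0 : τ c = 0) (hy : y ∈ P) (i n : ℕ) :
    Red τ (P : Set A) u false (star u * (c * (sv u a i n * y))) := by
  cases n with
  | zero => simpa using red_f (mul_mem hc hy)
  | succ n => exact red_ft hc hc0 (red_sv_mem hy i n)

lemma tr_desc (hF : Free τ (P : Set A) u) {c r : A} (hc : c ∈ P) (hc0 : τ c = 0)
    (hr : Red τ (P : Set A) u true r) (i n : ℕ) : τ (star (sv u a i n) * (c * r)) = 0 := by
  cases n with
  | zero => simpa using hF.tr_mul hr hc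
  | succ n => exact (V_sv (red_ft hc hc0 hr) i n).tr1 hF

lemma cancel_first (hu : u ∈ unitary A) (i n i' n' : ℕ) (w : A) :
    star (sv u a i' (n' + 1)) * (sv u a i (n + 1) * w)
      = star (sv u a (i' + 1) n') * ((star (a i' : A) * a i) * (sv u a (i + 1) n * w)) := by
  rw [sv_succ', sv_succ']
  simp only [star_mul, mul_assoc, star_cancel hu]

lemma three_one (hF : Free τ (P : Set A) u) (ha : ONU τ P a) {n n' j k j' k' : ℕ}
    (hm : k + n = k' + n') (hjk : j ≠ k) (hjk' : j' ≠ k') {y : A} (hy : y ∈ P) :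
    τ (star (sv u a k' (n' + 1)) * (star (sv u a 0 j') * (sv u a 0 j * (sv u a k (n + 1) * y)))) =
      if (j, k) = (j', k') then τ y else 0 := by
  have hc : ∀ i i', star (a i : A) * a i' ∈ P := fun i i' => mul_mem (star_mem (a i).2) (a i').2
  rcases lt_trichotomy j j' with h | rfl | h
  · obtain ⟨p, rfl⟩ := Nat.exists_eq_add_of_lt h
    rw [if_neg (by simp; omega), add_assoc, sv_add 0 j, star_mul, mul_assoc,
      star_cancel (sv_unitary hF.1 ha _ _), sv_succ' (0 + j) p, star_mul, mul_assoc, sv_succ' k n,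
      star_mul, mul_assoc, mul_assoc, mul_assoc, star_cancel hF.1, ← mul_assoc (star (a _ : A))]
    exact (V_sv (tl_sv (tl_center (hc _ _) (ha.orth _ _ (by omega)) hy _ _) _ _) _ _).tr1 hF
  · rw [star_cancel (sv_unitary hF.1 ha _ _)]
    by_cases hk : k = k'
    · subst hk
      have : n = n' := by omega
      subst this
      rw [star_cancel (sv_unitary hF.1 ha _ _), if_pos rfl]
    · rw [if_neg (by simp [hk]), cancel_first hF.1]
      have h0 := ha.orth k' k (Ne.symm hk)
      cases n' with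
      | succ n' => exact (V_sv (tl_center (hc _ _) h0 hy _ _) _ _).tr1 hF
      | zero =>
        obtain ⟨n, rfl⟩ := Nat.exists_eq_succ_of_ne_zero (n := n) (by omega)
        exact tr_desc hF (hc _ _) h0 (red_sv_mem hy _ _) _ _
  · obtain ⟨p, rfl⟩ := Nat.exists_eq_add_of_lt h
    rw [if_neg (by simp; omega), add_assoc, sv_add 0 j', mul_assoc,
      star_cancel (sv_unitary hF.1 ha _ _), cancel_first hF.1]
    exact tr_desc hF (hc _ _) (ha.orth _ _ (by omega)) (red_sv (red_sv_mem hy _ _) _ _) _ _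

end Orth

open Orth

theorem orth_one (hF : Free τ (P : Set A) u) {a : ℕ → P} (ha : ONU τ P a) {j k : ℕ} (hjk : j ≠ k)
    {x : A} (hx : x ∈ P) :
    τ (x * ev P u S (seg a 0 j) * star (ev P u S (seg a 0 k))) = 0 := by
  simpa only [ev_seg, mul_assoc, mul_one] using one' hF ha hjk hx (one_mem P)

theorem orth_two (hF : Free τ (P : Set A) u) {a : ℕ → P} (ha : ONU τ P a) {j k j' k' : ℕ}
    (hjk : j ≠ k) (hjk' : j' ≠ k') {x y : A} (hx : x ∈ P) (hy : y ∈ P) :
    τ (star (ev P u S (seg a 0 j') * star (ev P u S (seg a 0 k'))) * x *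
      (ev P u S (seg a 0 j) * star (ev P u S (seg a 0 k))) * y) =
      if (j, k) = (j', k') then τ x * τ y else 0 := by
  simp only [ev_seg]
  rw [mul_assoc, mul_assoc, Orth.split]
  simp only [star_mul, star_star, mul_assoc]
  rw [two_zero hF ha hjk hjk' (center_mem hx) (tr_center τ x) hy, two_one hF ha hjk hjk' hy,
    zero_add, mul_ite, mul_zero]

theorem orth_three (hF : Free τ (P : Set A) u) {a : ℕ → P} (ha : ONU τ P a) {m j k j' k' : ℕ}
    (hk : k < m) (hk' : k' < m) (hjk : j ≠ k) (hjk' : j' ≠ k') {x y : A} (hx : x ∈ P)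
    (hy : y ∈ P) :
    τ (star (ev P u S (seg a 0 j') * ev P u S (seg a k' (m - k'))) * x *
      (ev P u S (seg a 0 j) * ev P u S (seg a k (m - k))) * y) =
      if (j, k) = (j', k') then τ x * τ y else 0 := by
  obtain ⟨n, hn⟩ : ∃ n, m - k = n + 1 := ⟨m - k - 1, by omega⟩
  obtain ⟨n', hn'⟩ : ∃ n', m - k' = n' + 1 := ⟨m - k' - 1, by omega⟩
  simp only [ev_seg]
  rw [hn, hn', mul_assoc, mul_assoc, Orth.split]
  simp only [star_mul, mul_assoc]
  rw [three_one hF ha (by omega) hjk hjk' hy,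
    (V_sv (tl_sv (red_ft (center_mem hx) (tr_center τ x) (red_sv (red_sv_mem hy _ _) _ _)) _ _)
      _ _).tr1 hF, zero_add, mul_ite, mul_zero]

theorem orth_four (hF : Free τ (P : Set A) u) {a : ℕ → P} (ha : ONU τ P a) {m : ℕ}
    (hm : 0 < m) {x y : A} (hx : x ∈ P) (hy : y ∈ P) :
    τ (star (ev P u S (seg a 0 m)) * x * ev P u S (seg a 0 m) * y) = τ x * τ y := by
  obtain ⟨n, rfl⟩ := Nat.exists_eq_succ_of_ne_zero hm.ne'
  simp only [ev_seg]
  rw [mul_assoc, mul_assoc, Orth.split, star_cancel (sv_unitary hF.1 ha _ _),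
    (V_sv (red_ft (center_mem hx) (tr_center τ x) (red_sv_mem hy _ _)) _ _).tr1 hF, zero_add]

end Crest.Agent.R134
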